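import Vale.Agent.P344.R2.H715.Base

/-!
# Block matrices: parallel copies and inverses
-/

set_option linter.unusedSectionVars false

namespace Vale.Agent.P344.R2.H715

open Matrix

section mt

variable {ι κ ω ρ : Type} [Fintype ι] [DecidableEq ι] [Fintype κ] [DecidableEq κ]
  [Fintype ω] [DecidableEq ω] [Fintype ρ] [DecidableEq ρ] {p : ℕ → Prop}

theorem Mt.one (hp : p 0) : Mt p (1 : Matrix ι ι ℂ) := ⟨0, hp, IsMatch.one⟩

theorem Mt.submatrix {S : Matrix ι ι ℂ} (h : Mt p S) (e : κ ≃ ι) : Mt p (S.submatrix e e) := by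
  obtain ⟨k, hk, hS⟩ := h
  exact ⟨k, hk, hS.submatrix e⟩

theorem Mt.sum {S : Matrix ι ι ℂ} (h : Mt p S) :
    Mt p (fromBlocks S 0 0 (1 : Matrix κ κ ℂ)) := by
  obtain ⟨k, hk, hS⟩ := h
  exact ⟨k, hk, hS.sum⟩

theorem Mt.inv {S : Matrix ι ι ℂ} (h : Mt p S) :
    ∃ Q Q' : Matrix ι ι ℂ, IsMono Q ∧ IsMono Q' ∧ Q * S * Q' * S = 1 := by
  obtain ⟨k, hk, hS⟩ := h
  exact hS.inv

theorem Word.pad {r t : ℕ} {M : Matrix ι ι ℂ} (hp : p 0) (h : Word (Mt p) r M) (hrt : r ≤ t) :
    Word (Mt p) t M := by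
  obtain ⟨s, rfl⟩ := Nat.exists_eq_add_of_le hrt
  induction s with
  | zero => exact h
  | succ s ih =>
    have h1 := (ih (by omega)).mul (Word.of (Mt.one (ι := ι) hp))
    rw [Matrix.mul_one] at h1
    exact h1

theorem Word.submatrix {r : ℕ} {M : Matrix ι ι ℂ} (h : Word (Mt p) r M) (e : κ ≃ ι) :
    Word (Mt p) r (M.submatrix e e) :=
  h.map (fun M => M.submatrix e e) (fun A B => (Matrix.submatrix_mul_equiv A B e e e).symm)
    (fun _ hQ => hQ.submatrix e) fun _ hS => hS.submatrix e

/-- Different names for rows and for columns. -/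
theorem Word.submatrix₂ {r : ℕ} {M : Matrix ι ι ℂ} (h : Word (Mt p) r M) (e f : κ ≃ ι) :
    Word (Mt p) r (M.submatrix e f) := by
  have h1 : M.submatrix e f = (M.submatrix e e).submatrix (Equiv.refl κ) (f.trans e.symm) := by
    ext i j
    simp
  rw [h1, submatrix_eq_mul _ (Equiv.refl κ) (f.trans e.symm)]
  exact ((h.submatrix e).left (IsMono.perm _)).right (IsMono.perm _)

theorem Word.sum_one {r : ℕ} {M : Matrix ι ι ℂ} (h : Word (Mt p) r M) :
    Word (Mt p) r (fromBlocks M 0 0 (1 : Matrix κ κ ℂ)) :=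
  h.map (fun M => fromBlocks M 0 0 (1 : Matrix κ κ ℂ))
    (fun A B => by simp [fromBlocks_multiply])
    (fun _ hQ => hQ.sum IsMono.one) fun _ hS => hS.sum

theorem Word.one_sum {r : ℕ} {M : Matrix ι ι ℂ} (h : Word (Mt p) r M) :
    Word (Mt p) r (fromBlocks (1 : Matrix κ κ ℂ) 0 0 M) := by
  have h1 := (h.sum_one (κ := κ)).submatrix (Equiv.sumComm κ ι)
  convert h1 using 1
  ext (i | i) (j | j) <;> simp

/-- The unused cells can be renamed and more of them added. -/
theorem Word.enlarge {r : ℕ} {X : Matrix ι ι ℂ} (hc : Fintype.card ω ≤ Fintype.card ρ)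
    (h : Word (Mt p) r (fromBlocks X 0 0 (1 : Matrix ω ω ℂ))) :
    Word (Mt p) r (fromBlocks X 0 0 (1 : Matrix ρ ρ ℂ)) := by
  have e : ρ ≃ ω ⊕ Fin (Fintype.card ρ - Fintype.card ω) :=
    Fintype.equivOfCardEq (by
      simp only [Fintype.card_sum, Fintype.card_fin]
      omega)
  have h1 := (h.sum_one (κ := Fin (Fintype.card ρ - Fintype.card ω))).submatrix
    ((Equiv.sumCongr (Equiv.refl ι) e).trans (Equiv.sumAssoc _ _ _).symm)
  convert h1 using 1
  ext (i | i) (j | j)
  · simp
  · rcases hj : e j with q | q <;> simp [hj]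
  · rcases hj : e i with q | q <;> simp [hj]
  · have h2 : i = j ↔ e i = e j := e.injective.eq_iff.symm
    simp only [Matrix.one_apply, fromBlocks_apply₂₂, h2]
    rcases hi : e i with q | q <;> rcases hj : e j with q' | q' <;>
      simp [hi, hj, Matrix.one_apply]

/-- From a program for two copies with unused cells to many copies. -/
theorem Word.copies {I : Type} [Fintype I] [DecidableEq I] {A : Matrix ι ι ℂ} {t : ℕ}
    (hω : Fintype.card ω ≤ 2 * (Fintype.card I - 1) * Fintype.card ι)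
    (h : Word (Mt p) t (fromBlocks (fromBlocks A 0 0 A) 0 0 (1 : Matrix ω ω ℂ))) :
    Word (Mt p) (Fintype.card I * t) (tensor (1 : Matrix (I × Bool) (I × Bool) ℂ) A) := by
  -- the copies in `s`
  let M : Finset I → Matrix ((I × Bool) × ι) ((I × Bool) × ι) ℂ := fun s =>
    Matrix.of fun x y => if x.1 = y.1 then (if x.1.1 ∈ s then A x.2 y.2 else
      (1 : Matrix ι ι ℂ) x.2 y.2) else 0
  have hM : ∀ s x y, M s x y = if x.1 = y.1 then (if x.1.1 ∈ s then A x.2 y.2 else
      (1 : Matrix ι ι ℂ) x.2 y.2) else 0 := fun s x y => rfl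
  have hone : ∀ i, Word (Mt p) t (M {i}) := by
    intro i
    have hR : Fintype.card ω ≤ Fintype.card (({j : I // j ≠ i} × Bool) × ι) := by
      refine hω.trans (le_of_eq ?_)
      simp only [Fintype.card_prod, Fintype.card_bool]
      have : Fintype.card {j : I // j ≠ i} = Fintype.card I - 1 := by
        rw [Fintype.card_subtype_compl, Fintype.card_subtype_eq]
      rw [this]
      ring
    have h1 := h.enlarge hR
    let e : (I × Bool) × ι ≃ (ι ⊕ ι) ⊕ (({j : I // j ≠ i} × Bool) × ι) :=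
      { toFun := fun x => if h : x.1.1 = i then
            (if x.1.2 then Sum.inl (Sum.inr x.2) else Sum.inl (Sum.inl x.2))
          else Sum.inr ((⟨x.1.1, h⟩, x.1.2), x.2)
        invFun := fun y => match y with
          | Sum.inl (Sum.inl a) => ((i, false), a)
          | Sum.inl (Sum.inr a) => ((i, true), a)
          | Sum.inr ((j, b), a) => ((j.1, b), a)
        left_inv := by
          rintro ⟨⟨j, b⟩, a⟩
          by_cases hj : j = i
          · subst hj
            cases b <;> simp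
          · simp [hj]
        right_inv := by
          rintro ((a | a) | ⟨⟨⟨j, hj⟩, b⟩, a⟩)
          · simp
          · simp
          · simp [hj] }
    have he : ∀ x, e x = if h : x.1.1 = i then
            (if x.1.2 then Sum.inl (Sum.inr x.2) else Sum.inl (Sum.inl x.2))
          else Sum.inr ((⟨x.1.1, h⟩, x.1.2), x.2) := fun x => rfl
    have h2 := h1.submatrix e
    convert h2 using 1
    ext ⟨⟨j, b⟩, a⟩ ⟨⟨j', b'⟩, a'⟩
    rw [hM, Matrix.submatrix_apply, he, he]
    by_cases hj : j = i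
    · subst hj
      by_cases hj' : j' = j
      · subst hj'
        cases b <;> cases b' <;> simp
      · cases b <;> simp [hj', Ne.symm hj']
    · by_cases hj' : j' = i
      · subst hj'
        cases b' <;> simp [hj]
      · by_cases hjj : j = j' <;> by_cases hb : b = b' <;> by_cases ha : a = a' <;>
          simp [hj, hj', hjj, hb, ha, Matrix.one_apply]
  have hall : ∀ s : Finset I, Word (Mt p) (s.card * t) (M s) := by
    intro s
    induction s using Finset.induction_on with
    | empty =>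
      rw [Finset.card_empty, Nat.zero_mul]
      have : M ∅ = 1 := by
        ext ⟨x, a⟩ ⟨y, b⟩
        rw [hM]
        by_cases h1 : x = y <;> by_cases h2 : a = b <;> simp [h1, h2, Matrix.one_apply]
      rw [this]
      exact Word.one
    | insert i s hi ih =>
      rw [Finset.card_insert_of_notMem hi, show (s.card + 1) * t = t + s.card * t by ring]
      have : M (insert i s) = M {i} * M s := by
        ext ⟨x, a⟩ ⟨y, b⟩
        rw [Matrix.mul_apply, Fintype.sum_prod_type, Finset.sum_eq_single x]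
        · simp only [hM, Finset.mem_insert, Finset.mem_singleton, if_true]
          by_cases hxy : x = y
          · subst hxy
            by_cases hx : x.1 = i
            · have hx' : x.1 ∉ s := by rw [hx]; exact hi
              simp [hx, hi, Matrix.one_apply]
            · by_cases hxs : x.1 ∈ s <;> simp [hx, hxs, Matrix.one_apply]
          · simp [hxy]
        · intro x' _ hx'
          refine Finset.sum_eq_zero fun c _ => ?_
          rw [hM, if_neg (Ne.symm hx'), zero_mul]
        · intro hx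
          exact absurd (Finset.mem_univ _) hx
      rw [this]
      exact (hone i).mul ih
  have huniv := hall Finset.univ
  rw [Finset.card_univ] at huniv
  convert huniv using 1
  ext ⟨x, a⟩ ⟨y, b⟩
  rw [hM]
  by_cases hxy : x = y <;> simp [hxy]

/-! ### Whitehead's identity -/

theorem Word.mul_sum {s t : ℕ} {X Y : Matrix ι ι ℂ}
    (hX : Word (Mt p) s (fromBlocks X 0 0 (1 : Matrix ω ω ℂ)))
    (hY : Word (Mt p) t (fromBlocks Y 0 0 (1 : Matrix ω ω ℂ))) :
    Word (Mt p) (s + t) (fromBlocks (X * Y) 0 0 (1 : Matrix ω ω ℂ)) := by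
  have h1 := hX.mul hY
  simp only [fromBlocks_multiply, Matrix.mul_zero, Matrix.zero_mul, add_zero, zero_add,
    Matrix.mul_one] at h1
  exact h1

theorem Word.mono_sum {X : Matrix ι ι ℂ} (hX : IsMono X) :
    Word (Mt p) 0 (fromBlocks X 0 0 (1 : Matrix ω ω ℂ)) := .mono (hX.sum .one)

/-- The swap of two blocks. -/
theorem IsMono.swap : IsMono (fromBlocks 0 1 1 0 : Matrix (ι ⊕ ι) (ι ⊕ ι) ℂ) := by
  refine ⟨Equiv.sumComm ι ι, fun _ => 1, fun _ => one_ne_zero, ?_⟩
  ext (i | i) (j | j) <;> simp [Matrix.one_apply]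

theorem IsMono.neg {Q : Matrix ι ι ℂ} (hQ : IsMono Q) : IsMono (-Q) := by
  obtain ⟨σ, d, hd, rfl⟩ := hQ
  refine ⟨σ, fun i => - d i, fun i => neg_ne_zero.2 (hd i), ?_⟩
  ext i j
  simp only [Matrix.neg_apply, mono_apply]
  split_ifs <;> simp

theorem Word.whitehead {t : ℕ} {A Q Q' : Matrix ι ι ℂ} (hQ : IsMono Q) (hQ' : IsMono Q')
    (hA : A * (Q * A * Q') = 1)
    (h : Word (Mt p) t (fromBlocks (fromBlocks 1 0 A 1) 0 0 (1 : Matrix ω ω ℂ))) :
    Word (Mt p) (3 * t) (fromBlocks (fromBlocks A 0 0 A) 0 0 (1 : Matrix ω ω ℂ)) := by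
  obtain ⟨P, hP, hPQ, hQP⟩ := hQ.inv
  obtain ⟨P', hP', hPQ', hQP'⟩ := hQ'.inv
  have hA' : (Q * A * Q') * A = 1 := mul_eq_one_comm.1 hA
  -- the second factor
  have hV : Word (Mt p) t (fromBlocks (fromBlocks 1 (-(Q * A * Q')) 0 1) 0 0
      (1 : Matrix ω ω ℂ)) := by
    have h1 := (Word.mul_sum (Word.mul_sum (Word.mono_sum (p := p) (ω := ω)
      ((hQ.neg.sum hP').mul IsMono.swap)) h) (Word.mono_sum (IsMono.swap.mul (hP.neg.sum hQ'))))
    rw [Nat.zero_add, Nat.add_zero] at h1
    convert h1 using 2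
    simp only [fromBlocks_multiply, Matrix.mul_zero, Matrix.zero_mul, add_zero, zero_add,
      Matrix.mul_one, Matrix.one_mul, Matrix.neg_mul, Matrix.mul_neg, neg_neg, neg_zero, hQP,
      hPQ']
  have h2 := Word.mul_sum (Word.mul_sum (Word.mono_sum (p := p) (ω := ω)
    (IsMono.swap.mul (hP.neg.sum IsMono.one))) (Word.mul_sum (Word.mul_sum h hV) h))
    (Word.mono_sum (IsMono.one.sum hP'))
  rw [show 0 + (t + t + t) + 0 = 3 * t by ring] at h2
  convert h2 using 2
  simp only [fromBlocks_multiply, Matrix.mul_zero, Matrix.zero_mul, add_zero, zero_add,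
    Matrix.mul_one, Matrix.one_mul, Matrix.neg_mul, Matrix.mul_neg, neg_neg, neg_zero, hA, hA',
    add_neg_cancel, neg_add_cancel]
  rw [show P * (Q * A * Q') * P' = (P * Q) * A * (Q' * P') by simp only [Matrix.mul_assoc],
    hPQ, hQP', Matrix.one_mul, Matrix.mul_one]

end mt

end Vale.Agent.P344.R2.H715
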