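import Vale.Agent.P344.R2.H715.Cost
import Vale.Agent.P344.R2.H715.Block

/-!
# From circuits to in-place programs with unused cells
-/

set_option linter.unusedSectionVars false

namespace Vale.Agent.P344.R2.H715

open Matrix

section slide

variable {ζ : Type} [Fintype ζ] [DecidableEq ζ]

theorem transvection_apply (i j : ζ) (c : ℂ) (k l : ζ) :
    transvection i j c k l = (if k = l then 1 else 0) + (if k = i ∧ l = j then c else 0) := by
  rw [transvection, Matrix.add_apply, Matrix.one_apply, Matrix.single_apply]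
  congr 1
  by_cases h1 : k = i
  · subst h1
    by_cases h2 : l = j
    · subst h2
      simp
    · simp [h2, Ne.symm h2]
  · simp [h1, Ne.symm h1]

theorem slide_one {i j : ζ} (hij : i ≠ j) : Slide (transvection i j (1 : ℂ)) := by
  let e : ζ ≃ (Unit × Bool) ⊕ {k : ζ // k ≠ i ∧ k ≠ j} :=
    { toFun := fun k => if h : k = i then Sum.inl ((), false) else
        if h' : k = j then Sum.inl ((), true) else Sum.inr ⟨k, h, h'⟩
      invFun := fun p => match p with
        | Sum.inl (_, false) => i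
        | Sum.inl (_, true) => j
        | Sum.inr k => k.1
      left_inv := by
        intro k
        by_cases h : k = i
        · subst h
          simp
        · by_cases h' : k = j
          · subst h'
            simp [h]
          · simp [h, h']
      right_inv := by
        rintro (⟨⟨⟩, b⟩ | ⟨k, h, h'⟩)
        · cases b
          · simp
          · simp [hij.symm]
        · simp [h, h'] }
  have he : ∀ k, e k = if h : k = i then Sum.inl ((), false) else
        if h' : k = j then Sum.inl ((), true) else Sum.inr ⟨k, h, h'⟩ := fun k => rfl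
  refine ⟨1, le_rfl, Unit, {k : ζ // k ≠ i ∧ k ≠ j}, inferInstance, inferInstance, inferInstance,
    inferInstance, e, rfl, ?_⟩
  ext k l
  rw [transvection_apply, Matrix.submatrix_apply, he, he]
  by_cases hk : k = i
  · subst hk
    by_cases hl : l = k
    · subst hl
      simp [core, hij]
    · by_cases hl' : l = j
      · subst hl'
        simp [core, hij, hl]
      · simp [core, hl, hl', Ne.symm hl]
  · by_cases hk' : k = j
    · subst hk'
      by_cases hl : l = i
      · subst hl
        simp [core, hij, Ne.symm hij, show ¬ ((true : Bool) ≤ false) by decide]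
      · by_cases hl' : l = k
        · subst hl'
          simp [core, hl]
        · simp [core, hl, hl', Ne.symm hl', hk]
    · by_cases hl : l = i
      · subst hl
        simp [core, hk, hk']
      · by_cases hl' : l = j
        · subst hl'
          simp [core, hl, hk', hk]
        · simp [core, hl, hl', hk, hk', Matrix.one_apply]

theorem word_transvection {i j : ζ} (hij : i ≠ j) (c : ℂ) :
    Word Slide 1 (transvection i j c) := by
  by_cases hc : c = 0
  · rw [hc, transvection_zero]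
    exact Word.one.pad (Nat.zero_le _) (Nat.zero_le _)
  · have h1 : transvection i j c =
        Matrix.diagonal (fun k => if k = i then c else 1) * transvection i j 1 *
          Matrix.diagonal (fun k => if k = i then c⁻¹ else 1) := by
      ext k l
      rw [Matrix.mul_diagonal, Matrix.diagonal_mul, transvection_apply, transvection_apply]
      by_cases hk : k = i
      · subst hk
        by_cases hl : l = k
        · subst hl
          simp [hij, hc]
        · by_cases hl' : l = j <;> simp [hl, hl', Ne.symm hl, hij, hij.symm]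
      · by_cases hl : l = i
        · simp [hk, hl]
        · simp [hk, hl]
    rw [h1]
    refine ((Word.of (slide_one hij)).left (IsMono.diag fun k => ?_)).right
      (IsMono.diag fun k => ?_)
    · split_ifs
      · exact hc
      · exact one_ne_zero
    · split_ifs
      · exact inv_ne_zero hc
      · exact one_ne_zero

/-- Adding a row to another row. -/
theorem Word.addRow {r : ℕ} {M : Matrix ζ ζ ℂ} (h : Word Slide r M) {i j : ζ} (hij : i ≠ j)
    (c : ℂ) : Word Slide (r + 1) (Matrix.of fun k l => M k l + if k = i then c * M j l else 0) := by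
  have h1 := (word_transvection hij c).mul h
  rw [Nat.add_comm] at h1
  convert h1 using 1
  ext k l
  rw [Matrix.mul_apply]
  simp only [transvection_apply, add_mul, Finset.sum_add_distrib, Matrix.of_apply]
  congr 1
  · simp
  · by_cases hk : k = i <;> simp [hk]

/-- Simultaneous additions of rows, with all sources outside the targets. -/
theorem word_rows (f : ζ → ζ) (s : Finset ζ) (hf : ∀ z ∈ s, f z ∉ s) :
    Word Slide s.card (Matrix.of fun k l =>
      (if k = l then (1 : ℂ) else 0) + if k ∈ s ∧ f k = l then 1 else 0) := by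
  induction s using Finset.induction_on with
  | empty =>
    have h1 : (Matrix.of fun k l => (if k = l then (1 : ℂ) else 0) +
        if k ∈ (∅ : Finset ζ) ∧ f k = l then 1 else 0) = 1 := by
      ext k l
      simp [Matrix.one_apply]
    rw [h1]
    exact Word.one
  | insert a s ha ih =>
    have hfa : f a ∉ insert a s := hf a (Finset.mem_insert_self _ _)
    have hfs : ∀ z ∈ s, f z ∉ s := fun z hz h =>
      hf z (Finset.mem_insert_of_mem hz) (Finset.mem_insert_of_mem h)
    rw [Finset.mem_insert, not_or] at hfa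
    have h1 := (ih hfs).addRow (Ne.symm hfa.1) 1
    rw [Finset.card_insert_of_notMem ha]
    convert h1 using 1
    ext k l
    simp only [Matrix.of_apply, Finset.mem_insert]
    by_cases hk : k = a
    · subst hk
      simp [ha, hfa.2]
    · simp [hk]

/-- The inverse of a word, given explicitly. -/
theorem Word.inv_eq {p : ℕ → Prop} {r : ℕ} {M N : Matrix ζ ζ ℂ} (h : Word (Mt p) r M)
    (hMN : M * N = 1) : Word (Mt p) r N := by
  obtain ⟨N', hN', h1, -⟩ := h.inv fun S hS => hS.inv
  have : N' = N := by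
    calc N' = N' * (M * N) := by rw [hMN, Matrix.mul_one]
      _ = N := by rw [← Matrix.mul_assoc, h1, Matrix.one_mul]
  rwa [this] at hN'

end slide

section dirty

variable {ι κ : Type} [Fintype ι] [DecidableEq ι] [Fintype κ] [DecidableEq κ]

/-- The form in a cell: `0`, an input or a register. -/
def rB {W : Type} (B : Matrix W (ι ⊕ κ) ℂ) : Option (ι ⊕ W) → ι ⊕ κ → ℂ
  | none => 0
  | some (.inl i) => Pi.single (.inl i) 1
  | some (.inr t) => B t

/-- The dependence of a cell on the old contents of the registers. -/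
def rK {W : Type} (K : Matrix W W ℂ) : Option (ι ⊕ W) → W → ℂ
  | none => 0
  | some (.inl _) => 0
  | some (.inr t) => K t

theorem ext_row {W : Type} [Fintype W] [DecidableEq W] {B : Matrix W (ι ⊕ κ) ℂ}
    {K : Matrix W W ℂ} {b : ι ⊕ κ → ℂ} {k : W → ℂ} {r : ℕ}
    (h : Word Slide r (fromBlocks (fromBlocks (1 : Matrix (ι ⊕ κ) (ι ⊕ κ) ℂ) 0 B K) 0
      (Matrix.of fun (_ : Unit) z => Sum.elim b k z) 1)) (c : Option (ι ⊕ W)) (α : ℂ) :
    Word Slide (r + 1) (fromBlocks (fromBlocks (1 : Matrix (ι ⊕ κ) (ι ⊕ κ) ℂ) 0 B K) 0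
      (Matrix.of fun (_ : Unit) z => Sum.elim (b + α • rB B c) (k + α • rK K c) z) 1) := by
  rcases c with _ | (i | t)
  · have h1 : (α • rB B none : ι ⊕ κ → ℂ) = 0 := by simp [rB]
    have h2 : (α • rK K (none : Option (ι ⊕ W))) = 0 := by simp [rK]
    rw [h1, h2, add_zero, add_zero]
    exact h.pad (Nat.zero_le _) (Nat.le_succ _)
  · have h1 := h.addRow (i := Sum.inr ()) (j := Sum.inl (Sum.inl (Sum.inl i))) (by simp) α
    convert h1 using 1
    ext ((z | z) | ⟨⟩) ((w | w) | ⟨⟩)
    all_goals simp [rB, rK, Pi.single_apply, Matrix.one_apply, eq_comm]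
  · have h1 := h.addRow (i := Sum.inr ()) (j := Sum.inl (Sum.inr t)) (by simp) α
    convert h1 using 1
    ext ((z | z) | ⟨⟩) ((w | w) | ⟨⟩)
    all_goals simp [rB, rK]

theorem ext_row' {W : Type} [Fintype W] [DecidableEq W]
    {K : Matrix W W ℂ} {k : W → ℂ} {r : ℕ}
    (h : Word Slide r (fromBlocks (fromBlocks (1 : Matrix (ι ⊕ κ) (ι ⊕ κ) ℂ) 0 0 K) 0
      (Matrix.of fun (_ : Unit) z => Sum.elim 0 k z) 1)) (c : Option (ι ⊕ W)) (α : ℂ) :
    Word Slide (r + 1) (fromBlocks (fromBlocks (1 : Matrix (ι ⊕ κ) (ι ⊕ κ) ℂ) 0 0 K) 0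
      (Matrix.of fun (_ : Unit) z => Sum.elim 0 (k + α • rK K c) z) 1) := by
  rcases c with _ | (i | t)
  · have h2 : (α • rK K (none : Option (ι ⊕ W))) = 0 := by simp [rK]
    rw [h2, add_zero]
    exact h.pad (Nat.zero_le _) (Nat.le_succ _)
  · have h2 : (α • rK K (some (Sum.inl i) : Option (ι ⊕ W))) = 0 := by simp [rK]
    rw [h2, add_zero]
    exact h.pad (Nat.zero_le _) (Nat.le_succ _)
  · have h1 := h.addRow (i := Sum.inr ()) (j := Sum.inl (Sum.inr t)) (by simp) α
    convert h1 using 1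
    ext ((z | z) | ⟨⟩) ((w | w) | ⟨⟩)
    all_goals simp [rK]

/-- The values in `V` can be computed by an in-place program that adds to registers with arbitrary
contents. -/
def Reg (ι κ : Type) [Fintype ι] [DecidableEq ι] [Fintype κ] [DecidableEq κ] (s : ℕ)
    (V : Set (ℕ × ((ι → ℂ) → ℂ))) : Prop :=
  ∃ (W : Type) (_ : Fintype W) (_ : DecidableEq W) (B : Matrix W (ι ⊕ κ) ℂ) (K : Matrix W W ℂ),
    Fintype.card W = s ∧ (∀ t k, B t (Sum.inr k) = 0) ∧
    Word Slide (2 * s) (fromBlocks (1 : Matrix (ι ⊕ κ) (ι ⊕ κ) ℂ) 0 B K) ∧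
    Word Slide (2 * s) (fromBlocks (1 : Matrix (ι ⊕ κ) (ι ⊕ κ) ℂ) 0 0 K) ∧
    ∀ p ∈ V, ∃ c : Option (ι ⊕ W), p.2 = fun x => ∑ i, rB B c (Sum.inl i) * x i

theorem Reg.step {s : ℕ} {V : Set (ℕ × ((ι → ℂ) → ℂ))} (h : Reg ι κ s V)
    {p q : ℕ × ((ι → ℂ) → ℂ)} (hp : p ∈ V) (hq : q ∈ V) (α β : ℂ) (d : ℕ) :
    Reg ι κ (s + 1) (insert (d, α • p.2 + β • q.2) V) := by
  obtain ⟨W, i1, i2, B, K, hW, hB, hP, hK, hV⟩ := h
  obtain ⟨c₁, hc₁⟩ := hV p hp
  obtain ⟨c₂, hc₂⟩ := hV q hq
  set b : ι ⊕ κ → ℂ := 0 + α • rB B c₁ + β • rB B c₂ with hb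
  set k : W → ℂ := 0 + α • rK K c₁ + β • rK K c₂ with hk
  have hsome : ∀ c : Option (ι ⊕ W), ∀ j : κ, rB B c (Sum.inr j) = 0 := by
    rintro (_ | (i | t)) j
    · rfl
    · simp [rB]
    · exact hB t j
  refine ⟨W ⊕ Unit, inferInstance, inferInstance,
    Matrix.of fun w j => Sum.elim (fun t => B t j) (fun _ => b j) w,
    fromBlocks K 0 (Matrix.of fun _ z => k z) 1, by simp [hW], ?_, ?_, ?_, ?_⟩
  · rintro (t | t) j
    · exact hB t j
    · simp [hb, hsome]
  · have h0 : Word Slide (2 * s) (fromBlocks (fromBlocks (1 : Matrix (ι ⊕ κ) (ι ⊕ κ) ℂ) 0 B K) 0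
        (Matrix.of fun (_ : Unit) z => Sum.elim (0 : ι ⊕ κ → ℂ) (0 : W → ℂ) z) 1) := by
      convert hP.sum_one (κ := Unit) using 1
      ext ((z | z) | ⟨⟩) ((w | w) | ⟨⟩) <;> simp
    have h1 := (ext_row (ext_row h0 c₁ α) c₂ β).submatrix
      (Equiv.sumAssoc (ι ⊕ κ) W Unit).symm
    rw [show 2 * (s + 1) = 2 * s + 1 + 1 by ring]
    convert h1 using 1
    ext (z | (z | ⟨⟩)) (w | (w | ⟨⟩)) <;> simp [hb, hk]
  · have h0 : Word Slide (2 * s) (fromBlocks (fromBlocks (1 : Matrix (ι ⊕ κ) (ι ⊕ κ) ℂ) 0 0 K) 0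
        (Matrix.of fun (_ : Unit) z => Sum.elim (0 : ι ⊕ κ → ℂ) (0 : W → ℂ) z) 1) := by
      convert hK.sum_one (κ := Unit) using 1
      ext ((z | z) | ⟨⟩) ((w | w) | ⟨⟩) <;> simp
    have h1 := (ext_row' (ext_row' h0 c₁ α) c₂ β).submatrix
      (Equiv.sumAssoc (ι ⊕ κ) W Unit).symm
    rw [show 2 * (s + 1) = 2 * s + 1 + 1 by ring]
    convert h1 using 1
    ext (z | (z | ⟨⟩)) (w | (w | ⟨⟩)) <;> simp [hk]
  · rintro a (rfl | ha)
    · refine ⟨some (Sum.inr (Sum.inr ())), ?_⟩
      rw [hc₁, hc₂]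
      funext x
      simp only [rB, hb, Matrix.of_apply, Sum.elim_inr, Pi.add_apply, Pi.smul_apply, smul_eq_mul,
        zero_add, add_mul, Finset.sum_add_distrib, Finset.mul_sum, mul_assoc]
    · obtain ⟨c, hc⟩ := hV a ha
      refine ⟨c.map (Sum.map id Sum.inl), ?_⟩
      rw [hc]
      rcases c with _ | (i | t) <;> rfl

theorem Steps.reg {s : ℕ} {V : Set (ℕ × ((ι → ℂ) → ℂ))}
    (h : Steps Set.univ (inputs ι) s V) : Reg ι κ s V := by
  induction h with
  | zero =>
    refine ⟨Empty, inferInstance, inferInstance, 0, 1, rfl, fun t => t.elim, ?_, ?_, ?_⟩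
    · have : fromBlocks (1 : Matrix (ι ⊕ κ) (ι ⊕ κ) ℂ) 0 0 (1 : Matrix Empty Empty ℂ) = 1 :=
        fromBlocks_one
      rw [this]
      exact Word.one
    · have : fromBlocks (1 : Matrix (ι ⊕ κ) (ι ⊕ κ) ℂ) 0 0 (1 : Matrix Empty Empty ℂ) = 1 :=
        fromBlocks_one
      rw [this]
      exact Word.one
    · rintro p ⟨-, hp | ⟨i, hp⟩⟩
      · refine ⟨none, ?_⟩
        rw [hp]
        funext x
        simp [rB]
      · refine ⟨some (Sum.inl i), ?_⟩
        rw [hp]
        funext x
        simp [rB, Pi.single_apply]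
  | add _ h1 h2 ih =>
    have := Reg.step ih h1 h2 1 1
    simpa using this _
  | sub _ h1 h2 ih =>
    have := Reg.step ih h1 h2 1 (-1)
    simpa [sub_eq_add_neg] using this _
  | smul c _ h1 _ ih =>
    have := Reg.step ih h1 h1 c 0
    simpa using this _

/-- A circuit with `s` gates gives an in-place program `y += A x` that restores unused cells. -/
theorem Cost.dirty {A : Matrix κ ι ℂ} {s : ℕ} (h : Cost A s) :
    ∃ (W : Type) (_ : Fintype W) (_ : DecidableEq W), Fintype.card W ≤ s ∧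
      Word Slide (8 * s + 2 * Fintype.card κ)
        (fromBlocks (fromBlocks (1 : Matrix ι ι ℂ) 0 A (1 : Matrix κ κ ℂ)) 0 0
          (1 : Matrix W W ℂ)) := by
  obtain ⟨d, s', hs', V, hV, hA⟩ := h
  obtain ⟨W, i1, i2, B, K, hW, hB, hP, hK, hreg⟩ := Steps.reg (κ := κ) hV
  refine ⟨W, i1, i2, hW.le.trans hs', ?_⟩
  -- the sources of the outputs
  have hc : ∀ k : κ, ∃ c : Option (ι ⊕ W), ∀ i, A k i = rB B c (Sum.inl i) := by
    intro k
    obtain ⟨d', -, hd'⟩ := hA _ (mem_tg k)
    obtain ⟨c, hc⟩ := hreg _ hd'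
    refine ⟨c, fun i => ?_⟩
    have h1 := congrFun hc (Pi.single i 1)
    simpa [Pi.single_apply] using h1
  choose c hc using hc
  -- inverses
  obtain ⟨N, hN, hN1, hN2⟩ := hK.inv fun S hS => hS.inv
  set K' : Matrix W W ℂ := N.toBlocks₂₂ with hK'def
  have hKK' : K * K' = 1 := by
    have h1 : (fromBlocks (1 : Matrix (ι ⊕ κ) (ι ⊕ κ) ℂ) 0 0 K * N).toBlocks₂₂ = 1 := by
      rw [hN2]
      ext i j
      simp [Matrix.toBlocks₂₂, Matrix.one_apply]
    rw [← fromBlocks_toBlocks N, fromBlocks_multiply, toBlocks_fromBlocks₂₂, Matrix.zero_mul,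
      zero_add] at h1
    exact h1
  have hK'K : K' * K = 1 := mul_eq_one_comm.1 hKK'
  have hKi : Word Slide (2 * s') (fromBlocks (1 : Matrix (ι ⊕ κ) (ι ⊕ κ) ℂ) 0 0 K') :=
    hK.inv_eq (by
      rw [fromBlocks_multiply]
      simp [hKK'])
  have hPi : Word Slide (2 * s') (fromBlocks (1 : Matrix (ι ⊕ κ) (ι ⊕ κ) ℂ) 0 (-(K' * B)) K') :=
    hP.inv_eq (by
      rw [fromBlocks_multiply]
      simp [hKK', ← Matrix.mul_assoc])
  -- the selection matrices
  set Q : Matrix (ι ⊕ κ) W ℂ := Matrix.of fun j w =>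
    Sum.elim (fun _ => (0 : ℂ)) (fun k => if c k = some (Sum.inr w) then 1 else 0) j with hQ
  set R : Matrix (ι ⊕ κ) (ι ⊕ κ) ℂ := fromBlocks 0 0
    (Matrix.of fun k i => if c k = some (Sum.inl i) then 1 else 0) 0 with hR
  have hBQ : B * Q = 0 := by
    ext t w
    rw [Matrix.mul_apply, Fintype.sum_sum_type]
    simp [hQ, hB]
  have hRQ : R * Q = 0 := by
    ext j w
    rw [Matrix.mul_apply, Fintype.sum_sum_type]
    rcases j with j | j <;> simp [hQ, hR]
  have hQB : (1 + R) * (1 + Q * B) = fromBlocks 1 0 A 1 := by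
    rw [Matrix.mul_add, Matrix.mul_one, ← Matrix.mul_assoc, Matrix.add_mul, Matrix.one_mul, hRQ,
      add_zero, ← fromBlocks_one]
    ext (i | k) (i' | k')
    · simp [hR, hQ, Matrix.mul_apply, Matrix.one_apply]
    · simp [hR, hQ, Matrix.mul_apply]
    · simp only [hR, hQ, fromBlocks_add, Matrix.add_apply, fromBlocks_apply₂₁, Matrix.mul_apply,
        Matrix.of_apply, Sum.elim_inr, hc, zero_add]
      rcases hck : c k with _ | (i | t)
      · simp [rB]
      · simp [rB, Pi.single_apply, eq_comm]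
      · simp [rB]
    · simp [hR, hQ, Matrix.mul_apply, hB, Matrix.one_apply]
  -- the two sets of outputs
  set s₁ : Finset κ := Finset.univ.filter fun k => ∃ w, c k = some (Sum.inr w) with hs₁
  set s₂ : Finset κ := Finset.univ.filter fun k => ∃ i, c k = some (Sum.inl i) with hs₂
  have hcards : s₁.card + s₂.card ≤ Fintype.card κ := by
    rw [← Finset.card_union_of_disjoint]
    · exact Finset.card_le_univ _
    · rw [Finset.disjoint_left]
      intro k hk hk'
      rw [hs₁, Finset.mem_filter] at hk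
      rw [hs₂, Finset.mem_filter] at hk'
      obtain ⟨-, w, hw⟩ := hk
      obtain ⟨-, i, hi⟩ := hk'
      rw [hw] at hi
      simp at hi
  let emb : κ ↪ (ι ⊕ κ) ⊕ W := ⟨fun k => Sum.inl (Sum.inr k), fun a b h => by simpa using h⟩
  have hemb : ∀ k, emb k = Sum.inl (Sum.inr k) := fun k => rfl
  have hU : Word Slide s₁.card (fromBlocks (1 : Matrix (ι ⊕ κ) (ι ⊕ κ) ℂ) Q 0 1) := by
    let f : (ι ⊕ κ) ⊕ W → (ι ⊕ κ) ⊕ W := Sum.elim (Sum.elim (fun i => Sum.inl (Sum.inl i))
      fun k => (c k).elim (Sum.inl (Sum.inr k)) (Sum.elim (fun _ => Sum.inl (Sum.inr k))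
        fun w => Sum.inr w)) fun w => Sum.inr w
    have h1 := word_rows f (s₁.map emb) (by
      intro z hz
      rw [Finset.mem_map] at hz
      obtain ⟨k, hk, rfl⟩ := hz
      rw [hs₁, Finset.mem_filter] at hk
      obtain ⟨-, w, hw⟩ := hk
      simp [f, hemb, hw])
    rw [Finset.card_map] at h1
    convert h1 using 1
    ext ((z | z) | z) ((w | w) | w)
    all_goals simp only [Matrix.of_apply, Finset.mem_map, hemb]
    · simp [Matrix.one_apply]
    · simp
    · simp [hQ]
    · rcases hz : c z with _ | (i | t) <;> simp [f, hs₁, hz]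
    · rcases hz : c z with _ | (i | t) <;> simp [f, hs₁, hz, Matrix.one_apply]
    · rcases hz : c z with _ | (i | t) <;> simp [f, hs₁, hz, hQ]
    · simp
    · simp
    · simp [Matrix.one_apply]
  have hR' : Word Slide s₂.card (fromBlocks (1 + R) 0 0 (1 : Matrix W W ℂ)) := by
    let f : (ι ⊕ κ) ⊕ W → (ι ⊕ κ) ⊕ W := Sum.elim (Sum.elim (fun i => Sum.inl (Sum.inl i))
      fun k => (c k).elim (Sum.inl (Sum.inr k)) (Sum.elim (fun i => Sum.inl (Sum.inl i))
        fun _ => Sum.inl (Sum.inr k))) fun w => Sum.inr w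
    have h1 := word_rows f (s₂.map emb) (by
      intro z hz
      rw [Finset.mem_map] at hz
      obtain ⟨k, hk, rfl⟩ := hz
      rw [hs₂, Finset.mem_filter] at hk
      obtain ⟨-, w, hw⟩ := hk
      simp [f, hemb, hw])
    rw [Finset.card_map] at h1
    convert h1 using 1
    ext ((z | z) | z) ((w | w) | w)
    all_goals simp only [Matrix.of_apply, Finset.mem_map, hemb]
    · simp [hR, Matrix.one_apply]
    · simp [hR]
    · simp
    · rcases hz : c z with _ | (i | t) <;> simp [f, hs₂, hz, hR]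
    · rcases hz : c z with _ | (i | t) <;> simp [f, hs₂, hz, hR, Matrix.one_apply]
    · rcases hz : c z with _ | (i | t) <;> simp [f, hs₂, hz]
    · simp
    · simp
    · simp [Matrix.one_apply]
  have hUi : Word Slide s₁.card (fromBlocks (1 : Matrix (ι ⊕ κ) (ι ⊕ κ) ℂ) (-Q) 0 1) :=
    hU.inv_eq (by
      rw [fromBlocks_multiply]
      simp)
  -- the commutator
  have h1 : Word Slide (2 * s' + s₁.card + 2 * s')
      (fromBlocks (1 : Matrix (ι ⊕ κ) (ι ⊕ κ) ℂ) (-(Q * K)) 0 1) := by
    convert (hKi.mul hUi).mul hK using 1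
    simp only [fromBlocks_multiply, Matrix.mul_zero, Matrix.zero_mul, add_zero, zero_add,
      Matrix.mul_one, Matrix.one_mul, Matrix.neg_mul, hK'K]
  have h2 : Word Slide (2 * s' + s₁.card + 2 * s')
      (fromBlocks (1 + Q * B) (Q * K) 0 1) := by
    convert (hPi.mul hU).mul hP using 1
    simp only [fromBlocks_multiply, Matrix.mul_zero, add_zero, zero_add,
      Matrix.mul_one, Matrix.one_mul, Matrix.neg_mul, hK'K, Matrix.mul_assoc, hBQ, neg_zero,
      neg_add_cancel]
  have h3 : Word Slide (8 * s' + 2 * s₁.card) (fromBlocks (1 + Q * B) 0 0 (1 : Matrix W W ℂ)) := by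
    have h4 := h1.mul h2
    rw [show 2 * s' + s₁.card + 2 * s' + (2 * s' + s₁.card + 2 * s') = 8 * s' + 2 * s₁.card by
      ring] at h4
    convert h4 using 1
    simp only [fromBlocks_multiply, Matrix.mul_zero, Matrix.zero_mul, add_zero, zero_add,
      Matrix.mul_one, Matrix.one_mul, add_neg_cancel]
  have h5 := hR'.mul_sum h3
  rw [hQB] at h5
  exact h5.pad (Nat.zero_le _) (by omega)

end dirty

end Vale.Agent.P344.R2.H715
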