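import Vale.Agent.P344.R2.H715.Gates2

/-!
# A linear functional from the extension theorem of M. Riesz
-/

set_option linter.unusedSectionVars false

namespace Vale.Agent.P344.R2.H715

open Matrix Filter

noncomputable instance : DecidableEq Gate := Classical.decEq _

/-- A family as a vector. -/
noncomputable def vec (m : Multiset Gate) : Gate →₀ ℝ :=
  (Multiset.toFinsupp m).mapRange (fun n : ℕ => (n : ℝ)) Nat.cast_zero

theorem vec_apply (m : Multiset Gate) (g : Gate) : vec m g = (m.count g : ℝ) := by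
  simp [vec]

theorem vec_add (m m' : Multiset Gate) : vec (m + m') = vec m + vec m' := by
  ext g
  simp [vec_apply]

theorem vec_singleton (g : Gate) : vec {g} = Finsupp.single g 1 := by
  ext h
  rw [vec_apply, Multiset.count_singleton, Finsupp.single_apply]
  by_cases h1 : h = g
  · subst h1
    simp
  · rw [if_neg h1, if_neg (Ne.symm h1), Nat.cast_zero]

theorem vec_nsmul (N : ℕ) (m : Multiset Gate) : vec (N • m) = (N : ℝ) • vec m := by
  ext g
  simp [vec_apply, Multiset.count_nsmul]

theorem vec_zero : vec 0 = 0 := by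
  ext g
  simp [vec_apply]

/-- The limits of comparisons. -/
def Lim (v : Gate →₀ ℝ) : Prop :=
  ∃ K : Multiset Gate, ∀ q : ℕ, ∃ l r : Multiset Gate, Dom l r ∧
    ∀ g, |q * v g - (r.count g - l.count g)| ≤ K.count g

theorem Lim.add {v v' : Gate →₀ ℝ} (h : Lim v) (h' : Lim v') : Lim (v + v') := by
  obtain ⟨K, hK⟩ := h
  obtain ⟨K', hK'⟩ := h'
  refine ⟨K + K', fun q => ?_⟩
  obtain ⟨l, r, h1, h2⟩ := hK q
  obtain ⟨l', r', h1', h2'⟩ := hK' q
  refine ⟨l + l', r + r', h1.add h1', fun g => ?_⟩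
  have h3 := h2 g
  have h4 := h2' g
  rw [Finsupp.add_apply, Multiset.count_add, Multiset.count_add, Multiset.count_add]
  push_cast
  rw [abs_le] at h3 h4 ⊢
  constructor <;> linarith [h3.1, h3.2, h4.1, h4.2]

theorem Lim.smul {v : Gate →₀ ℝ} (h : Lim v) {t : ℝ} (ht : 0 ≤ t) : Lim (t • v) := by
  obtain ⟨K, hK⟩ := h
  let C : Multiset Gate := Finsupp.toMultiset (v.mapRange (fun x : ℝ => ⌈|x|⌉₊) (by simp))
  have hC : ∀ g, |v g| ≤ C.count g := by
    intro g
    simp only [C, Finsupp.count_toMultiset, Finsupp.mapRange_apply]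
    exact Nat.le_ceil _
  refine ⟨K + C, fun q => ?_⟩
  obtain ⟨l, r, h1, h2⟩ := hK ⌊q * t⌋₊
  refine ⟨l, r, h1, fun g => ?_⟩
  have h3 := h2 g
  have h4 := hC g
  have h5 : (⌊q * t⌋₊ : ℝ) ≤ q * t := Nat.floor_le (by positivity)
  have h6 : q * t < ⌊q * t⌋₊ + 1 := Nat.lt_floor_add_one _
  rw [Finsupp.smul_apply, smul_eq_mul, Multiset.count_add]
  push_cast
  have h7 : |(q * t - ⌊q * t⌋₊) * v g| ≤ 1 * |v g| := by
    rw [abs_mul]
    refine mul_le_mul_of_nonneg_right ?_ (abs_nonneg _)
    rw [abs_le]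
    constructor <;> linarith
  have h8 : q * (t * v g) - ((r.count g : ℝ) - l.count g) =
      (q * t - ⌊q * t⌋₊) * v g + (⌊q * t⌋₊ * v g - (r.count g - l.count g)) := by ring
  rw [h8]
  refine (abs_add_le _ _).trans ?_
  linarith

theorem Dom.lim {l r : Multiset Gate} (h : Dom l r) : Lim (vec r - vec l) := by
  refine ⟨0, fun q => ⟨q • l, q • r, h.nsmul q, fun g => ?_⟩⟩
  rw [Finsupp.sub_apply, vec_apply, vec_apply, Multiset.count_nsmul, Multiset.count_nsmul,
    Multiset.count_zero]
  push_cast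
  rw [← mul_sub, sub_self, abs_zero]

/-! ### Inverses -/

/-- The inverse of a gate. -/
noncomputable def ginv (g : Gate) : Gate :=
  ⟨g.n, g.pos, ((g.unit.unit⁻¹ : (Matrix (Fin g.n) (Fin g.n) ℂ)ˣ) : Matrix (Fin g.n) (Fin g.n) ℂ),
    Units.isUnit _⟩

theorem dom_ginv (g : Gate) : Dom 0 ({g} + {ginv g}) := by
  have h1 : Dom 0 {⟨g.n, g.pos, 1, isUnit_one⟩} := (dom_mono (g := ⟨g.n, g.pos, 1, isUnit_one⟩)
    IsMono.one).2
  have h2 := dom_mul g.pos g.unit (Units.isUnit g.unit.unit⁻¹)
  have h3 : g.M * ((g.unit.unit⁻¹ : (Matrix (Fin g.n) (Fin g.n) ℂ)ˣ) :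
      Matrix (Fin g.n) (Fin g.n) ℂ) = 1 := g.unit.mul_val_inv
  refine h1.trans (Dom.trans (dom_eqv ?_) h2)
  exact ⟨Equiv.refl _, by
    change (1 : Matrix (Fin g.n) (Fin g.n) ℂ) = g.M * ((g.unit.unit⁻¹ :
      (Matrix (Fin g.n) (Fin g.n) ℂ)ˣ) : Matrix (Fin g.n) (Fin g.n) ℂ)
    rw [h3]⟩

/-- Bound for removing a family. -/
noncomputable def rho (m : Multiset Gate) : ℝ := (m.map fun g => cc (ginv g).M).sum

theorem rho_add (m m' : Multiset Gate) : rho (m + m') = rho m + rho m' := by
  simp [rho]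

theorem rho_nonneg (m : Multiset Gate) : 0 ≤ rho m := by
  unfold rho
  refine Multiset.sum_nonneg fun x hx => ?_
  rw [Multiset.mem_map] at hx
  obtain ⟨g, -, rfl⟩ := hx
  exact cc_nonneg _

theorem rho_nsmul (N : ℕ) (m : Multiset Gate) : rho (N • m) = N * rho m := by
  induction N with
  | zero => simp [rho]
  | succ N ih =>
    rw [succ_nsmul, rho_add, ih]
    push_cast
    ring

theorem rho_le {m m' : Multiset Gate} (h : m ≤ m') : rho m ≤ rho m' := by
  obtain ⟨u, rfl⟩ := Multiset.le_iff_exists_add.1 h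
  rw [rho_add]
  linarith [rho_nonneg u]

theorem Gam_le_add (x b : Multiset Gate) : Gam x ≤ Gam (x + b) + rho b := by
  induction b using Multiset.induction_on with
  | empty => simp [rho]
  | cons g b ih =>
    have h1 := dom_ginv g (x + b)
    rw [zero_add] at h1
    have h2 : ({g} : Multiset Gate) + {ginv g} + (x + b) = (x + g ::ₘ b) + {ginv g} := by
      rw [← Multiset.singleton_add]
      abel
    rw [h2] at h1
    have h3 := Gam_add_le (x + g ::ₘ b) {ginv g}
    rw [Gam_singleton] at h3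
    have h4 : rho (g ::ₘ b) = cc (ginv g).M + rho b := by simp [rho]
    rw [h4]
    linarith

/-- The inverse of `E`. -/
noncomputable def Einv : Matrix Bool Bool ℂ :=
  Matrix.of fun a b => if a = b then 1 else if a ≤ b then -1 else 0

theorem E_mul_Einv : E * Einv = 1 := by
  ext a b
  rw [Matrix.mul_apply, Fintype.sum_bool]
  cases a <;> cases b <;> simp [Einv, show ¬ ((true : Bool) ≤ false) by decide]

theorem Einv_mul_E : Einv * E = 1 := mul_eq_one_comm.1 E_mul_Einv

theorem isUnit_E : IsUnit E := ⟨⟨E, Einv, E_mul_Einv, Einv_mul_E⟩, rfl⟩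

theorem isUnit_Einv : IsUnit Einv := ⟨⟨Einv, E, Einv_mul_E, E_mul_Einv⟩, rfl⟩

/-- The matrix `E` as a gate. -/
noncomputable def gE : Gate := Gate.of E isUnit_E

theorem Gam_gE : Gam {gE} = cc E := by
  rw [Gam_singleton, gE, (Gate.of_eqv _ _).cc]

/-- If `E` is not free, then minus `E` is not a limit of comparisons. -/
theorem not_lim_neg (h : 0 < cc E) : ¬ Lim (- Finsupp.single gE 1) := by
  rintro ⟨K, hK⟩
  have key : ∀ q : ℕ, (q : ℝ) * cc E ≤ Gam K + 2 * rho K := by
    intro q
    obtain ⟨l, r, h1, h2⟩ := hK q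
    have h3 : ∀ g, |-(q * (if gE = g then (1 : ℝ) else 0)) - ((r.count g : ℝ) - l.count g)| ≤
        K.count g := by
      intro g
      have := h2 g
      rwa [Finsupp.neg_apply, Finsupp.single_apply, mul_neg] at this
    have hq : ∀ g, (q • ({gE} : Multiset Gate)).count g = if gE = g then q else 0 := by
      intro g
      rw [Multiset.count_nsmul, Multiset.count_singleton]
      by_cases h4 : g = gE
      · subst h4
        simp
      · rw [if_neg h4, if_neg (Ne.symm h4), mul_zero]
    have h4 : r + q • {gE} ≤ l + K := by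
      rw [Multiset.le_iff_count]
      intro g
      rw [Multiset.count_add, Multiset.count_add, hq]
      have h5 := (abs_le.1 (h3 g)).1
      have h6 : ((r.count g + (if gE = g then q else 0) : ℕ) : ℝ) ≤ ((l.count g + K.count g : ℕ) :
          ℝ) := by
        push_cast
        split_ifs at h5 ⊢ <;> linarith
      exact_mod_cast h6
    obtain ⟨u, hu⟩ := Multiset.le_iff_exists_add.1 h4
    have h5 : u ≤ 2 • K := by
      rw [Multiset.le_iff_count]
      intro g
      have h6 := congrArg (Multiset.count g) hu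
      rw [Multiset.count_add, Multiset.count_add, Multiset.count_add, hq] at h6
      have h7 := (abs_le.1 (h3 g)).2
      rw [Multiset.count_nsmul]
      have h8 : (l.count g : ℝ) + K.count g = r.count g + (if gE = g then (q : ℝ) else 0) +
          u.count g := by exact_mod_cast h6
      have h9 : (u.count g : ℝ) ≤ ((2 * K.count g : ℕ) : ℝ) := by
        push_cast
        split_ifs at h7 h8 <;> linarith
      exact_mod_cast h9
    -- iterate the context
    have h6 : ∀ (m : ℕ) (w : Multiset Gate),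
        Gam (r + m • (q • {gE} + u) + w) ≤ Gam (r + m • K + w) := by
      intro m
      induction m with
      | zero =>
        intro w
        rw [zero_nsmul, zero_nsmul]
      | succ m ih =>
        intro w
        have h7 := h1 (K + (m • (q • {gE} + u) + w))
        have e1 : l + (K + (m • (q • {gE} + u) + w)) =
            r + (m + 1) • (q • {gE} + u) + w := by
          rw [← add_assoc, hu, succ_nsmul]
          abel
        have e2 : r + (K + (m • (q • {gE} + u) + w)) =
            r + m • (q • {gE} + u) + (K + w) := by abel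
        have e3 : r + m • K + (K + w) = r + (m + 1) • K + w := by
          rw [succ_nsmul]
          abel
        rw [e1, e2] at h7
        have h8 := ih (K + w)
        rw [e3] at h8
        exact h7.trans h8
    have h7 : ∀ m : ℕ, (m : ℝ) * (q * cc E - (Gam K + 2 * rho K)) ≤ Gam r + rho r := by
      intro m
      have h8 := h6 m 0
      rw [add_zero, add_zero] at h8
      have h9 := Gam_le_add ((m * q) • ({gE} : Multiset Gate)) (r + m • u)
      have e1 : (m * q) • ({gE} : Multiset Gate) + (r + m • u) =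
          r + m • (q • {gE} + u) := by
        rw [nsmul_add, smul_smul]
        abel
      rw [e1, Gam_nsmul, Gam_gE, rho_add, rho_nsmul] at h9
      have h10 := Gam_add_le r (m • K)
      rw [Gam_nsmul] at h10
      have h11 := rho_le h5
      rw [rho_nsmul] at h11
      push_cast at h9 h11
      have h12 : (m : ℝ) * rho u ≤ m * (2 * rho K) := mul_le_mul_of_nonneg_left h11 (by positivity)
      nlinarith
    by_contra hcon
    push Not at hcon
    obtain ⟨m, hm⟩ := exists_nat_gt ((Gam r + rho r) / (q * cc E - (Gam K + 2 * rho K)))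
    rw [div_lt_iff₀ (by linarith)] at hm
    have := h7 m
    linarith
  obtain ⟨q, hq⟩ := exists_nat_gt ((Gam K + 2 * rho K) / cc E)
  rw [div_lt_iff₀ h] at hq
  have := key q
  linarith

/-! ### Every gate is bounded by `E` -/

theorem dom_div {N : ℕ} (hN : 0 < N) {l r : Multiset Gate} (h : Dom (N • l) (N • r)) :
    Dom l r := by
  intro w
  have h1 := h (N • w)
  rw [← nsmul_add, ← nsmul_add, Gam_nsmul, Gam_nsmul] at h1
  exact le_of_mul_le_mul_left h1 (by exact_mod_cast hN)

theorem dom_zero_gE : Dom 0 {gE} := by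
  refine dom_div (N := 2) (by norm_num) ?_
  rw [smul_zero, two_nsmul]
  have h0 : Dom 0 {Gate.of (1 : Matrix Bool Bool ℂ) isUnit_one} :=
    (dom_of_mono IsMono.one isUnit_one).2
  let d : Matrix Bool Bool ℂ := Matrix.diagonal fun b => if b then (-1 : ℂ) else 1
  have hd : IsMono d := IsMono.diag fun b => by cases b <;> simp
  have h1 : E * (d * E * d) = 1 := by
    ext a b
    rw [Matrix.mul_apply]
    simp only [d, Matrix.mul_diagonal, Matrix.diagonal_mul, Fintype.sum_bool, E_apply,
      Matrix.one_apply]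
    cases a <;> cases b <;> simp [show ¬ ((true : Bool) ≤ false) by decide]
  have hdu := isUnit_mono hd
  have h2 := dom_of_mul isUnit_E ((hdu.mul isUnit_E).mul hdu)
    (isUnit_E.mul ((hdu.mul isUnit_E).mul hdu))
  have h3 := dom_of_mul (hdu.mul isUnit_E) hdu ((hdu.mul isUnit_E).mul hdu)
  have h4 := dom_of_mul hdu isUnit_E (hdu.mul isUnit_E)
  have h5 := dom_of_mono hd hdu
  have h6 : Dom {Gate.of (d * E) (hdu.mul isUnit_E)} {gE} := by
    have := h4.trans (h5.1.add (Dom.refl _))
    rwa [zero_add] at this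
  have h7 : Dom {Gate.of (d * E * d) ((hdu.mul isUnit_E).mul hdu)} {gE} := by
    have := h3.trans (h6.add h5.1)
    rwa [add_zero] at this
  refine h0.trans (Dom.trans ?_ (h2.trans ((Dom.refl _).add h7)))
  refine dom_of_eqv _ _ ?_
  rw [h1]
  exact Eqv.refl _

theorem Slide.cases {ι : Type} [Fintype ι] [DecidableEq ι] {S : Matrix ι ι ℂ} (h : Slide S) :
    S = 1 ∨ ∃ (β : Type) (_ : Fintype β) (_ : DecidableEq β),
      Eqv S (fromBlocks E 0 0 (1 : Matrix β β ℂ)) := by
  obtain ⟨k, hk, α, β, i1, i2, i3, i4, e, hα, rfl⟩ := h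
  rcases Nat.le_one_iff_eq_zero_or_eq_one.1 hk with h0 | h0
  · left
    rw [h0, Fintype.card_eq_zero_iff] at hα
    have h2 : core α β = 1 := by
      ext (⟨a, b⟩ | i) (⟨a', b'⟩ | j)
      · exact (hα.false a).elim
      · exact (hα.false a).elim
      · simp [core]
      · simp [core, Matrix.one_apply]
    rw [h2, Matrix.submatrix_one_equiv]
  · right
    refine ⟨β, i2, i4, ?_⟩
    have e1 : α ≃ Unit := Fintype.equivOfCardEq (by simpa [h0] using hα)
    have h1 : Eqv (tensor (1 : Matrix α α ℂ) E) E :=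
      (Eqv.tensor ⟨e1, by rw [Matrix.submatrix_one_equiv]⟩ (Eqv.refl E)).trans
        ((Eqv.tensor_comm _ _).trans (Eqv.tensor_unit E (1 : Matrix Unit Unit ℂ) (by simp)))
    exact Eqv.trans ⟨e, rfl⟩ (h1.sum (Eqv.refl _))

section word

variable {ι : Type} [Fintype ι] [DecidableEq ι] [Nonempty ι]

theorem Slide.isUnit {S : Matrix ι ι ℂ} (h : Slide S) : IsUnit S := by
  obtain ⟨Q, Q', -, -, h1⟩ := Mt.inv h
  have h2 : (Q * S * Q') * S = 1 := h1
  exact ⟨⟨S, Q * S * Q', mul_eq_one_comm.1 h2, h2⟩, rfl⟩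

theorem dom_slide {S : Matrix ι ι ℂ} (h : Slide S) (hS : IsUnit S) :
    Dom {Gate.of S hS} {gE} := by
  rcases h.cases with h1 | ⟨β, i1, i2, h1⟩
  · subst h1
    exact (dom_of_mono IsMono.one _).1.trans dom_zero_gE
  · refine dom_of (l := [Gate.of S hS]) (l' := [gE]) fun ω _ _ _ W => ?_
    rw [cc_single_sum, cc_single_sum, ((Gate.of_eqv S hS).sum (Eqv.refl W)).cc, gE,
      ((Gate.of_eqv E isUnit_E).sum (Eqv.refl W)).cc, (h1.sum (Eqv.refl W)).cc]
    have h2 : Eqv (fromBlocks (fromBlocks E 0 0 (1 : Matrix β β ℂ)) 0 0 W)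
        (fromBlocks (fromBlocks E 0 0 W) 0 0 (1 : Matrix β β ℂ)) :=
      (Eqv.sum_assoc _ _ _).trans (((Eqv.refl _).sum (Eqv.sum_comm _ _)).trans
        (Eqv.sum_assoc _ _ _).symm)
    rw [h2.cc, cc_sum_one]

theorem Word.isUnit {r : ℕ} {M : Matrix ι ι ℂ} (h : Word Slide r M) : IsUnit M := by
  induction h with
  | mono hQ => exact isUnit_mono hQ
  | step hQ hS _ ih => exact ((isUnit_mono hQ).mul (Slide.isUnit hS)).mul ih

theorem dom_word {r : ℕ} {M : Matrix ι ι ℂ} (h : Word Slide r M) (hM : IsUnit M) :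
    Dom {Gate.of M hM} (r • {gE}) := by
  induction h with
  | mono hQ =>
    rw [zero_nsmul]
    exact (dom_of_mono hQ hM).1
  | @step r Q S M hQ hS hM' ih =>
    have hQu := isUnit_mono hQ
    have hSu := Slide.isUnit hS
    have hMu := hM'.isUnit
    have h1 := dom_of_mul (hQu.mul hSu) hMu hM
    have h2 := dom_of_mul hQu hSu (hQu.mul hSu)
    have h3 := h2.trans ((dom_of_mono hQ hQu).1.add (dom_slide hS hSu))
    have h4 := h1.trans (h3.add (ih hMu))
    rw [succ_nsmul']
    rwa [zero_add] at h4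

/-- Every invertible matrix is a product of slides and monomial matrices. -/
theorem exists_word {A : Matrix ι ι ℂ} (hA : IsUnit A) : ∃ r, Word Slide r A := by
  have hdet : A.det ≠ 0 := ((Matrix.isUnit_iff_isUnit_det A).1 hA).ne_zero
  refine Matrix.diagonal_transvection_induction_of_det_ne_zero
    (fun M : Matrix ι ι ℂ => ∃ r, Word Slide r M) A hdet ?_ ?_ ?_
  · intro d hd
    refine ⟨0, .mono (IsMono.diag fun i => ?_)⟩
    rw [Matrix.det_diagonal] at hd
    exact (Finset.prod_ne_zero_iff.1 hd) i (Finset.mem_univ i)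
  · intro t
    exact ⟨1, word_transvection t.hij t.c⟩
  · rintro A B - - ⟨r, hr⟩ ⟨s, hs⟩
    exact ⟨r + s, hr.mul hs⟩

end word

theorem exists_dom (g : Gate) : ∃ t : ℕ, Dom {g} (t • {gE}) := by
  obtain ⟨r, hr⟩ := exists_word g.unit
  exact ⟨r, (gate_of_self g).2.trans (dom_word hr g.unit)⟩

/-! ### The functional -/

theorem Lim.zero : Lim 0 := by
  have := (Dom.refl 0).lim
  rwa [sub_self] at this

theorem dense (y : Gate →₀ ℝ) : ∃ t : ℝ, Lim (t • Finsupp.single gE 1 + y) := by
  induction y using Finsupp.induction_linear with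
  | zero =>
    refine ⟨0, ?_⟩
    rw [zero_smul, add_zero]
    exact Lim.zero
  | add f g hf hg =>
    obtain ⟨t, ht⟩ := hf
    obtain ⟨t', ht'⟩ := hg
    refine ⟨t + t', ?_⟩
    have := ht.add ht'
    rw [add_smul]
    convert this using 1
    abel
  | single g x =>
    have hpos : ∃ t : ℝ, Lim (t • Finsupp.single gE 1 + Finsupp.single g 1) := by
      obtain ⟨t, ht⟩ := exists_dom (ginv g)
      refine ⟨t, ?_⟩
      have h1 := ((dom_ginv g).trans ((Dom.refl _).add ht)).lim
      rw [vec_add, vec_singleton, vec_nsmul, vec_singleton, vec_zero, sub_zero, add_comm] at h1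
      exact h1
    have hneg : ∃ t : ℝ, Lim (t • Finsupp.single gE 1 + -Finsupp.single g 1) := by
      obtain ⟨t, ht⟩ := exists_dom g
      refine ⟨t, ?_⟩
      have h1 := ht.lim
      rw [vec_singleton, vec_nsmul, vec_singleton, sub_eq_add_neg] at h1
      exact h1
    rcases le_total 0 x with hx | hx
    · obtain ⟨t, ht⟩ := hpos
      refine ⟨x * t, ?_⟩
      have h1 := ht.smul hx
      convert h1 using 1
      rw [smul_add, smul_smul, Finsupp.smul_single x g, smul_eq_mul, mul_one]
    · obtain ⟨t, ht⟩ := hneg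
      refine ⟨-x * t, ?_⟩
      have h1 := ht.smul (neg_nonneg.2 hx)
      convert h1 using 1
      rw [smul_add, smul_smul, smul_neg, neg_smul, neg_neg, Finsupp.smul_single x g, smul_eq_mul,
        mul_one]

/-- The cone of limits of comparisons. -/
noncomputable def limCone : PointedCone ℝ (Gate →₀ ℝ) where
  carrier := {v | Lim v}
  smul_mem' := fun c _ hx => Lim.smul hx c.2
  add_mem' := fun hx hy => Lim.add hx hy
  zero_mem' := Lim.zero

theorem mem_limCone {v : Gate →₀ ℝ} : v ∈ limCone ↔ Lim v := Iff.rfl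

/-- A linear functional that respects all comparisons. -/
theorem exists_functional (h : 0 < cc E) : ∃ f : (Gate →₀ ℝ) →ₗ[ℝ] ℝ,
    f (Finsupp.single gE 1) = 1 ∧ ∀ l r, Dom l r → f (vec l) ≤ f (vec r) := by
  have he : Finsupp.single gE (1 : ℝ) ≠ 0 := by
    rw [Finsupp.single_ne_zero]
    exact one_ne_zero
  let f₀ : (Gate →₀ ℝ) →ₗ.[ℝ] ℝ := LinearPMap.mkSpanSingleton (Finsupp.single gE 1) 1 he
  obtain ⟨f, hf, hpos⟩ := riesz_extension limCone f₀ (by
    rintro ⟨x, hx⟩ hxs
    obtain ⟨t, rfl⟩ := Submodule.mem_span_singleton.1 hx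
    have h1 : f₀ ⟨t • Finsupp.single gE 1, hx⟩ = t • (1 : ℝ) :=
      LinearPMap.mkSpanSingleton'_apply _ _ _ _ _
    rw [h1, smul_eq_mul, mul_one]
    by_contra hcon
    push Not at hcon
    have h2 : Lim (t • Finsupp.single gE 1) := hxs
    have h3 := h2.smul (t := -t⁻¹) (by
      rw [neg_nonneg]
      exact (inv_lt_zero.2 hcon).le)
    refine not_lim_neg h ?_
    rw [smul_smul, neg_mul, inv_mul_cancel₀ hcon.ne, neg_smul, one_smul] at h3
    exact h3) (by
    intro y
    obtain ⟨t, ht⟩ := dense y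
    exact ⟨⟨t • Finsupp.single gE 1, Submodule.mem_span_singleton.2 ⟨t, rfl⟩⟩, ht⟩)
  refine ⟨f, ?_, fun l r hlr => ?_⟩
  · have h1 := hf ⟨Finsupp.single gE 1, Submodule.mem_span_singleton_self _⟩
    rw [h1]
    exact LinearPMap.mkSpanSingleton_apply _ _ _ _
  · have h1 := hpos _ (mem_limCone.2 hlr.lim)
    rw [map_sub] at h1
    linarith

end Vale.Agent.P344.R2.H715
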