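import Vale.Agent.P344.R2.H715.CostDefs
import Vale.Agent.P344.R2.H715.Dual

/-!
# Cost functions: existence, and lower bounds from them
-/

set_option linter.unusedSectionVars false

namespace Vale.Agent.P344.R2.H715

open Matrix Filter

theorem tensor_eq_kronecker {ι κ : Type} (A : Matrix ι ι ℂ) (B : Matrix κ κ ℂ) :
    tensor A B = kroneckerMap (· * ·) A B := rfl

/-! ### From the functional to a cost function -/

section exist

variable {f : (Gate →₀ ℝ) →ₗ[ℝ] ℝ}

theorem sum_eq_of_dom (hf : ∀ l r, Dom l r → f (vec l) ≤ f (vec r)) {l r : Multiset Gate}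
    (h : Dom l r) (h' : Dom r l) : f (vec l) = f (vec r) := le_antisymm (hf _ _ h) (hf _ _ h')

theorem eq_of_eqv (hf : ∀ l r, Dom l r → f (vec l) ≤ f (vec r)) {g g' : Gate}
    (h : Eqv g.M g'.M) : f (Finsupp.single g 1) = f (Finsupp.single g' 1) := by
  have := sum_eq_of_dom hf (dom_eqv h) (dom_eqv h.symm)
  rwa [vec_singleton, vec_singleton] at this

open Classical in
/-- The cost function of a functional. -/
noncomputable def kap (f : (Gate →₀ ℝ) →ₗ[ℝ] ℝ) (n : ℕ) (A : Matrix (Fin n) (Fin n) ℂ) : ℝ :=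
  if h : 0 < n ∧ IsUnit A then f (Finsupp.single ⟨n, h.1, A, h.2⟩ 1) else 0

theorem kap_pos {n : ℕ} (hn : 0 < n) {A : Matrix (Fin n) (Fin n) ℂ} (hA : IsUnit A) :
    kap f n A = f (Finsupp.single ⟨n, hn, A, hA⟩ 1) := by
  unfold kap
  rw [dif_pos ⟨hn, hA⟩]

theorem kap_zero (A : Matrix (Fin 0) (Fin 0) ℂ) : kap f 0 A = 0 := by
  unfold kap
  rw [dif_neg]
  rintro ⟨h, -⟩
  exact lt_irrefl _ h

theorem kap_zero' {n : ℕ} (hn : n = 0) (A : Matrix (Fin n) (Fin n) ℂ) : kap f n A = 0 := by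
  subst hn
  exact kap_zero A

theorem kap_eq (hf : ∀ l r, Dom l r → f (vec l) ≤ f (vec r)) {n : ℕ} (hn : 0 < n)
    {A : Matrix (Fin n) (Fin n) ℂ} (hA : IsUnit A) (g : Gate) (h : Eqv A g.M) :
    kap f n A = f (Finsupp.single g 1) := by
  rw [kap_pos hn hA]
  exact eq_of_eqv hf h

theorem isCost_kap (hE : f (Finsupp.single gE 1) = 1)
    (hf : ∀ l r, Dom l r → f (vec l) ≤ f (vec r)) : IsCost (kap f) where
  mul := by
    intro n A B hA hB
    rcases Nat.eq_zero_or_pos n with h0 | h0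
    · subst h0
      rw [kap_zero, kap_zero, kap_zero]
      norm_num
    · have h1 := hf _ _ (dom_mul h0 hA hB)
      rw [vec_add, vec_singleton, vec_singleton, vec_singleton, map_add] at h1
      rw [kap_pos h0 hA, kap_pos h0 hB, kap_pos h0 (hA.mul hB)]
      exact h1
  mono := by
    intro n P hP
    rcases Nat.eq_zero_or_pos n with h0 | h0
    · subst h0
      exact kap_zero _
    · have : Nonempty (Fin n) := ⟨⟨0, h0⟩⟩
      rw [kap_pos h0 (isUnit_mono hP)]
      have h1 := dom_mono (g := ⟨n, h0, P, isUnit_mono hP⟩) hP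
      have h2 := sum_eq_of_dom hf h1.1 h1.2
      rwa [vec_singleton, vec_zero, map_zero] at h2
  sum := by
    intro m n A B hA hB
    rcases Nat.eq_zero_or_pos m with h0 | h0
    · subst h0
      rw [kap_zero A, zero_add (kap f n B)]
      rcases Nat.eq_zero_or_pos n with h0' | h0'
      · subst h0'
        rw [kap_zero B]
        exact kap_zero' rfl _
      · have hn : 0 < 0 + n := by omega
        have h1 : Eqv (Matrix.reindex (finSumFinEquiv (m := 0) (n := n)) finSumFinEquiv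
            (fromBlocks A 0 0 B)) B := by
          refine Eqv.trans ⟨finSumFinEquiv.symm, rfl⟩ ?_
          refine (Eqv.sum_comm A B).trans ?_
          have : Nonempty (Fin n) := ⟨⟨0, h0'⟩⟩
          exact eqv_sum_empty B A
        have h2 : IsUnit (Matrix.reindex (finSumFinEquiv (m := 0) (n := n)) finSumFinEquiv
            (fromBlocks A 0 0 B)) := by
          obtain ⟨e, he⟩ := h1
          have : Nonempty (Fin n) := ⟨⟨0, h0'⟩⟩
          have : Nonempty (Fin (0 + n)) := ⟨⟨0, hn⟩⟩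
          rw [he]
          exact isUnit_submatrix hB e
        rw [kap_eq hf hn h2 ⟨n, h0', B, hB⟩ h1, kap_pos h0' hB]
    · rcases Nat.eq_zero_or_pos n with h0' | h0'
      · subst h0'
        rw [kap_zero B, add_zero (kap f m A)]
        have : Nonempty (Fin m) := ⟨⟨0, h0⟩⟩
        have h1 : Eqv (Matrix.reindex (finSumFinEquiv (m := m) (n := 0)) finSumFinEquiv
            (fromBlocks A 0 0 B)) A := by
          refine Eqv.trans ⟨finSumFinEquiv.symm, rfl⟩ ?_
          exact eqv_sum_empty A B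
        have h2 : IsUnit (Matrix.reindex (finSumFinEquiv (m := m) (n := 0)) finSumFinEquiv
            (fromBlocks A 0 0 B)) := by
          obtain ⟨e, he⟩ := h1
          have : Nonempty (Fin (m + 0)) := ⟨⟨0, h0⟩⟩
          rw [he]
          exact isUnit_submatrix hA e
        have h3 := kap_eq hf (show 0 < m + 0 from h0) h2 ⟨m, h0, A, hA⟩ h1
        rw [h3, kap_pos h0 hA]
      · have : Nonempty (Fin m) := ⟨⟨0, h0⟩⟩
        have : Nonempty (Fin n) := ⟨⟨0, h0'⟩⟩
        have h1 : IsUnit (Matrix.reindex (finSumFinEquiv (m := m) (n := n)) finSumFinEquiv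
            (fromBlocks A 0 0 B)) := by
          have : Nonempty (Fin (m + n)) := ⟨⟨0, by omega⟩⟩
          exact isUnit_submatrix (isUnit_sum hA hB) finSumFinEquiv.symm
        have h2 := dom_sum (a := ⟨m, h0, A, hA⟩) (b := ⟨n, h0', B, hB⟩)
          (s := ⟨m + n, by omega, _, h1⟩) ⟨finSumFinEquiv.symm, rfl⟩
        have h3 := sum_eq_of_dom hf h2.1 h2.2
        rw [vec_add, vec_singleton, vec_singleton, vec_singleton, map_add] at h3
        rw [kap_pos h0 hA, kap_pos h0' hB, kap_pos (by omega) h1]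
        exact h3
  tensor := by
    intro m n A B hA hB
    rcases Nat.eq_zero_or_pos m with h0 | h0
    · subst h0
      rw [kap_zero A, kap_zero' (Nat.zero_mul n), Nat.cast_zero]
      ring
    · rcases Nat.eq_zero_or_pos n with h0' | h0'
      · subst h0'
        rw [kap_zero B, kap_zero' (Nat.mul_zero m), Nat.cast_zero]
        ring
      · have : Nonempty (Fin m) := ⟨⟨0, h0⟩⟩
        have : Nonempty (Fin n) := ⟨⟨0, h0'⟩⟩
        have hmn : 0 < m * n := Nat.mul_pos h0 h0'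
        have h1 : IsUnit (Matrix.reindex (finProdFinEquiv (m := m) (n := n)) finProdFinEquiv
            (kroneckerMap (· * ·) A B)) := by
          have : Nonempty (Fin (m * n)) := ⟨⟨0, hmn⟩⟩
          exact isUnit_submatrix (isUnit_tensor hA hB) finProdFinEquiv.symm
        set a : Gate := ⟨m, h0, A, hA⟩ with ha
        set b : Gate := ⟨n, h0', B, hB⟩ with hb
        have h2 : kap f (m * n) (Matrix.reindex (finProdFinEquiv (m := m) (n := n)) finProdFinEquiv
            (kroneckerMap (· * ·) A B)) = f (Finsupp.single (gten a b) 1) := by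
          refine kap_eq hf hmn h1 _ ?_
          exact Eqv.trans ⟨finProdFinEquiv.symm, rfl⟩ (gten_eqv a b).symm
        have h3 := sum_eq_of_dom hf (dom_gten a b) (dom_gten' a b)
        rw [vec_add, vec_nsmul, vec_nsmul, vec_singleton, vec_singleton, vec_singleton, map_add,
          map_smul, map_smul, smul_eq_mul, smul_eq_mul] at h3
        rw [h2, h3, kap_pos h0 hA, kap_pos h0' hB]
  unit := by
    have h1 : Eqv (!![1, 1; 0, 1] : Matrix (Fin 2) (Fin 2) ℂ) E := by
      refine ⟨finTwoEquiv, ?_⟩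
      ext i j
      rw [Matrix.submatrix_apply]
      fin_cases i <;> fin_cases j <;>
        simp [finTwoEquiv, show ¬ ((true : Bool) ≤ false) by decide]
    have h2 : IsUnit (!![1, 1; 0, 1] : Matrix (Fin 2) (Fin 2) ℂ) := by
      obtain ⟨e, he⟩ := h1
      rw [he]
      exact isUnit_submatrix isUnit_E e
    rw [kap_eq hf (by norm_num) h2 gE (h1.trans (Gate.of_eqv _ _).symm), hE]

end exist

/-- A positive asymptotic cost of `E` gives a cost function. -/
theorem exists_isCost (h : 0 < cc E) : ∃ κ, IsCost κ := by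
  obtain ⟨f, h1, h2⟩ := exists_functional h
  exact ⟨kap f, isCost_kap h1 h2⟩

/-- Cheap powers of `E`. -/
theorem gam_eq_zero_of_cc (h : cc E = 0) : gam = 0 := by
  have h1 : slope E = 0 := by
    unfold cc at h
    rcases mul_eq_zero.1 h with h2 | h2
    · have : Fintype.card Bool ≠ 0 := by simp
      exact absurd (by exact_mod_cast h2) this
    · exact h2
  refine gam_eq_zero fun ε hε => ?_
  obtain ⟨b, hb, hr⟩ := Rt.of_lt (A := E) (a := ε) (by rw [h1]; exact hε)
  refine ⟨b, hb, fun j => ?_⟩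
  obtain ⟨s, hs, hsb⟩ := hr j
  exact ⟨s, hs, by simpa using hsb⟩

/-! ### Cost functions on all finite index types -/

section types

variable {κ : (n : ℕ) → Matrix (Fin n) (Fin n) ℂ → ℝ}

/-- The cost function for other index types. -/
noncomputable def KK (κ : (n : ℕ) → Matrix (Fin n) (Fin n) ℂ → ℝ) {ι : Type} [Fintype ι]
    [DecidableEq ι] (A : Matrix ι ι ℂ) : ℝ :=
  κ (Fintype.card ι) (A.submatrix (Fintype.equivFin ι).symm (Fintype.equivFin ι).symm)

variable {ι μ : Type} [Fintype ι] [DecidableEq ι] [Fintype μ] [DecidableEq μ]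

theorem isUnit_submatrix' {A : Matrix ι ι ℂ} (hA : IsUnit A) (e : μ ≃ ι) :
    IsUnit (A.submatrix e e) := by
  obtain ⟨u, rfl⟩ := hA
  refine ⟨⟨(u : Matrix ι ι ℂ).submatrix e e, ((u⁻¹ : (Matrix ι ι ℂ)ˣ) : Matrix ι ι ℂ).submatrix e e,
    ?_, ?_⟩, rfl⟩
  · rw [Matrix.submatrix_mul_equiv, Units.mul_inv, Matrix.submatrix_one_equiv]
  · rw [Matrix.submatrix_mul_equiv, Units.inv_mul, Matrix.submatrix_one_equiv]

theorem IsMono.isUnit {Q : Matrix ι ι ℂ} (hQ : IsMono Q) : IsUnit Q := by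
  obtain ⟨P, -, h1, h2⟩ := hQ.inv
  exact ⟨⟨Q, P, h2, h1⟩, rfl⟩

theorem IsCost.perm_le (h : IsCost κ) {n : ℕ} {A : Matrix (Fin n) (Fin n) ℂ} (hA : IsUnit A)
    (e f : Equiv.Perm (Fin n)) : κ n (A.submatrix e f) ≤ κ n A := by
  rw [submatrix_eq_mul]
  have h1 := IsMono.perm e
  have h2 := IsMono.perm f⁻¹
  have h3 := h.mul n _ _ (h1.isUnit.mul hA) h2.isUnit
  have h4 := h.mul n _ _ h1.isUnit hA
  rw [h.mono n _ h1] at h4
  rw [h.mono n _ h2] at h3
  linarith

theorem IsCost.perm (h : IsCost κ) {n : ℕ} {A : Matrix (Fin n) (Fin n) ℂ} (hA : IsUnit A)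
    (e : Equiv.Perm (Fin n)) : κ n (A.submatrix e e) = κ n A := by
  refine le_antisymm (h.perm_le hA e e) ?_
  have h1 := h.perm_le (isUnit_submatrix' hA e) e.symm e.symm
  rw [Matrix.submatrix_submatrix] at h1
  simpa using h1

theorem IsCost.KK_eq (h : IsCost κ) {A : Matrix ι ι ℂ} (hA : IsUnit A) {n : ℕ} (e : ι ≃ Fin n) :
    KK κ A = κ n (A.submatrix e.symm e.symm) := by
  have hn : n = Fintype.card ι := by
    rw [Fintype.card_congr e, Fintype.card_fin]
  subst hn
  unfold KK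
  have h1 := h.perm (isUnit_submatrix' hA e.symm) ((Fintype.equivFin ι).symm.trans e)
  rw [← h1, Matrix.submatrix_submatrix]
  congr 1
  ext i j
  simp

theorem IsCost.KK_eqv (h : IsCost κ) {A : Matrix ι ι ℂ} {B : Matrix μ μ ℂ} (hB : IsUnit B)
    (hAB : Eqv A B) : KK κ A = KK κ B := by
  obtain ⟨e, rfl⟩ := hAB
  rw [h.KK_eq (isUnit_submatrix' hB e) (e.trans (Fintype.equivFin μ))]
  unfold KK
  congr 1
  ext i j
  simp

theorem IsCost.KK_mul (h : IsCost κ) {A B : Matrix ι ι ℂ} (hA : IsUnit A) (hB : IsUnit B) :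
    KK κ (A * B) ≤ KK κ A + KK κ B := by
  unfold KK
  rw [← Matrix.submatrix_mul_equiv A B _ (Fintype.equivFin ι).symm]
  exact h.mul _ _ _ (isUnit_submatrix' hA _) (isUnit_submatrix' hB _)

theorem IsCost.KK_mono (h : IsCost κ) {Q : Matrix ι ι ℂ} (hQ : IsMono Q) : KK κ Q = 0 :=
  h.mono _ _ (hQ.submatrix _)

theorem IsCost.KK_one (h : IsCost κ) : KK κ (1 : Matrix ι ι ℂ) = 0 := h.KK_mono .one

theorem isUnit_sum' {A : Matrix ι ι ℂ} {B : Matrix μ μ ℂ} (hA : IsUnit A) (hB : IsUnit B) :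
    IsUnit (fromBlocks A 0 0 B) := by
  obtain ⟨u, rfl⟩ := hA
  obtain ⟨v, rfl⟩ := hB
  refine ⟨⟨fromBlocks u 0 0 v, fromBlocks ((u⁻¹ : (Matrix ι ι ℂ)ˣ) : Matrix ι ι ℂ) 0 0
    ((v⁻¹ : (Matrix μ μ ℂ)ˣ) : Matrix μ μ ℂ), ?_, ?_⟩, rfl⟩
  · simp [fromBlocks_multiply]
  · simp [fromBlocks_multiply]

theorem isUnit_tensor' {A : Matrix ι ι ℂ} {B : Matrix μ μ ℂ} (hA : IsUnit A) (hB : IsUnit B) :
    IsUnit (tensor A B) := by
  obtain ⟨u, rfl⟩ := hA
  obtain ⟨v, rfl⟩ := hB
  refine ⟨⟨tensor u v, tensor ((u⁻¹ : (Matrix ι ι ℂ)ˣ) : Matrix ι ι ℂ)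
    ((v⁻¹ : (Matrix μ μ ℂ)ˣ) : Matrix μ μ ℂ), ?_, ?_⟩, rfl⟩
  · rw [← tensor_mul, Units.mul_inv, Units.mul_inv, tensor_one]
  · rw [← tensor_mul, Units.inv_mul, Units.inv_mul, tensor_one]

theorem IsCost.KK_sum (h : IsCost κ) {A : Matrix ι ι ℂ} {B : Matrix μ μ ℂ} (hA : IsUnit A)
    (hB : IsUnit B) : KK κ (fromBlocks A 0 0 B) = KK κ A + KK κ B := by
  rw [h.KK_eq (isUnit_sum' hA hB)
    ((Equiv.sumCongr (Fintype.equivFin ι) (Fintype.equivFin μ)).trans finSumFinEquiv)]
  unfold KK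
  rw [← h.sum _ _ _ _ (isUnit_submatrix' hA _) (isUnit_submatrix' hB _)]
  congr 1
  ext i j
  obtain ⟨i, rfl⟩ := finSumFinEquiv.surjective i
  obtain ⟨j, rfl⟩ := finSumFinEquiv.surjective j
  rcases i with i | i <;> rcases j with j | j <;> simp

theorem IsCost.KK_tensor (h : IsCost κ) {A : Matrix ι ι ℂ} {B : Matrix μ μ ℂ} (hA : IsUnit A)
    (hB : IsUnit B) : KK κ (H715.tensor A B) =
      Fintype.card μ * KK κ A + Fintype.card ι * KK κ B := by
  rw [h.KK_eq (isUnit_tensor' hA hB)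
    ((Equiv.prodCongr (Fintype.equivFin ι) (Fintype.equivFin μ)).trans finProdFinEquiv)]
  unfold KK
  rw [← h.tensor _ _ _ _ (isUnit_submatrix' hA _) (isUnit_submatrix' hB _)]
  congr 1

theorem IsCost.KK_E (h : IsCost κ) : KK κ E = 1 := by
  have h1 : Eqv (!![1, 1; 0, 1] : Matrix (Fin 2) (Fin 2) ℂ) E := by
    refine ⟨finTwoEquiv, ?_⟩
    ext i j
    rw [Matrix.submatrix_apply]
    fin_cases i <;> fin_cases j <;>
      simp [finTwoEquiv, show ¬ ((true : Bool) ≤ false) by decide]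
  have h2 : IsUnit (!![1, 1; 0, 1] : Matrix (Fin 2) (Fin 2) ℂ) := by
    obtain ⟨e, he⟩ := h1
    rw [he]
    exact isUnit_submatrix' isUnit_E e
  rw [← h.KK_eqv isUnit_E h1, h.KK_eq h2 (Equiv.refl (Fin 2))]
  exact h.unit

theorem Slide.isUnit' {S : Matrix ι ι ℂ} (h : Slide S) : IsUnit S := by
  obtain ⟨Q, Q', -, -, h1⟩ := Mt.inv h
  have h2 : (Q * S * Q') * S = 1 := h1
  exact ⟨⟨S, Q * S * Q', mul_eq_one_comm.1 h2, h2⟩, rfl⟩

theorem Word.isUnit' {r : ℕ} {M : Matrix ι ι ℂ} (h : Word Slide r M) : IsUnit M := by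
  induction h with
  | mono hQ => exact hQ.isUnit
  | step hQ hS _ ih => exact (hQ.isUnit.mul (Slide.isUnit' hS)).mul ih

theorem IsCost.KK_slide (h : IsCost κ) {S : Matrix ι ι ℂ} (hS : Slide S) : KK κ S ≤ 1 := by
  rcases hS.cases with h1 | ⟨β, i1, i2, h1⟩
  · rw [h1, h.KK_one]
    norm_num
  · rw [h.KK_eqv (isUnit_sum' isUnit_E isUnit_one) h1, h.KK_sum isUnit_E isUnit_one, h.KK_E,
      h.KK_one, add_zero]

/-- The cost is at most the number of additions of a program. -/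
theorem IsCost.KK_word (h : IsCost κ) {r : ℕ} {M : Matrix ι ι ℂ} (hM : Word Slide r M) :
    KK κ M ≤ r := by
  induction hM with
  | mono hQ => rw [h.KK_mono hQ, Nat.cast_zero]
  | @step r Q S M hQ hS hM' ih =>
    have hQu := hQ.isUnit
    have hSu := Slide.isUnit' hS
    have hMu := hM'.isUnit'
    have h1 := h.KK_mul (hQu.mul hSu) hMu
    have h2 := h.KK_mul hQu hSu
    have h3 := h.KK_mono hQ
    have h4 := h.KK_slide hS
    push_cast
    linarith

theorem isUnit_tpow {A : Matrix ι ι ℂ} (hA : IsUnit A) (m : ℕ) : IsUnit (tpow A m) := by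
  obtain ⟨u, rfl⟩ := hA
  refine ⟨⟨tpow u m, tpow ((u⁻¹ : (Matrix ι ι ℂ)ˣ) : Matrix ι ι ℂ) m, ?_, ?_⟩, rfl⟩
  · unfold tpow
    rw [← tprod_mul, Units.mul_inv, tprod_one]
  · unfold tpow
    rw [← tprod_mul, Units.inv_mul, tprod_one]

theorem IsCost.KK_tpow (h : IsCost κ) {A : Matrix ι ι ℂ} (hA : IsUnit A) (m : ℕ) :
    KK κ (tpow A (m + 1)) = (m + 1) * (Fintype.card ι : ℝ) ^ m * KK κ A := by
  induction m with
  | zero =>
    have h1 : Eqv (tpow A 1) A := (tpow_succ A 0).trans (((Eqv.refl A).tensor (tpow_zero A)).trans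
      (Eqv.tensor_unit A (1 : Matrix Unit Unit ℂ) (by simp)))
    rw [h.KK_eqv hA h1]
    simp
  | succ m ih =>
    rw [h.KK_eqv (isUnit_tensor' hA (isUnit_tpow hA _)) (tpow_succ A (m + 1)),
      h.KK_tensor hA (isUnit_tpow hA _), ih]
    simp only [Fintype.card_pi, Finset.prod_const, Finset.card_univ, Fintype.card_fin]
    push_cast
    ring

/-- A cost function excludes short programs. -/
theorem IsCost.noShort (h : IsCost κ) : NoShort := by
  intro j r hw
  rcases j with _ | j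
  · simp
  · have h1 := h.KK_word hw
    rw [h.KK_tpow isUnit_E, h.KK_E, Fintype.card_bool, mul_one] at h1
    rw [Nat.add_sub_cancel]
    exact_mod_cast h1

end types

end Vale.Agent.P344.R2.H715
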