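import Mathlib

/-!
# Words in monomial matrices and generators; tensor products
-/

namespace Vale.Agent.P344.R2.H715

set_option linter.unusedSectionVars false

open Matrix

/-- The monomial matrix with entries `d i` at `(i, σ i)`. -/
def mono {ι : Type} [DecidableEq ι] (σ : Equiv.Perm ι) (d : ι → ℂ) : Matrix ι ι ℂ :=
  Matrix.of fun i j => if σ i = j then d i else 0

/-- Monomial (generalized permutation) matrices. -/
def IsMono {ι : Type} [DecidableEq ι] (Q : Matrix ι ι ℂ) : Prop :=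
  ∃ (σ : Equiv.Perm ι) (d : ι → ℂ), (∀ i, d i ≠ 0) ∧ Q = mono σ d

/-- `Word G r M`: `M` is a product of monomial matrices and `r` matrices satisfying `G`. -/
inductive Word {ι : Type} [Fintype ι] [DecidableEq ι] (G : Matrix ι ι ℂ → Prop) :
    ℕ → Matrix ι ι ℂ → Prop
  | mono {Q : Matrix ι ι ℂ} : IsMono Q → Word G 0 Q
  | step {r : ℕ} {Q S M : Matrix ι ι ℂ} : IsMono Q → G S → Word G r M → Word G (r + 1) (Q * S * M)

/-- The matrix `[[1,1],[0,1]]`. -/
def E : Matrix Bool Bool ℂ := Matrix.of fun a b => if a ≤ b then 1 else 0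

/-- Tensor product of two square matrices. -/
def tensor {ι κ : Type} (A : Matrix ι ι ℂ) (B : Matrix κ κ ℂ) : Matrix (ι × κ) (ι × κ) ℂ :=
  Matrix.of fun x y => A x.1 y.1 * B x.2 y.2

/-- The basic matching matrix: `E` on the pairs `α × Bool`, the identity on `β`. -/
def core (α β : Type) [DecidableEq α] [DecidableEq β] :
    Matrix ((α × Bool) ⊕ β) ((α × Bool) ⊕ β) ℂ :=
  fromBlocks (tensor (1 : Matrix α α ℂ) E) 0 0 (1 : Matrix β β ℂ)

/-- `S` consists of `k` transvections `x_i += x_j` on disjoint pairs. -/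
def IsMatch {ι : Type} (k : ℕ) (S : Matrix ι ι ℂ) : Prop :=
  ∃ (α β : Type) (_ : Fintype α) (_ : Fintype β) (_ : DecidableEq α) (_ : DecidableEq β)
    (e : ι ≃ (α × Bool) ⊕ β), Fintype.card α = k ∧ S = (core α β).submatrix e e

/-- Matchings with a number of pairs that satisfies `p`. -/
def Mt (p : ℕ → Prop) {ι : Type} (S : Matrix ι ι ℂ) : Prop := ∃ k, p k ∧ IsMatch k S

/-- One transvection `x_i += x_j`, or nothing. -/
abbrev Slide {ι : Type} (S : Matrix ι ι ℂ) : Prop := Mt (fun k => k ≤ 1) S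

/-- Transvections `x_i += x_j` on disjoint pairs. -/
abbrev Layer {ι : Type} (S : Matrix ι ι ℂ) : Prop := Mt (fun _ => True) S

/-- Tensor product of a family of square matrices. -/
def tprod {q : ℕ} {ι : Fin q → Type} (A : ∀ i, Matrix (ι i) (ι i) ℂ) :
    Matrix (∀ i, ι i) (∀ i, ι i) ℂ := Matrix.of fun x y => ∏ i, A i (x i) (y i)

/-- Tensor power. -/
def tpow {ι : Type} (A : Matrix ι ι ℂ) (K : ℕ) : Matrix (Fin K → ι) (Fin K → ι) ℂ :=
  tprod fun _ => A

@[simp] theorem mono_apply {ι : Type} [DecidableEq ι] (σ : Equiv.Perm ι) (d : ι → ℂ) (i j : ι) :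
    mono σ d i j = if σ i = j then d i else 0 := rfl

@[simp] theorem E_apply (a b : Bool) : E a b = if a ≤ b then 1 else 0 := rfl

@[simp] theorem tensor_apply {ι κ : Type} (A : Matrix ι ι ℂ) (B : Matrix κ κ ℂ) (x y : ι × κ) :
    tensor A B x y = A x.1 y.1 * B x.2 y.2 := rfl

@[simp] theorem tprod_apply {q : ℕ} {ι : Fin q → Type} (A : ∀ i, Matrix (ι i) (ι i) ℂ)
    (x y : ∀ i, ι i) : tprod A x y = ∏ i, A i (x i) (y i) := rfl

@[simp] theorem tpow_apply {ι : Type} (A : Matrix ι ι ℂ) (K : ℕ) (x y : Fin K → ι) :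
    tpow A K x y = ∏ i, A (x i) (y i) := rfl

/-! ### Tensor products -/

section tensor

variable {ι κ : Type}

theorem tensor_mul [Fintype ι] [Fintype κ] (A A' : Matrix ι ι ℂ) (B B' : Matrix κ κ ℂ) :
    tensor (A * A') (B * B') = tensor A B * tensor A' B' := by
  ext x y
  simp only [tensor_apply, Matrix.mul_apply, Fintype.sum_prod_type, Finset.sum_mul_sum]
  refine Finset.sum_congr rfl fun i _ => Finset.sum_congr rfl fun j _ => ?_
  ring

theorem tensor_one [DecidableEq ι] [DecidableEq κ] :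
    tensor (1 : Matrix ι ι ℂ) (1 : Matrix κ κ ℂ) = 1 := by
  ext ⟨x, x'⟩ ⟨y, y'⟩
  simp only [tensor_apply, Matrix.one_apply, Prod.mk.injEq]
  by_cases h : x = y <;> by_cases h' : x' = y' <;> simp [h, h']

theorem tprod_mul {q : ℕ} {ι : Fin q → Type} [∀ i, Fintype (ι i)]
    (A B : ∀ i, Matrix (ι i) (ι i) ℂ) :
    tprod (fun i => A i * B i) = tprod A * tprod B := by
  classical
  ext x y
  simp only [tprod_apply, Matrix.mul_apply]
  rw [Finset.prod_univ_sum, Fintype.piFinset_univ]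
  refine Finset.sum_congr rfl fun k _ => ?_
  rw [Finset.prod_mul_distrib]

theorem tprod_one {q : ℕ} {ι : Fin q → Type} [∀ i, DecidableEq (ι i)] :
    tprod (fun i => (1 : Matrix (ι i) (ι i) ℂ)) = 1 := by
  ext x y
  simp only [tprod_apply, Matrix.one_apply]
  split_ifs with h
  · subst h
    simp
  · obtain ⟨i, hi⟩ := Function.ne_iff.1 h
    exact Finset.prod_eq_zero (Finset.mem_univ i) (if_neg hi)

end tensor

/-! ### Monomial matrices -/

section mono

variable {ι κ : Type} [DecidableEq ι] [DecidableEq κ]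

theorem mono_mul [Fintype ι] (σ : Equiv.Perm ι) (d : ι → ℂ) (M : Matrix ι ι ℂ) (i j : ι) :
    (mono σ d * M) i j = d i * M (σ i) j := by
  rw [Matrix.mul_apply, Finset.sum_eq_single (σ i)]
  · simp
  · intro k _ hk
    simp [mono_apply, Ne.symm hk]
  · intro h
    exact absurd (Finset.mem_univ _) h

theorem mul_mono [Fintype ι] (σ : Equiv.Perm ι) (d : ι → ℂ) (M : Matrix ι ι ℂ) (i j : ι) :
    (M * mono σ d) i j = M i (σ⁻¹ j) * d (σ⁻¹ j) := by
  rw [Matrix.mul_apply, Finset.sum_eq_single (σ⁻¹ j)]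
  · simp
  · intro k _ hk
    have : σ k ≠ j := by
      intro h
      apply hk
      rw [← h]
      simp
    simp [this]
  · intro h
    exact absurd (Finset.mem_univ _) h

theorem diagonal_eq_mono (d : ι → ℂ) : Matrix.diagonal d = mono 1 d := by
  ext i j
  rw [Matrix.diagonal_apply, mono_apply, Equiv.Perm.one_apply]

theorem IsMono.diag {d : ι → ℂ} (hd : ∀ i, d i ≠ 0) : IsMono (Matrix.diagonal d) :=
  ⟨1, d, hd, diagonal_eq_mono d⟩

theorem IsMono.one : IsMono (1 : Matrix ι ι ℂ) := by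
  rw [← Matrix.diagonal_one]
  exact IsMono.diag fun _ => one_ne_zero

theorem IsMono.perm (σ : Equiv.Perm ι) : IsMono (mono σ fun _ => 1) :=
  ⟨σ, fun _ => 1, fun _ => one_ne_zero, rfl⟩

theorem IsMono.mul [Fintype ι] {P Q : Matrix ι ι ℂ} (hP : IsMono P) (hQ : IsMono Q) :
    IsMono (P * Q) := by
  obtain ⟨σ, d, hd, rfl⟩ := hP
  obtain ⟨τ, f, hf, rfl⟩ := hQ
  refine ⟨τ * σ, fun i => d i * f (σ i), fun i => mul_ne_zero (hd i) (hf _), ?_⟩
  ext i j
  rw [mono_mul, mono_apply, mono_apply, Equiv.Perm.mul_apply]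
  split_ifs
  · rfl
  · rw [mul_zero]

theorem IsMono.inv [Fintype ι] {Q : Matrix ι ι ℂ} (hQ : IsMono Q) :
    ∃ P : Matrix ι ι ℂ, IsMono P ∧ P * Q = 1 ∧ Q * P = 1 := by
  obtain ⟨σ, d, hd, rfl⟩ := hQ
  have key : mono σ⁻¹ (fun i => (d (σ⁻¹ i))⁻¹) * mono σ d = 1 := by
    ext i j
    rw [mono_mul, mono_apply, Matrix.one_apply, show σ (σ⁻¹ i) = i from σ.apply_symm_apply i]
    by_cases h : i = j
    · rw [if_pos h, if_pos h, inv_mul_cancel₀ (hd _)]
    · rw [if_neg h, if_neg h, mul_zero]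
  exact ⟨_, ⟨σ⁻¹, fun i => (d (σ⁻¹ i))⁻¹, fun i => inv_ne_zero (hd _), rfl⟩, key,
    mul_eq_one_comm.1 key⟩

theorem IsMono.submatrix {Q : Matrix ι ι ℂ} (hQ : IsMono Q) (e : κ ≃ ι) :
    IsMono (Q.submatrix e e) := by
  obtain ⟨σ, d, hd, rfl⟩ := hQ
  refine ⟨(e.trans σ).trans e.symm, fun i => d (e i), fun i => hd _, ?_⟩
  ext i j
  simp only [Matrix.submatrix_apply, mono_apply, Equiv.trans_apply, Equiv.symm_apply_eq]

/-- Renaming rows and columns differently changes a matrix by monomial factors. -/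
theorem submatrix_eq_mul [Fintype ι] (M : Matrix ι ι ℂ) (e f : Equiv.Perm ι) :
    M.submatrix e f = mono e (fun _ => 1) * M * mono f⁻¹ (fun _ => 1) := by
  ext i j
  rw [mul_mono, mono_mul]
  simp

theorem IsMono.sum {Q : Matrix ι ι ℂ} {P : Matrix κ κ ℂ} (hQ : IsMono Q) (hP : IsMono P) :
    IsMono (fromBlocks Q 0 0 P) := by
  obtain ⟨σ, d, hd, rfl⟩ := hQ
  obtain ⟨τ, f, hf, rfl⟩ := hP
  refine ⟨Equiv.sumCongr σ τ, Sum.elim d f, ?_, ?_⟩
  · rintro (i | i)
    · exact hd i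
    · exact hf i
  · ext (i | i) (j | j) <;> simp

theorem IsMono.tensor {Q : Matrix ι ι ℂ} {P : Matrix κ κ ℂ} (hQ : IsMono Q) (hP : IsMono P) :
    IsMono (tensor Q P) := by
  obtain ⟨σ, d, hd, rfl⟩ := hQ
  obtain ⟨τ, f, hf, rfl⟩ := hP
  refine ⟨Equiv.prodCongr σ τ, fun i => d i.1 * f i.2, fun i => mul_ne_zero (hd _) (hf _), ?_⟩
  ext ⟨i, i'⟩ ⟨j, j'⟩
  simp only [tensor_apply, mono_apply, Equiv.prodCongr_apply, Prod.map_apply, Prod.mk.injEq]
  by_cases h : σ i = j <;> by_cases h' : τ i' = j' <;> simp [h, h']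

theorem IsMono.tprod {q : ℕ} {ι : Fin q → Type} [∀ i, DecidableEq (ι i)]
    {A : ∀ i, Matrix (ι i) (ι i) ℂ} (h : ∀ i, IsMono (A i)) : IsMono (tprod A) := by
  choose σ d hd hA using h
  refine ⟨Equiv.piCongrRight σ, fun x => ∏ i, d i (x i),
    fun x => Finset.prod_ne_zero_iff.2 fun i _ => hd i _, ?_⟩
  ext x y
  simp only [tprod_apply, hA, mono_apply]
  split_ifs with h
  · subst h
    simp
  · obtain ⟨i, hi⟩ := Function.ne_iff.1 h
    exact Finset.prod_eq_zero (Finset.mem_univ i) (if_neg hi)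

end mono

/-! ### Words -/

section word

variable {ι κ : Type} [Fintype ι] [DecidableEq ι] [Fintype κ] [DecidableEq κ]
  {G : Matrix ι ι ℂ → Prop} {G' : Matrix κ κ ℂ → Prop}

theorem Word.left {r : ℕ} {Q M : Matrix ι ι ℂ} (hQ : IsMono Q) (h : Word G r M) :
    Word G r (Q * M) := by
  cases h with
  | mono hP => exact .mono (hQ.mul hP)
  | step hP hS hM =>
    rw [← Matrix.mul_assoc, ← Matrix.mul_assoc]
    exact .step (hQ.mul hP) hS hM

theorem Word.mul {r s : ℕ} {M N : Matrix ι ι ℂ} (hM : Word G r M) (hN : Word G s N) :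
    Word G (r + s) (M * N) := by
  induction hM with
  | mono hP =>
    rw [Nat.zero_add]
    exact hN.left hP
  | @step r Q S M hP hS _ ih =>
    rw [Matrix.mul_assoc, show r + 1 + s = (r + s) + 1 by omega]
    exact .step hP hS ih

theorem Word.right {r : ℕ} {Q M : Matrix ι ι ℂ} (h : Word G r M) (hQ : IsMono Q) :
    Word G r (M * Q) := h.mul (.mono hQ)

theorem Word.one : Word G 0 (1 : Matrix ι ι ℂ) := .mono .one

theorem Word.of {S : Matrix ι ι ℂ} (hS : G S) : Word G 1 S := by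
  have := Word.step (G := G) IsMono.one hS (Word.one (ι := ι))
  rwa [Matrix.one_mul, Matrix.mul_one] at this

theorem Word.map {r : ℕ} {M : Matrix ι ι ℂ} (h : Word G r M) (φ : Matrix ι ι ℂ → Matrix κ κ ℂ)
    (hmul : ∀ A B, φ (A * B) = φ A * φ B) (hmono : ∀ Q, IsMono Q → IsMono (φ Q))
    (hG : ∀ S, G S → G' (φ S)) : Word G' r (φ M) := by
  induction h with
  | mono hQ => exact .mono (hmono _ hQ)
  | step hQ hS _ ih =>
    rw [hmul, hmul]
    exact .step (hmono _ hQ) (hG _ hS) ih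

theorem Word.imp {G₂ : Matrix ι ι ℂ → Prop} {r : ℕ} {M : Matrix ι ι ℂ} (h : Word G r M)
    (hG : ∀ S, G S → G₂ S) : Word G₂ r M := by
  induction h with
  | mono hQ => exact .mono hQ
  | step hQ hS _ ih => exact .step hQ (hG _ hS) ih

/-- Inverses of words. -/
theorem Word.inv {r : ℕ} {M : Matrix ι ι ℂ} (h : Word G r M)
    (hG : ∀ S, G S → ∃ Q Q' : Matrix ι ι ℂ, IsMono Q ∧ IsMono Q' ∧ Q * S * Q' * S = 1) :
    ∃ N, Word G r N ∧ N * M = 1 ∧ M * N = 1 := by
  induction h with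
  | @mono Q hQ =>
    obtain ⟨P, hP, h1, h2⟩ := hQ.inv
    exact ⟨P, .mono hP, h1, h2⟩
  | @step r Q S M hQ hS _ ih =>
    obtain ⟨N, hN, h1, -⟩ := ih
    obtain ⟨P, hP, h3, -⟩ := hQ.inv
    obtain ⟨R, R', hR, hR', h5⟩ := hG S hS
    have h6 : (N * (R * S * R') * P) * (Q * S * M) = 1 := by
      calc (N * (R * S * R') * P) * (Q * S * M)
          = N * (R * S * R') * (P * Q) * S * M := by simp only [Matrix.mul_assoc]
        _ = N * (R * S * R' * S) * M := by rw [h3]; simp only [Matrix.mul_assoc, Matrix.one_mul]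
        _ = 1 := by rw [h5, Matrix.mul_one, h1]
    refine ⟨N * (R * S * R') * P, ?_, h6, mul_eq_one_comm.1 h6⟩
    have h7 := (hN.mul (((Word.of hS).left hR).right hR')).right hP
    exact h7

end word

/-! ### Matchings -/

section matching

variable {ι κ : Type} [Fintype ι] [DecidableEq ι] [Fintype κ] [DecidableEq κ]

theorem IsMatch.submatrix {ι κ : Type} {k : ℕ} {S : Matrix ι ι ℂ} (h : IsMatch k S) (e : κ ≃ ι) :
    IsMatch k (S.submatrix e e) := by
  obtain ⟨α, β, i1, i2, i3, i4, f, hk, rfl⟩ := h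
  exact ⟨α, β, i1, i2, i3, i4, e.trans f, hk, rfl⟩

theorem core_mul_core (α β : Type) [Fintype α] [Fintype β] [DecidableEq α] [DecidableEq β]
    (d : (α × Bool) ⊕ β → ℂ) (hd : d = Sum.elim (fun p => if p.2 then -1 else 1) fun _ => 1) :
    Matrix.diagonal d * core α β * Matrix.diagonal d * core α β = 1 := by
  have h1 : Matrix.diagonal d = fromBlocks (tensor (1 : Matrix α α ℂ)
      (Matrix.diagonal fun b : Bool => if b then (-1 : ℂ) else 1)) 0 0 1 := by
    subst hd
    ext (⟨a, b⟩ | i) (⟨a', b'⟩ | j)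
    · simp only [Matrix.diagonal_apply, fromBlocks_apply₁₁, tensor_apply, Matrix.one_apply,
        Sum.inl.injEq, Prod.mk.injEq, Sum.elim_inl]
      by_cases h : a = a' <;> by_cases h' : b = b' <;> simp [h, h']
    · simp
    · simp
    · simp [Matrix.diagonal_apply, Matrix.one_apply]
  have h2 : (Matrix.diagonal fun b : Bool => if b then (-1 : ℂ) else 1) * E *
      (Matrix.diagonal fun b : Bool => if b then (-1 : ℂ) else 1) * E = 1 := by
    ext a b
    rw [Matrix.mul_apply]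
    simp only [Matrix.mul_diagonal, Matrix.diagonal_mul, Fintype.sum_bool, E_apply,
      Matrix.one_apply]
    cases a <;> cases b <;> simp [show ¬ ((true : Bool) ≤ false) by decide]
  rw [h1, core]
  simp only [fromBlocks_multiply, Matrix.mul_zero, Matrix.zero_mul, add_zero, zero_add,
    Matrix.mul_one, ← tensor_mul]
  rw [h2, tensor_one]
  exact fromBlocks_one

theorem IsMatch.inv {k : ℕ} {S : Matrix ι ι ℂ} (h : IsMatch k S) :
    ∃ Q Q' : Matrix ι ι ℂ, IsMono Q ∧ IsMono Q' ∧ Q * S * Q' * S = 1 := by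
  obtain ⟨α, β, i1, i2, i3, i4, e, hk, rfl⟩ := h
  set d : (α × Bool) ⊕ β → ℂ := Sum.elim (fun p => if p.2 then -1 else 1) fun _ => 1 with hd
  have hd0 : ∀ i, d i ≠ 0 := by
    rintro (⟨a, b⟩ | i)
    · cases b <;> simp [hd]
    · simp [hd]
  refine ⟨_, _, (IsMono.diag hd0).submatrix e, (IsMono.diag hd0).submatrix e, ?_⟩
  rw [Matrix.submatrix_mul_equiv, Matrix.submatrix_mul_equiv, Matrix.submatrix_mul_equiv,
    core_mul_core α β d hd, Matrix.submatrix_one_equiv]

theorem IsMatch.one : IsMatch 0 (1 : Matrix ι ι ℂ) := by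
  refine ⟨Empty, ι, inferInstance, inferInstance, inferInstance, inferInstance,
    (Equiv.sumEmpty ι (Empty × Bool)).symm.trans (Equiv.sumComm _ _), rfl, ?_⟩
  ext i j
  simp [core, Matrix.one_apply]

theorem IsMatch.sum {k : ℕ} {S : Matrix ι ι ℂ} (h : IsMatch k S) :
    IsMatch k (fromBlocks S 0 0 (1 : Matrix κ κ ℂ)) := by
  obtain ⟨α, β, i1, i2, i3, i4, e, hk, rfl⟩ := h
  refine ⟨α, β ⊕ κ, i1, inferInstance, i3, inferInstance,
    (Equiv.sumCongr e (Equiv.refl κ)).trans (Equiv.sumAssoc _ _ _), hk, ?_⟩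
  ext (i | i) (j | j)
  · simp only [fromBlocks_apply₁₁, Matrix.submatrix_apply, Equiv.trans_apply,
      Equiv.sumCongr_apply, Sum.map_inl]
    rcases e i with p | p <;> rcases e j with q | q <;> simp [core, Matrix.one_apply]
  · simp only [fromBlocks_apply₁₂, Matrix.submatrix_apply, Equiv.trans_apply,
      Equiv.sumCongr_apply, Sum.map_inl, Sum.map_inr]
    rcases e i with p | p <;> simp [core, Matrix.one_apply]
  · simp only [fromBlocks_apply₂₁, Matrix.submatrix_apply, Equiv.trans_apply,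
      Equiv.sumCongr_apply, Sum.map_inl, Sum.map_inr]
    rcases e j with p | p <;> simp [core, Matrix.one_apply]
  · simp [core, Matrix.one_apply]

theorem IsMatch.tensor {k : ℕ} {S : Matrix ι ι ℂ} (h : IsMatch k S) :
    IsMatch (Fintype.card κ * k) (tensor (1 : Matrix κ κ ℂ) S) := by
  obtain ⟨α, β, i1, i2, i3, i4, e, hk, rfl⟩ := h
  refine ⟨κ × α, κ × β, inferInstance, inferInstance, inferInstance, inferInstance,
    ((Equiv.prodCongr (Equiv.refl κ) e).trans (Equiv.prodSumDistrib _ _ _)).trans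
      (Equiv.sumCongr (Equiv.prodAssoc _ _ _).symm (Equiv.refl _)),
    by rw [Fintype.card_prod, hk], ?_⟩
  ext ⟨x, i⟩ ⟨y, j⟩
  simp only [tensor_apply, Matrix.submatrix_apply, Equiv.trans_apply, Equiv.prodCongr_apply,
    Prod.map_apply, Equiv.refl_apply]
  rcases hi : e i with ⟨a, b⟩ | p <;> rcases hj : e j with ⟨a', b'⟩ | q
  · simp only [core, fromBlocks_apply₁₁, tensor_apply, Equiv.prodSumDistrib_apply_left,
      Equiv.sumCongr_apply, Sum.map_inl, Equiv.prodAssoc_symm_apply, Matrix.one_apply,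
      Prod.mk.injEq]
    by_cases h : x = y <;> by_cases h' : a = a' <;> simp [h, h']
  · simp [core]
  · simp [core]
  · simp only [core, fromBlocks_apply₂₂, Equiv.prodSumDistrib_apply_right,
      Equiv.sumCongr_apply, Sum.map_inr, Equiv.refl_apply, Matrix.one_apply,
      Prod.mk.injEq]
    by_cases h : x = y <;> by_cases h' : p = q <;> simp [h, h']

end matching

end Vale.Agent.P344.R2.H715
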