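import Vale.Agent.P344.R2.H715.Layers

/-!
# The Fourier transform in few layers, in place: all orders
-/

set_option linter.unusedSectionVars false

namespace Vale.Agent.P344.R2.H715

open Matrix

section block

variable {ι ω : Type} [Fintype ι] [DecidableEq ι] [Fintype ω] [DecidableEq ω] {p : ℕ → Prop}

/-- A product of three factors through unused cells. -/
theorem word_through {B : Matrix ω ι ℂ} {Q : Matrix ι ω ℂ} {M : Matrix ω ω ℂ} {t₁ t₂ t₃ : ℕ}
    (hBQ : B * Q = 0) (hB : Word (Mt p) t₁ (fromBlocks (1 : Matrix ι ι ℂ) 0 B 1))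
    (hQ : Word (Mt p) t₂ (fromBlocks (1 : Matrix ι ι ℂ) Q 0 1)) (hM : Word (Mt p) t₃ M) :
    Word (Mt p) (2 * (2 * t₃ + t₁ + t₂)) (fromBlocks (1 + Q * (M * B)) 0 0
      (1 : Matrix ω ω ℂ)) := by
  obtain ⟨M', hM', h1, h2⟩ := hM.inv fun S hS => hS.inv
  have hV : Word (Mt p) (2 * t₃ + t₁) (fromBlocks (1 : Matrix ι ι ℂ) 0 (M * B) 1) := by
    have h3 := ((hM.one_sum (κ := ι)).mul hB).mul (hM'.one_sum (κ := ι))
    rw [show t₃ + t₁ + t₃ = 2 * t₃ + t₁ by ring] at h3
    convert h3 using 1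
    simp only [fromBlocks_multiply, Matrix.mul_zero, Matrix.zero_mul, add_zero, zero_add,
      Matrix.mul_one, h2]
  have hV' : Word (Mt p) (2 * t₃ + t₁) (fromBlocks (1 : Matrix ι ι ℂ) 0 (-(M * B)) 1) :=
    hV.inv_eq (by rw [fromBlocks_multiply]; simp)
  have hQ' : Word (Mt p) t₂ (fromBlocks (1 : Matrix ι ι ℂ) (-Q) 0 1) :=
    hQ.inv_eq (by rw [fromBlocks_multiply]; simp)
  have h3 := ((hQ.mul hV).mul hQ').mul hV'
  rw [show t₂ + (2 * t₃ + t₁) + t₂ + (2 * t₃ + t₁) = 2 * (2 * t₃ + t₁ + t₂) by ring] at h3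
  convert h3 using 1
  simp only [fromBlocks_multiply, Matrix.mul_zero, Matrix.zero_mul, add_zero, zero_add,
    Matrix.mul_one, Matrix.one_mul, Matrix.mul_neg, Matrix.mul_assoc, hBQ, neg_zero,
    Matrix.add_mul, add_neg_cancel, neg_add_cancel]

theorem word_scalar (c : ℂ) : Word Layer 1 (fromBlocks (1 : Matrix ι ι ℂ) 0
    (c • (1 : Matrix ι ι ℂ)) (1 : Matrix ι ι ℂ)) := by
  by_cases hc : c = 0
  · rw [hc, zero_smul, fromBlocks_one]
    exact Word.one.pad trivial (Nat.zero_le _)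
  · have h1 : IsMatch (Fintype.card ι) (fromBlocks (1 : Matrix ι ι ℂ) 0 (1 : Matrix ι ι ℂ) (1 : Matrix ι ι ℂ)) := by
      refine isMatch_of_injective (fun p : ι × Bool => if p.2 then Sum.inl p.1 else Sum.inr p.1)
        ?_ ?_
      · rintro ⟨a, b⟩ ⟨a', b'⟩ h
        cases b <;> cases b' <;> simp at h <;> simp [h]
      · rintro (k | k) (l | l)
        · simp [Matrix.one_apply]
        · simp
        · by_cases h : k = l
          · subst h
            simp
          · simp [h, Ne.symm h, ite_and]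
        · simp [Matrix.one_apply]
    have h2 : Word Layer 1 (fromBlocks (1 : Matrix ι ι ℂ) 0 (1 : Matrix ι ι ℂ) (1 : Matrix ι ι ℂ)) := Word.of ⟨_, trivial, h1⟩
    have h3 : IsMono (fromBlocks (1 : Matrix ι ι ℂ) 0 0 (Matrix.diagonal fun _ : ι => c)) :=
      IsMono.one.sum (IsMono.diag fun _ => hc)
    have h4 : IsMono (fromBlocks (1 : Matrix ι ι ℂ) 0 0 (Matrix.diagonal fun _ : ι => c⁻¹)) :=
      IsMono.one.sum (IsMono.diag fun _ => inv_ne_zero hc)
    convert (h2.left h3).right h4 using 1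
    simp only [fromBlocks_multiply, Matrix.mul_zero, Matrix.zero_mul, add_zero, zero_add,
      Matrix.mul_one, Matrix.diagonal_mul_diagonal, mul_inv_cancel₀ hc, Matrix.diagonal_one]
    congr 1
    ext i j
    simp [Matrix.diagonal_apply, Matrix.one_apply]

/-- Adding the cells `x` to unused cells. -/
theorem word_into (g : ι → ω) (hg : Function.Injective g) :
    Word Layer 1 (fromBlocks (1 : Matrix (ι ⊕ ι) (ι ⊕ ι) ℂ) 0
      (Matrix.of fun w j => Sum.elim (fun i => if w = g i then (1 : ℂ) else 0) (fun _ => 0) j)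
      (1 : Matrix ω ω ℂ)) := by
  refine Word.of ⟨_, trivial, isMatch_of_injective
    (fun p : ι × Bool => if p.2 then Sum.inl (Sum.inl p.1) else Sum.inr (g p.1)) ?_ ?_⟩
  · rintro ⟨a, b⟩ ⟨a', b'⟩ h
    cases b <;> cases b'
    · simp only [Bool.false_eq_true, if_false, Sum.inr.injEq] at h
      rw [hg h]
    · simp at h
    · simp at h
    · simp at h
      simp [h]
  · rintro ((k | k) | k) ((l | l) | l)
    · simp [Matrix.one_apply]
    · simp
    · simp
    · simp
    · simp [Matrix.one_apply]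
    · simp
    · simp only [fromBlocks_apply₂₁, Matrix.of_apply, Sum.elim_inl, reduceCtorEq, if_false,
        zero_add, Bool.false_eq_true, if_true, Sum.inr.injEq, Sum.inl.injEq]
      rw [Finset.sum_eq_single l]
      · simp
      · intro b _ hb
        rw [if_neg fun h => hb h.2.symm]
      · intro h
        exact absurd (Finset.mem_univ _) h
    · simp
    · simp [Matrix.one_apply]

/-- Adding unused cells to the cells `y`. -/
theorem word_from (g : ι → ω) (hg : Function.Injective g) :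
    Word Layer 1 (fromBlocks (1 : Matrix (ι ⊕ ι) (ι ⊕ ι) ℂ)
      (Matrix.of fun j w => Sum.elim (fun _ => 0) (fun i => if w = g i then (1 : ℂ) else 0) j)
      0 (1 : Matrix ω ω ℂ)) := by
  refine Word.of ⟨_, trivial, isMatch_of_injective
    (fun p : ι × Bool => if p.2 then Sum.inr (g p.1) else Sum.inl (Sum.inr p.1)) ?_ ?_⟩
  · rintro ⟨a, b⟩ ⟨a', b'⟩ h
    cases b <;> cases b'
    · simp at h
      simp [h]
    · simp at h
    · simp at h
    · simp only [if_true, Sum.inr.injEq] at h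
      rw [hg h]
  · rintro ((k | k) | k) ((l | l) | l)
    all_goals simp [Matrix.one_apply, ite_and]

end block

theorem zeta_pow_mod {N : ℕ} (hN : N ≠ 0) (x l : ℕ) :
    zeta N ^ (x % N * l) = zeta N ^ (x * l) := by
  rw [mul_comm, pow_mul, mul_comm, pow_mul]
  conv_rhs => rw [← Nat.div_add_mod x N, pow_add, pow_mul (zeta N ^ l) N,
    ← pow_mul (zeta N) l N, mul_comm l N, pow_mul (zeta N) N l, (zeta_prim hN).pow_eq_one,
    one_pow, one_pow, one_mul]

/-- In-place addition of the Fourier transform, with unused cells. -/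
theorem word_add_F {n a : ℕ} (hn : n ≠ 0) (ha : 2 * n ≤ 2 ^ a) :
    Word Layer (16 * a + 5) (fromBlocks (fromBlocks (1 : Matrix (Fin n) (Fin n) ℂ) 0 (F n) 1) 0 0
      (1 : Matrix (Fin (2 ^ a)) (Fin (2 ^ a)) ℂ)) := by
  set N := 2 ^ a with hN
  have hN0 : N ≠ 0 := by positivity
  -- a shift that makes the circulant invertible
  obtain ⟨t, ht⟩ := Infinite.exists_notMem_finset
    (Finset.univ.image fun l : Fin N => - mult n N l)
  have ht' : ∀ l : Fin N, mult n N l + t ≠ 0 := by
    intro l h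
    apply ht
    rw [Finset.mem_image]
    exact ⟨l, Finset.mem_univ _, neg_eq_of_add_eq_zero_right h⟩
  set M : Matrix (Fin N) (Fin N) ℂ := F N * Matrix.diagonal (fun l : Fin N => mult n N l + t) * F N
    with hM
  have hMw : Word Layer (4 * a) M := by
    have h1 := ((word_F_pow a).right (IsMono.diag ht')).mul (word_F_pow a)
    rwa [show 2 * a + 2 * a = 4 * a by ring] at h1
  let g₁ : Fin n → Fin N := fun k => ⟨k.1, by omega⟩
  let g₂ : Fin n → Fin N := fun k => ⟨(N - k.1) % N, Nat.mod_lt _ (Nat.pos_of_ne_zero hN0)⟩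
  have hg₁ : Function.Injective g₁ := fun j k h => Fin.ext (Fin.mk.inj_iff.1 h)
  have hg₂ : Function.Injective g₂ := by
    intro j k h
    have h1 : (N - j.1) % N = (N - k.1) % N := Fin.mk.inj_iff.1 h
    have hj := j.2
    have hk := k.2
    apply Fin.ext
    rcases Nat.eq_zero_or_pos j.1 with h2 | h2 <;> rcases Nat.eq_zero_or_pos k.1 with h3 | h3
    · omega
    · rw [h2, Nat.sub_zero, Nat.mod_self, Nat.mod_eq_of_lt (by omega)] at h1
      omega
    · rw [h3, Nat.sub_zero, Nat.mod_self, Nat.mod_eq_of_lt (by omega)] at h1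
      omega
    · rw [Nat.mod_eq_of_lt (by omega), Nat.mod_eq_of_lt (by omega)] at h1
      omega
  -- the Toeplitz matrix
  have hT : ∀ j k : Fin n, M (g₂ j) (g₁ k) =
      (zeta (2 * n) ^ ((max (j : ℕ) k - min (j : ℕ) k) ^ 2))⁻¹ +
        if j = k then t * N else 0 := by
    intro j k
    have h1 : M (g₂ j) (g₁ k) = ∑ l ∈ Finset.range N,
        (mult n N l + t) * zeta N ^ (l * ((N - j) + k)) := by
      rw [hM, Matrix.mul_apply, ← Fin.sum_univ_eq_sum_range
        (fun l => (mult n N l + t) * zeta N ^ (l * ((N - j) + k)))]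
      refine Finset.sum_congr rfl fun l _ => ?_
      rw [Matrix.mul_diagonal, F_apply, F_apply]
      simp only [g₁, g₂]
      rw [zeta_pow_mod hN0, show (l : ℕ) * (N - j + k) = (N - j) * l + l * k by ring, pow_add]
      ring
    rw [h1]
    simp only [add_mul, Finset.sum_add_distrib]
    rw [kernel hn ha j.2 k.2, ← Finset.mul_sum, char_sum hN0]
    congr 1
    by_cases hjk : j = k
    · subst hjk
      have hj := j.2
      rw [if_pos rfl, if_pos ⟨1, by omega⟩]
    · rw [if_neg hjk, if_neg, mul_zero]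
      rintro ⟨r, hr⟩
      have hj := j.2
      have hk := k.2
      have hr2 : r < 2 := by
        by_contra hcon
        have : N * 2 ≤ N * r := Nat.mul_le_mul_left _ (by omega)
        omega
      apply hjk
      apply Fin.ext
      interval_cases r <;> omega
  set T : Matrix (Fin n) (Fin n) ℂ := Matrix.of fun j k => M (g₂ j) (g₁ k) with hTdef
  have h1 : Word Layer (16 * a + 4) (fromBlocks (fromBlocks (1 : Matrix (Fin n) (Fin n) ℂ) 0 T 1)
      0 0 (1 : Matrix (Fin N) (Fin N) ℂ)) := by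
    have h2 := word_through (p := fun _ => True) (by
      ext i j
      rw [Matrix.mul_apply, Fintype.sum_sum_type]
      simp) (word_into g₁ hg₁) (word_from g₂ hg₂) hMw
    rw [show 2 * (2 * (4 * a) + 1 + 1) = 16 * a + 4 by ring] at h2
    convert h2 using 2
    ext (j | j) (k | k)
    all_goals simp [Matrix.mul_apply, Matrix.one_apply, hTdef]
  have h2 := (word_scalar (ι := Fin n) (- (t * N))).sum_one (κ := Fin N)
  have h3 := h1.mul_sum h2
  set d : Fin n → ℂ := fun j => zeta (2 * n) ^ ((j : ℕ) ^ 2) with hd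
  have hd0 : ∀ j, d j ≠ 0 := fun j => zeta_pow_ne_zero _ _
  have h4 : IsMono (fromBlocks (Matrix.diagonal fun j => (d j)⁻¹) 0 0 (Matrix.diagonal d)) :=
    (IsMono.diag fun j => inv_ne_zero (hd0 j)).sum (IsMono.diag hd0)
  have h5 : IsMono (fromBlocks (Matrix.diagonal d) 0 0 (Matrix.diagonal fun j => (d j)⁻¹)) :=
    (IsMono.diag hd0).sum (IsMono.diag fun j => inv_ne_zero (hd0 j))
  have h6 := ((Word.mono_sum h4).mul_sum h3).mul_sum (Word.mono_sum h5)
  rw [show 0 + (16 * a + 4 + 1) + 0 = 16 * a + 5 by ring] at h6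
  convert h6 using 2
  simp only [fromBlocks_multiply, Matrix.mul_zero, Matrix.zero_mul, add_zero, zero_add,
    Matrix.mul_one, Matrix.one_mul, Matrix.diagonal_mul_diagonal]
  have e1 : ∀ j, d j * (d j)⁻¹ = 1 := fun j => mul_inv_cancel₀ (hd0 j)
  have e2 : ∀ j, (d j)⁻¹ * d j = 1 := fun j => inv_mul_cancel₀ (hd0 j)
  simp only [e1, e2, Matrix.diagonal_one]
  congr 1
  ext j k
  rw [Matrix.mul_diagonal, Matrix.diagonal_mul, Matrix.add_apply, hTdef, Matrix.of_apply, hT,
    Matrix.smul_apply, Matrix.one_apply, F_apply, ← chirp_identity hn]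
  by_cases hjk : j = k
  · simp [hjk, hd]
  · simp only [hjk, if_false, add_zero, smul_eq_mul, mul_zero, hd]
    ring

/-- The inverse of the Fourier matrix. -/
theorem F_inv {n : ℕ} (hn : n ≠ 0) : ∃ Q : Matrix (Fin n) (Fin n) ℂ, IsMono Q ∧
    F n * (Q * F n * 1) = 1 := by
  have hnc : (n : ℂ) ≠ 0 := Nat.cast_ne_zero.2 hn
  have hpos : 0 < n := Nat.pos_of_ne_zero hn
  let r : Fin n → Fin n := fun j => ⟨(n - j.1) % n, Nat.mod_lt _ hpos⟩
  have hrr : ∀ j, r (r j) = j := by
    intro j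
    apply Fin.ext
    have hj := j.2
    simp only [r]
    rcases Nat.eq_zero_or_pos j.1 with h2 | h2
    · rw [h2, Nat.sub_zero, Nat.mod_self, Nat.sub_zero, Nat.mod_self]
    · rw [Nat.mod_eq_of_lt (show n - j.1 < n by omega), Nat.mod_eq_of_lt (by omega)]
      omega
  let σ : Equiv.Perm (Fin n) := ⟨r, r, hrr, hrr⟩
  refine ⟨mono σ fun _ => (n : ℂ)⁻¹, ⟨σ, _, fun _ => inv_ne_zero hnc, rfl⟩, ?_⟩
  ext j k
  rw [Matrix.mul_one, Matrix.mul_apply]
  simp only [mono_mul, F_apply]
  have h1 : ∀ l : Fin n, zeta n ^ ((j : ℕ) * (l : ℕ)) * ((n : ℂ)⁻¹ *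
      zeta n ^ (((σ l : Fin n) : ℕ) * (k : ℕ))) =
      (n : ℂ)⁻¹ * zeta n ^ ((l : ℕ) * ((j : ℕ) + (n - k))) := by
    intro l
    have hl := l.2
    have hk := k.2
    have h2 : ((σ l : Fin n) : ℕ) = (n - l.1) % n := rfl
    rw [h2, zeta_pow_mod hn]
    have h3 : zeta n ^ ((n - (l : ℕ)) * (k : ℕ)) = zeta n ^ ((l : ℕ) * (n - k)) := by
      have h4 : (n - (l : ℕ)) * (k : ℕ) + n * l = (l : ℕ) * (n - k) + n * k := by
        have h5 : ((n - (l : ℕ) : ℕ) : ℤ) = n - l := by push_cast [Nat.cast_sub hl.le]; ring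
        have h6 : ((n - (k : ℕ) : ℕ) : ℤ) = n - k := by push_cast [Nat.cast_sub hk.le]; ring
        zify [h5, h6]
        ring
      have h7 : zeta n ^ n = 1 := (zeta_prim hn).pow_eq_one
      have h8 := congrArg (fun e => zeta n ^ e) h4
      simp only [pow_add, pow_mul _ n, h7, one_pow, mul_one] at h8
      exact h8
    rw [h3, mul_left_comm, ← pow_add]
    congr 2
    ring
  simp only [h1]
  rw [← Finset.mul_sum, Fin.sum_univ_eq_sum_range (fun l => zeta n ^ (l * ((j : ℕ) + (n - k)))) n,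
    char_sum hn]
  have hj := j.2
  have hk := k.2
  by_cases hjk : j = k
  · subst hjk
    rw [if_pos ⟨1, by omega⟩, Matrix.one_apply_eq, inv_mul_cancel₀ hnc]
  · rw [if_neg, Matrix.one_apply_ne hjk, mul_zero]
    rintro ⟨c, hc⟩
    have hc2 : c < 2 := by
      by_contra hcon
      have : n * 2 ≤ n * c := Nat.mul_le_mul_left _ (by omega)
      omega
    apply hjk
    apply Fin.ext
    interval_cases c <;> omega

/-- Six copies of the Fourier transform in place, with `O(log n)` layers. -/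
theorem word_six_F {n a : ℕ} (hn : n ≠ 0) (ha : 2 * n ≤ 2 ^ a) (ha' : 2 ^ a ≤ 4 * n) :
    Word Layer (144 * a + 45)
      (tensor (1 : Matrix (Fin 3 × Bool) (Fin 3 × Bool) ℂ) (F n)) := by
  obtain ⟨Q, hQ, hQF⟩ := F_inv hn
  have h1 := Word.whitehead hQ IsMono.one hQF (word_add_F hn ha)
  have h2 := h1.copies (I := Fin 3) (by simp only [Fintype.card_fin]; omega)
  rw [Fintype.card_fin, show 3 * (3 * (16 * a + 5)) = 144 * a + 45 by ring] at h2
  exact h2

/-- The same, with a bound by the logarithm. -/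
theorem exists_word_six_F {n : ℕ} (hn : n ≠ 0) : ∃ t : ℕ,
    (t : ℝ) ≤ 144 * Real.logb 2 n + 333 ∧
    Word Layer t (tensor (1 : Matrix (Fin 3 × Bool) (Fin 3 × Bool) ℂ) (F n)) := by
  have hpos : 0 < n := Nat.pos_of_ne_zero hn
  set a := Nat.clog 2 (2 * n) with ha
  have h1 : 2 * n ≤ 2 ^ a := Nat.le_pow_clog (by norm_num) _
  have h2 : 2 ^ a ≤ 4 * n := by
    have h3 : 2 ^ (a - 1) < 2 * n := Nat.pow_pred_clog_lt_self (by norm_num) (by omega)
    have ha1 : 1 ≤ a := Nat.clog_pos (by norm_num) (by omega)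
    have h4 : 2 ^ a = 2 * 2 ^ (a - 1) := by
      rw [← pow_succ']
      congr 1
      omega
    omega
  refine ⟨144 * a + 45, ?_, word_six_F hn h1 h2⟩
  have h3 : (a : ℝ) ≤ Real.logb 2 n + 2 := by
    have h4 : (2 : ℝ) ^ (a : ℝ) ≤ 4 * n := by
      rw [Real.rpow_natCast]
      exact_mod_cast h2
    have h5 : (a : ℝ) ≤ Real.logb 2 (4 * n) := by
      rw [Real.le_logb_iff_rpow_le (by norm_num) (by positivity)]
      exact h4
    rw [Real.logb_mul (by norm_num) (by positivity)] at h5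
    have h6 : Real.logb 2 (4 : ℝ) = 2 := by
      rw [show (4 : ℝ) = 2 ^ (2 : ℕ) by norm_num, Real.logb_pow, Real.logb_self_eq_one (by norm_num)]
      norm_num
    linarith
  push_cast
  linarith

end Vale.Agent.P344.R2.H715
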