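import Vale.Agent.P344.R2.H715.Cost

/-!
# Tensor powers of in-place programs

A program for `E^{⊗ m}` with fewer than `m 2^{m-1}` steps gives circuits of size `o(m 2^m)`.
-/

set_option linter.unusedSectionVars false

namespace Vale.Agent.P344.R2.H715

open Matrix

/-- Circuits for the powers of `E`, with at most `a j + b` gates per point. -/
def Rate (a b : ℝ) : Prop := ∀ j : ℕ, ∃ s : ℕ, Cost (tpow E j) s ∧ (s : ℝ) ≤ 2 ^ j * (a * j + b)

/-- The matrix `S` costs as much as `x` further factors `E`. -/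
def Cheap (a b x : ℝ) {ι : Type} [Fintype ι] (S : Matrix ι ι ℂ) : Prop :=
  ∀ j : ℕ, ∃ s : ℕ, Cost (tensor (tpow E j) S) s ∧
    (s : ℝ) ≤ 2 ^ j * Fintype.card ι * (a * (j + x) + b)

section cheap

variable {ι κ : Type} [Fintype ι] [Fintype κ] {a b x y : ℝ}

theorem Cheap.eqv {S : Matrix ι ι ℂ} {T : Matrix κ κ ℂ} (h : Eqv S T) (hT : Cheap a b x T) :
    Cheap a b x S := by
  intro j
  obtain ⟨s, hs, hb⟩ := hT j
  refine ⟨s, ((Eqv.refl _).tensor h).cost hs, ?_⟩
  rw [h.card]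
  exact hb

theorem Cheap.mono {S : Matrix ι ι ℂ} (h : Cheap a b x S) (ha : 0 ≤ a) (hxy : x ≤ y) :
    Cheap a b y S := by
  intro j
  obtain ⟨s, hs, hb⟩ := h j
  refine ⟨s, hs, hb.trans ?_⟩
  gcongr

theorem Cheap.unit (h : Rate a b) : Cheap a b 0 (1 : Matrix Unit Unit ℂ) := by
  intro j
  obtain ⟨s, hs, hb⟩ := h j
  refine ⟨s, (Eqv.tensor_unit _ _ (by simp)).cost hs, ?_⟩
  simpa using hb

theorem Cheap.cost {S : Matrix ι ι ℂ} (h : Cheap a b x S) :
    ∃ s : ℕ, Cost S s ∧ (s : ℝ) ≤ Fintype.card ι * (a * x + b) := by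
  obtain ⟨s, hs, hb⟩ := h 0
  have h1 : Eqv S (tensor (tpow E 0) S) := by
    have h2 := (tpow_zero E).tensor (Eqv.refl S)
    exact (h2.trans ((Eqv.tensor_comm _ _).trans
      (Eqv.tensor_unit S (1 : Matrix Unit Unit ℂ) (by simp)))).symm
  refine ⟨s, h1.cost hs, hb.trans (le_of_eq ?_)⟩
  simp

/-- Splitting a matching inside a tensor product. -/
theorem split_core {I J α β : Type} [DecidableEq α] [DecidableEq β] (X : Matrix I I ℂ)
    (T : Matrix J J ℂ) :
    Eqv (tensor X (tensor (core α β) T))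
      (fromBlocks (tensor (1 : Matrix α α ℂ) (tensor (tensor E X) T)) 0 0
        (tensor (1 : Matrix β β ℂ) (tensor X T))) := by
  refine ⟨⟨fun p => match p with
      | (i, (Sum.inl (a, c), t)) => Sum.inl (a, ((c, i), t))
      | (i, (Sum.inr b, t)) => Sum.inr (b, (i, t)),
    fun p => match p with
      | Sum.inl (a, ((c, i), t)) => (i, (Sum.inl (a, c), t))
      | Sum.inr (b, (i, t)) => (i, (Sum.inr b, t)), ?_, ?_⟩, ?_⟩
  · rintro ⟨i, ⟨(⟨a, c⟩ | b), t⟩⟩ <;> rfl
  · rintro (⟨a, ⟨⟨c, i⟩, t⟩⟩ | ⟨b, ⟨i, t⟩⟩) <;> rfl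
  · ext ⟨i, ⟨(⟨a, c⟩ | b), t⟩⟩ ⟨i', ⟨(⟨a', c'⟩ | b'), t'⟩⟩
    · simp only [tensor_apply, core, fromBlocks_apply₁₁, Matrix.submatrix_apply, Equiv.coe_fn_mk]
      ring
    · simp [core]
    · simp [core]
    · simp only [tensor_apply, core, fromBlocks_apply₂₂, Matrix.submatrix_apply, Equiv.coe_fn_mk]
      ring

theorem Cheap.tensor {S : Matrix ι ι ℂ} {T : Matrix κ κ ℂ} {k : ℕ} (hS : IsMatch k S)
    (hk : 2 * (k : ℝ) ≤ x * Fintype.card ι) (ha : 0 ≤ a) (hT : Cheap a b y T) :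
    Cheap a b (x + y) (tensor S T) := by
  obtain ⟨α, β, i1, i2, i3, i4, e, hα, rfl⟩ := hS
  intro j
  obtain ⟨s1, hs1, hb1⟩ := hT (j + 1)
  obtain ⟨s2, hs2, hb2⟩ := hT j
  have h1 : Eqv (H715.tensor (tpow E j) (H715.tensor ((core α β).submatrix e e) T))
      (H715.tensor (tpow E j) (H715.tensor (core α β) T)) :=
    (Eqv.refl _).tensor (Eqv.tensor ⟨e, rfl⟩ (Eqv.refl T))
  have h2 : Cost (H715.tensor (1 : Matrix α α ℂ) (H715.tensor (H715.tensor E (tpow E j)) T))
      (Fintype.card α * s1) :=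
    (((tpow_succ E j).symm.tensor (Eqv.refl T)).cost hs1).tensor_one
  have h3 : Cost (H715.tensor (1 : Matrix β β ℂ) (H715.tensor (tpow E j) T))
      (Fintype.card β * s2) := hs2.tensor_one
  refine ⟨Fintype.card α * s1 + Fintype.card β * s2,
    (h1.trans (split_core _ _)).cost (h2.sum h3), ?_⟩
  have hcard : Fintype.card ι = Fintype.card α * 2 + Fintype.card β := by
    rw [Fintype.card_congr e]
    simp
  have hcard' : (Fintype.card ι : ℝ) = k * 2 + Fintype.card β := by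
    rw [hcard, hα]
    push_cast
    ring
  rw [hα]
  rw [Fintype.card_prod]
  push_cast at hb1 hb2 ⊢
  have e1 : (k : ℝ) * s1 ≤ k * (2 ^ (j + 1) * Fintype.card κ * (a * (j + 1 + y) + b)) :=
    mul_le_mul_of_nonneg_left hb1 (by positivity)
  have e2 : (Fintype.card β : ℝ) * s2 ≤
      Fintype.card β * (2 ^ j * Fintype.card κ * (a * (j + y) + b)) :=
    mul_le_mul_of_nonneg_left hb2 (by positivity)
  have e3 : 2 ^ j * (Fintype.card κ : ℝ) * a * (2 * k) ≤
      2 ^ j * (Fintype.card κ : ℝ) * a * (x * Fintype.card ι) :=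
    mul_le_mul_of_nonneg_left hk (by positivity)
  calc (k : ℝ) * s1 + Fintype.card β * s2
      ≤ k * (2 ^ (j + 1) * Fintype.card κ * (a * (j + 1 + y) + b)) +
        Fintype.card β * (2 ^ j * Fintype.card κ * (a * (j + y) + b)) := add_le_add e1 e2
    _ = 2 ^ j * Fintype.card κ * ((k * 2 + Fintype.card β) * (a * (j + y) + b)) +
        2 ^ j * (Fintype.card κ : ℝ) * a * (2 * k) := by rw [pow_succ]; ring
    _ ≤ 2 ^ j * Fintype.card κ * ((k * 2 + Fintype.card β) * (a * (j + y) + b)) +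
        2 ^ j * (Fintype.card κ : ℝ) * a * (x * Fintype.card ι) := by linarith
    _ = 2 ^ j * (Fintype.card ι * Fintype.card κ) * (a * (j + (x + y)) + b) := by
      rw [← hcard']; ring

theorem Cheap.tpow {S : Matrix ι ι ℂ} {k : ℕ} (hS : IsMatch k S)
    (hk : 2 * (k : ℝ) ≤ x * Fintype.card ι) (ha : 0 ≤ a) (h : Rate a b) (K : ℕ) :
    Cheap a b (K * x) (H715.tpow S K) := by
  induction K with
  | zero =>
    rw [Nat.cast_zero, zero_mul]
    exact (Cheap.unit h).eqv (tpow_zero S)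
  | succ K ih =>
    have h1 := (Cheap.tensor hS hk ha ih).eqv (tpow_succ S K)
    rw [show ((K + 1 : ℕ) : ℝ) * x = x + K * x by push_cast; ring]
    exact h1

/-- The cost of a word. -/
theorem Word.cost [DecidableEq ι] {C : ℝ} {r : ℕ} {M : Matrix ι ι ℂ}
    (h : Word (fun S => ∃ s : ℕ, Cost S s ∧ (s : ℝ) ≤ C) r M) :
    ∃ s : ℕ, Cost M s ∧ (s : ℝ) ≤ r * C + (r + 1) * Fintype.card ι := by
  induction h with
  | mono hQ => exact ⟨_, Cost.isMono hQ, by simp⟩
  | @step r Q S M hQ hS _ ih =>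
    obtain ⟨s, hs, hb⟩ := ih
    obtain ⟨t, ht, hc⟩ := hS
    refine ⟨_, ((Cost.isMono hQ).mul ht).mul hs, ?_⟩
    push_cast
    linarith

/-- The cost of the powers of a word. -/
theorem Word.cost_tpow [DecidableEq ι] {r : ℕ} {M : Matrix ι ι ℂ} (h : Word Slide r M)
    (hι : 0 < Fintype.card ι) (ha : 0 ≤ a) (hr : Rate a b) (K : ℕ) :
    ∃ s : ℕ, Cost (H715.tpow M K) s ∧ (s : ℝ) ≤ Fintype.card ι ^ K *
      (r * (a * (K * (2 / Fintype.card ι)) + b) + (r + 1)) := by
  have hι' : (0 : ℝ) < Fintype.card ι := by exact_mod_cast hι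
  have h1 : Word (fun S => ∃ s : ℕ, Cost S s ∧
      (s : ℝ) ≤ Fintype.card ι ^ K * (a * (K * (2 / Fintype.card ι)) + b)) r
      (H715.tpow M K) := by
    refine h.map (fun M => H715.tpow M K) (fun A B => ?_) (fun Q hQ => ?_) fun S hS => ?_
    · exact tprod_mul (fun _ => A) fun _ => B
    · exact IsMono.tprod fun _ => hQ
    · obtain ⟨k, hk, hS⟩ := hS
      have hx : 2 * (k : ℝ) ≤ 2 / Fintype.card ι * Fintype.card ι := by
        rw [div_mul_cancel₀ _ hι'.ne']
        have : (k : ℝ) ≤ 1 := by exact_mod_cast hk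
        linarith
      obtain ⟨s, hs, hb⟩ := (Cheap.tpow hS hx ha hr K).cost
      refine ⟨s, hs, ?_⟩
      simpa using hb
  obtain ⟨s, hs, hb⟩ := h1.cost
  refine ⟨s, hs, hb.trans (le_of_eq ?_)⟩
  simp only [Fintype.card_pi, Finset.prod_const, Finset.card_univ, Fintype.card_fin]
  push_cast
  ring

end cheap

/-! ### The limit -/

theorem Cost.tensor_mul {ι κ : Type} [Fintype ι] [Fintype κ] [DecidableEq ι] [DecidableEq κ]
    {A : Matrix ι ι ℂ} {B : Matrix κ κ ℂ} {s t : ℕ} (hA : Cost A s) (hB : Cost B t) :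
    Cost (tensor A B) (Fintype.card κ * s + Fintype.card ι * t) := by
  have h1 : tensor A B = tensor A 1 * tensor 1 B := by
    rw [← H715.tensor_mul, Matrix.mul_one, Matrix.one_mul]
  rw [h1]
  exact (((Eqv.tensor_comm _ _).cost hA.tensor_one)).mul hB.tensor_one

theorem exists_cost (j : ℕ) : ∃ s, Cost (tpow E j) s := by
  induction j with
  | zero => exact ⟨0, (tpow_zero E).cost Cost.one⟩
  | succ j ih =>
    obtain ⟨s, hs⟩ := ih
    exact ⟨_, (tpow_succ E j).cost (Cost.E.tensor_mul hs)⟩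

/-- The least number of gates for `E^{⊗ j}`. -/
noncomputable def zc (j : ℕ) : ℕ := sInf {s | Cost (tpow E j) s}

theorem zc_spec (j : ℕ) : Cost (tpow E j) (zc j) := Nat.sInf_mem (exists_cost j)

theorem zc_le {j s : ℕ} (h : Cost (tpow E j) s) : zc j ≤ s := Nat.sInf_le h

/-- The number of gates per point. -/
noncomputable def zr (j : ℕ) : ℝ := zc j / 2 ^ j

theorem zr_nonneg (j : ℕ) : 0 ≤ zr j := by unfold zr; positivity

theorem zr_le {j : ℕ} {s : ℕ} {x : ℝ} (h : Cost (tpow E j) s) (hx : (s : ℝ) ≤ 2 ^ j * x) :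
    zr j ≤ x := by
  unfold zr
  rw [div_le_iff₀ (by positivity), mul_comm]
  have : (zc j : ℝ) ≤ s := by exact_mod_cast zc_le h
  linarith

theorem zr_subadditive : Subadditive zr := by
  intro j k
  have h1 := (tpow_add E j k).cost ((zc_spec j).tensor_mul (zc_spec k))
  refine zr_le h1 ?_
  unfold zr
  simp only [Fintype.card_pi, Finset.prod_const, Finset.card_univ, Fintype.card_fin,
    Fintype.card_bool]
  push_cast
  rw [pow_add]
  field_simp
  exact le_refl _

theorem zr_bdd : BddBelow (Set.range fun n : ℕ => zr n / n) :=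
  ⟨0, by rintro x ⟨n, rfl⟩; exact div_nonneg (zr_nonneg n) (Nat.cast_nonneg n)⟩

theorem zr_lim_nonneg : 0 ≤ zr_subadditive.lim :=
  ge_of_tendsto' (zr_subadditive.tendsto_lim zr_bdd)
    fun n => div_nonneg (zr_nonneg n) (Nat.cast_nonneg n)

theorem rate_of_lt {a : ℝ} (ha : zr_subadditive.lim < a) : ∃ b : ℝ, 0 ≤ b ∧ Rate a b := by
  have h1 := (zr_subadditive.tendsto_lim zr_bdd).eventually_lt_const ha
  obtain ⟨N, hN⟩ := Filter.eventually_atTop.1 h1
  refine ⟨∑ n ∈ Finset.range (N + 1), zr n, Finset.sum_nonneg fun n _ => zr_nonneg n,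
    fun j => ⟨zc j, zc_spec j, ?_⟩⟩
  have h2 : (zc j : ℝ) = 2 ^ j * zr j := by
    unfold zr
    field_simp
  have ha0 : 0 ≤ a := zr_lim_nonneg.trans ha.le
  rw [h2]
  refine mul_le_mul_of_nonneg_left ?_ (by positivity)
  by_cases hj : j ∈ Finset.range (N + 1)
  · have := Finset.single_le_sum (f := zr) (fun n _ => zr_nonneg n) hj
    have h3 : 0 ≤ a * j := by positivity
    linarith
  · rw [Finset.mem_range, not_lt] at hj
    have h3 := hN j (by omega)
    have hj0 : (0 : ℝ) < j := by exact_mod_cast (by omega : 0 < j)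
    rw [div_lt_iff₀ hj0] at h3
    have h4 : 0 ≤ ∑ n ∈ Finset.range (N + 1), zr n := Finset.sum_nonneg fun n _ => zr_nonneg n
    linarith

/-- One short in-place program makes all powers cheap. -/
theorem rate_of_word {m r : ℕ} (hr : r < m * 2 ^ (m - 1)) (h : Word Slide r (tpow E m)) {ε : ℝ}
    (hε : 0 < ε) : ∃ b : ℝ, 0 ≤ b ∧ Rate ε b := by
  refine rate_of_lt ?_
  set ζ := zr_subadditive.lim with hζ
  have hζ0 : 0 ≤ ζ := zr_lim_nonneg
  have hm : 1 ≤ m := by
    rcases Nat.eq_zero_or_pos m with h0 | h0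
    · subst h0
      omega
    · exact h0
  have hcard : Fintype.card (Fin m → Bool) = 2 ^ m := by simp
  -- the main inequality
  have key : ∀ a : ℝ, ζ < a → ζ * m ≤ r * (a * (2 / 2 ^ m)) := by
    intro a ha
    have ha0 : 0 ≤ a := hζ0.trans ha.le
    obtain ⟨b, hb0, hb⟩ := rate_of_lt ha
    refine le_of_forall_pos_le_add fun δ hδ => ?_
    obtain ⟨K, hK⟩ := exists_nat_gt ((r * b + (r + 1)) / δ)
    have hK0 : (0 : ℝ) < K := lt_of_le_of_lt (by positivity) hK
    have hK1 : K ≠ 0 := by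
      rintro rfl
      simp at hK0
    obtain ⟨s, hs, hsb⟩ := h.cost_tpow (by rw [hcard]; positivity) ha0 hb K
    rw [hcard] at hsb
    have h1 : zr (m * K) ≤ r * (a * (K * (2 / 2 ^ m)) + b) + (r + 1) := by
      refine zr_le ((tpow_mul E m K).symm.cost hs) ?_
      rw [pow_mul]
      push_cast at hsb
      exact hsb
    have h2 : ζ ≤ zr (m * K) / (m * K : ℕ) :=
      zr_subadditive.lim_le_div zr_bdd (by positivity)
    rw [le_div_iff₀ (by positivity)] at h2
    push_cast at h2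
    rw [div_lt_iff₀ hδ] at hK
    have h3 : K * (ζ * m) ≤ K * (r * (a * (2 / 2 ^ m)) + δ) := by nlinarith
    exact le_of_mul_le_mul_left h3 hK0
  have h1 : ζ * m ≤ r * (ζ * (2 / 2 ^ m)) := by
    refine le_of_forall_pos_le_add fun δ hδ => ?_
    have h2 := key (ζ + δ / (r * (2 / 2 ^ m) + 1)) (by
      have : 0 < δ / (r * (2 / 2 ^ m) + 1) := by positivity
      linarith)
    have h3 : r * ((2 : ℝ) / 2 ^ m) * (δ / (r * (2 / 2 ^ m) + 1)) ≤ δ := by
      rw [mul_div_assoc', div_le_iff₀ (by positivity)]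
      nlinarith
    linarith
  have h2 : (r : ℝ) * (2 / 2 ^ m) < m := by
    have h3 : (r : ℝ) < m * 2 ^ (m - 1) := by exact_mod_cast hr
    have h4 : (2 : ℝ) ^ m = 2 ^ (m - 1) * 2 := by
      rw [← pow_succ]
      congr 1
      omega
    rw [h4]
    have h5 : (2 : ℝ) / (2 ^ (m - 1) * 2) = 1 / 2 ^ (m - 1) := by
      field_simp
    rw [h5, mul_one_div, div_lt_iff₀ (by positivity)]
    exact h3
  have h3 : ζ = 0 := by
    nlinarith
  linarith

end Vale.Agent.P344.R2.H715
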