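import Vale.Agent.P344.H952.Main
import Vale.Agent.P344.R2.H715.Base

/-!
# The number of gates for a matrix
-/

set_option linter.unusedSectionVars false

namespace Vale.Agent.P344.R2.H715

open Matrix

/-- `Cost A s`: some linear circuit with at most `s` gates computes `A`. -/
def Cost {κ ι : Type} [Fintype ι] (A : Matrix κ ι ℂ) (s : ℕ) : Prop :=
  ∃ d, Blk Set.univ (fun (k : κ) (x : ι → ℂ) => ∑ i, A k i * x i) s d

section cost

variable {ι κ μ ι' κ' : Type} [Fintype ι] [Fintype κ] [Fintype ι'] [Fintype κ']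

theorem Cost.mono {A : Matrix μ ι ℂ} {s t : ℕ} (h : Cost A s) (hst : s ≤ t) : Cost A t := by
  obtain ⟨d, h⟩ := h
  exact ⟨d, h.mono hst le_rfl⟩

theorem Cost.mul {A : Matrix μ κ ℂ} {B : Matrix κ ι ℂ} {s t : ℕ} (hA : Cost A s)
    (hB : Cost B t) : Cost (A * B) (s + t) := by
  obtain ⟨d1, hA⟩ := hA
  obtain ⟨d2, hB⟩ := hB
  refine ⟨d1 + d2, ?_⟩
  have h := hA.use (S := inputs ι ∪ tg d2 fun (k : κ) (x : ι → ℂ) => ∑ i, B k i * x i)
    (d₀ := d2) (fun k x => ∑ i, B k i * x i)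
    (by rintro p rfl; exact ⟨0, Nat.zero_le _, Or.inl (zero_mem_inputs _)⟩)
    (Avail.of_subset Set.subset_union_right)
  have h2 := (hB.trans' h).mono_gates (show t + s ≤ s + t by omega)
  refine h2.mono_right (Avail.of_subset ?_)
  rintro ⟨p1, p2⟩ ⟨hp1, j, hp2⟩
  simp only at hp1 hp2
  subst hp1 hp2
  refine ⟨rfl, j, ?_⟩
  funext x
  simp only [Matrix.mul_apply, Finset.mul_sum, Finset.sum_mul]
  rw [Finset.sum_comm]
  refine Finset.sum_congr rfl fun k _ => Finset.sum_congr rfl fun i _ => ?_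
  ring

theorem Cost.submatrix {A : Matrix κ ι ℂ} {s : ℕ} (h : Cost A s) (f : μ → κ) (e : ι' ≃ ι) :
    Cost (A.submatrix f e) s := by
  obtain ⟨d, h⟩ := h
  refine ⟨d, h.rename (fun i => some (e.symm i)) f ?_⟩
  intro j x
  rw [← e.sum_comp]
  simp

/-- Circuits on a part of the inputs. -/
theorem Cost.can {A : Matrix μ ι ℂ} {s : ℕ} (h : Cost A s) : ∃ d, ∀ (ν : Type) (f : ι → ν),
    Can Set.univ (inputs ν) s (tg d fun (k : μ) (x : ν → ℂ) => ∑ i, A k i * x (f i)) := by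
  obtain ⟨d, h⟩ := h
  refine ⟨d, fun ν f => ?_⟩
  have h1 := h.use (S := inputs ν) (d₀ := 0) (fun k x => x (f k))
    (by rintro p rfl; exact ⟨0, le_rfl, zero_mem_inputs _⟩)
    (by
      rintro ⟨p1, p2⟩ ⟨hp1, k, hp2⟩
      simp only at hp1 hp2
      subst hp1 hp2
      exact ⟨0, le_rfl, mem_inputs _⟩)
  exact h1

theorem Cost.wire {f : κ → Option ι} [DecidableEq ι] :
    Cost (Matrix.of fun k i => if f k = some i then (1 : ℂ) else 0) 0 := by
  refine ⟨0, Can.of_avail ?_ _⟩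
  rintro ⟨p1, p2⟩ ⟨hp1, j, hp2⟩
  simp only at hp1 hp2
  subst hp1 hp2
  refine ⟨0, le_rfl, ?_⟩
  cases hj : f j with
  | none =>
    convert zero_mem_inputs ι using 2
    funext x
    simp [hj]
  | some i =>
    convert mem_inputs i using 2
    funext x
    simp [hj]

theorem Cost.one [DecidableEq ι] : Cost (1 : Matrix ι ι ℂ) 0 := by
  convert Cost.wire (f := fun i : ι => some i)
  ext i j
  simp [Matrix.one_apply]

theorem Cost.diag [DecidableEq ι] (c : ι → ℂ) :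
    Cost (Matrix.diagonal c) (Fintype.card ι) := by
  refine ⟨0 + 1, ?_⟩
  have := scale_layer (Λ := Set.univ) (S := inputs ι) (d₀ := 0)
    (fun (k : ι) (x : ι → ℂ) => x k) c (fun _ => Set.mem_univ _)
    (by
      rintro ⟨p1, p2⟩ ⟨hp1, k, hp2⟩
      simp only at hp1 hp2
      subst hp1 hp2
      exact ⟨0, le_rfl, mem_inputs _⟩)
  refine this.mono_right (Avail.of_subset ?_)
  rintro ⟨p1, p2⟩ ⟨hp1, j, hp2⟩
  simp only at hp1 hp2
  subst hp1 hp2
  refine ⟨rfl, j, ?_⟩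
  funext x
  simp [Matrix.diagonal_apply]

theorem Cost.isMono [DecidableEq ι] {Q : Matrix ι ι ℂ} (hQ : IsMono Q) :
    Cost Q (Fintype.card ι) := by
  obtain ⟨σ, d, -, rfl⟩ := hQ
  have h1 : H715.mono σ d = Matrix.diagonal d * H715.mono σ fun _ => 1 := by
    ext i j
    rw [Matrix.diagonal_mul]
    simp
  rw [h1]
  have h2 : Cost (H715.mono σ fun _ => (1 : ℂ)) 0 := by
    convert Cost.wire (f := fun i : ι => some (σ i))
    ext i j
    simp
  exact (Cost.diag d).mul h2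

/-- Circuits side by side. -/
theorem Cost.tensor_one {J : Type} [Fintype J] [DecidableEq J] {A : Matrix ι ι ℂ} {s : ℕ}
    (h : Cost A s) : Cost (tensor (1 : Matrix J J ℂ) A) (Fintype.card J * s) := by
  obtain ⟨d, h⟩ := h.can
  refine ⟨d, ?_⟩
  have h1 := Can.family (Λ := Set.univ) (I := J) (S := inputs (J × ι)) s _
    fun j => h (J × ι) fun i => (j, i)
  refine h1.mono_right (Avail.of_subset ?_)
  rintro ⟨p1, p2⟩ ⟨hp1, ⟨j, k⟩, hp2⟩
  simp only at hp1 hp2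
  subst hp1 hp2
  refine Set.mem_iUnion.mpr ⟨j, rfl, k, ?_⟩
  funext x
  simp only [tensor_apply, Fintype.sum_prod_type, Matrix.one_apply, ite_mul, one_mul, zero_mul]
  rw [Finset.sum_eq_single j]
  · simp
  · intro j' _ hj'
    simp [Ne.symm hj']
  · intro hj
    exact absurd (Finset.mem_univ _) hj

theorem Cost.sum {A : Matrix κ ι ℂ} {B : Matrix κ' ι' ℂ} {s t : ℕ} (hA : Cost A s)
    (hB : Cost B t) : Cost (fromBlocks A 0 0 B) (s + t) := by
  obtain ⟨d1, hA⟩ := hA.can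
  obtain ⟨d2, hB⟩ := hB.can
  refine ⟨max d1 d2, ?_⟩
  have h1 := (hA (ι ⊕ ι') Sum.inl).union (hB (ι ⊕ ι') Sum.inr)
  refine h1.mono_right ?_
  rintro ⟨p1, p2⟩ ⟨hp1, k, hp2⟩
  simp only at hp1 hp2
  subst hp1 hp2
  rcases k with k | k
  · refine ⟨d1, le_max_left _ _, Or.inl ⟨rfl, k, ?_⟩⟩
    funext x
    simp [Fintype.sum_sum_type]
  · refine ⟨d2, le_max_right _ _, Or.inr ⟨rfl, k, ?_⟩⟩
    funext x
    simp [Fintype.sum_sum_type]

theorem Cost.E : Cost E 1 := by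
  refine ⟨1, 1, le_rfl, _, .add (u := fun x : Bool → ℂ => x false) (v := fun x => x true) .zero
    (mem_inputs _) (mem_inputs _), ?_⟩
  rintro ⟨p1, p2⟩ ⟨hp1, k, hp2⟩
  simp only at hp1 hp2
  subst hp1 hp2
  cases k
  · refine ⟨1, le_rfl, ?_⟩
    left
    refine Prod.ext rfl ?_
    funext x
    simp [add_comm]
  · refine ⟨0, Nat.zero_le _, ?_⟩
    right
    convert mem_inputs (ι := Bool) true using 2
    funext x
    simp [show ¬ ((true : Bool) ≤ false) by decide]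

end cost

/-! ### Renaming -/

/-- The matrices are equal up to renaming. -/
def Eqv {ι κ : Type} (A : Matrix ι ι ℂ) (B : Matrix κ κ ℂ) : Prop :=
  ∃ e : ι ≃ κ, A = B.submatrix e e

section eqv

variable {ι κ μ ν : Type}

theorem Eqv.refl (A : Matrix ι ι ℂ) : Eqv A A := ⟨Equiv.refl _, rfl⟩

theorem Eqv.symm {A : Matrix ι ι ℂ} {B : Matrix κ κ ℂ} (h : Eqv A B) : Eqv B A := by
  obtain ⟨e, rfl⟩ := h
  exact ⟨e.symm, by ext i j; simp⟩

theorem Eqv.trans {A : Matrix ι ι ℂ} {B : Matrix κ κ ℂ} {C : Matrix μ μ ℂ} (h : Eqv A B)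
    (h' : Eqv B C) : Eqv A C := by
  obtain ⟨e, rfl⟩ := h
  obtain ⟨f, rfl⟩ := h'
  exact ⟨e.trans f, rfl⟩

theorem Eqv.tensor {A : Matrix ι ι ℂ} {B : Matrix κ κ ℂ} {C : Matrix μ μ ℂ}
    {D : Matrix ν ν ℂ} (h : Eqv A B) (h' : Eqv C D) : Eqv (tensor A C) (tensor B D) := by
  obtain ⟨e, rfl⟩ := h
  obtain ⟨f, rfl⟩ := h'
  exact ⟨Equiv.prodCongr e f, rfl⟩

theorem Eqv.tensor_comm (A : Matrix ι ι ℂ) (B : Matrix κ κ ℂ) :
    Eqv (H715.tensor A B) (H715.tensor B A) :=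
  ⟨Equiv.prodComm _ _, by ext ⟨a, b⟩ ⟨c, d⟩; simp [mul_comm]⟩

theorem Eqv.tensor_assoc (A : Matrix ι ι ℂ) (B : Matrix κ κ ℂ) (C : Matrix μ μ ℂ) :
    Eqv (H715.tensor (H715.tensor A B) C) (H715.tensor A (H715.tensor B C)) :=
  ⟨Equiv.prodAssoc _ _ _, by ext ⟨⟨a, b⟩, c⟩ ⟨⟨a', b'⟩, c'⟩; simp [mul_assoc]⟩

theorem Eqv.tensor_unit (A : Matrix ι ι ℂ) (B : Matrix Unit Unit ℂ) (hB : B () () = 1) :
    Eqv (H715.tensor A B) A :=
  ⟨Equiv.prodPUnit _, by ext ⟨a, b⟩ ⟨a', b'⟩; simp [hB]⟩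

theorem Eqv.cost [Fintype ι] [Fintype κ] {A : Matrix ι ι ℂ} {B : Matrix κ κ ℂ} (h : Eqv A B)
    {s : ℕ} (hB : Cost B s) : Cost A s := by
  obtain ⟨e, rfl⟩ := h
  exact hB.submatrix e e

theorem Eqv.card [Fintype ι] [Fintype κ] {A : Matrix ι ι ℂ} {B : Matrix κ κ ℂ}
    (h : Eqv A B) : Fintype.card ι = Fintype.card κ := by
  obtain ⟨e, -⟩ := h
  exact Fintype.card_congr e

theorem Eqv.word [Fintype ι] [Fintype κ] [DecidableEq ι] [DecidableEq κ] {A : Matrix ι ι ℂ}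
    {B : Matrix κ κ ℂ} (h : Eqv A B) {r : ℕ} {G : Matrix κ κ ℂ → Prop}
    {G' : Matrix ι ι ℂ → Prop} (hB : Word G r B) (hG : ∀ S T, Eqv S T → G T → G' S) :
    Word G' r A := by
  obtain ⟨e, rfl⟩ := h
  exact hB.map (fun M => M.submatrix e e) (fun A B => (Matrix.submatrix_mul_equiv A B e e e).symm)
    (fun Q hQ => hQ.submatrix e) fun S hS => hG _ S ⟨e, rfl⟩ hS

theorem tpow_succ (A : Matrix ι ι ℂ) (K : ℕ) :
    Eqv (tpow A (K + 1)) (tensor A (tpow A K)) := by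
  refine ⟨(Fin.consEquiv fun _ => ι).symm, ?_⟩
  ext x y
  simp only [tpow_apply, Matrix.submatrix_apply, tensor_apply, Fin.prod_univ_succ]
  rfl

theorem tpow_zero (A : Matrix ι ι ℂ) : Eqv (tpow A 0) (1 : Matrix Unit Unit ℂ) := by
  refine ⟨Equiv.ofUnique _ _, ?_⟩
  ext x y
  simp

theorem tpow_add (A : Matrix ι ι ℂ) (K L : ℕ) :
    Eqv (tpow A (K + L)) (tensor (tpow A K) (tpow A L)) := by
  induction K with
  | zero =>
    rw [Nat.zero_add]
    have h1 := (tpow_zero A).tensor (Eqv.refl (tpow A L))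
    have h2 := h1.trans ((Eqv.tensor_comm _ _).trans
      (Eqv.tensor_unit (tpow A L) (1 : Matrix Unit Unit ℂ) (by simp)))
    exact h2.symm
  | succ K ih =>
    rw [show K + 1 + L = K + L + 1 by omega]
    have h1 := (tpow_succ A (K + L)).trans ((Eqv.refl A).tensor ih)
    have h2 := (tpow_succ A K).tensor (Eqv.refl (tpow A L))
    exact h1.trans ((Eqv.tensor_assoc _ _ _).symm.trans h2.symm)

theorem tpow_mul (A : Matrix ι ι ℂ) (m K : ℕ) :
    Eqv (tpow (tpow A m) K) (tpow A (m * K)) := by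
  induction K with
  | zero =>
    rw [Nat.mul_zero]
    exact (tpow_zero _).trans (tpow_zero A).symm
  | succ K ih =>
    rw [show m * (K + 1) = m + m * K by ring]
    exact (tpow_succ _ K).trans (((Eqv.refl _).tensor ih).trans (tpow_add A m (m * K)).symm)

end eqv

end Vale.Agent.P344.R2.H715
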