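import Vale.Agent.P344.R2.H715.Base

/-!
# Cost functions on invertible matrices

Definitions used by the statement of the hand-in `Duality`.
-/

namespace Vale.Agent.P344.R2.H715

open Matrix

/-- `IsCost κ`: the function `κ`, defined on the invertible complex matrices of all sizes (its
values at other matrices do not matter), is subadditive for products, vanishes at monomial
(generalized permutation) matrices, is additive for direct sums and a derivation for tensor
products, and has the value one at `[[1,1],[0,1]]`. -/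
structure IsCost (κ : (n : ℕ) → Matrix (Fin n) (Fin n) ℂ → ℝ) : Prop where
  mul : ∀ (n : ℕ) (A B : Matrix (Fin n) (Fin n) ℂ), IsUnit A → IsUnit B →
    κ n (A * B) ≤ κ n A + κ n B
  mono : ∀ (n : ℕ) (P : Matrix (Fin n) (Fin n) ℂ), IsMono P → κ n P = 0
  sum : ∀ (m n : ℕ) (A : Matrix (Fin m) (Fin m) ℂ) (B : Matrix (Fin n) (Fin n) ℂ),
    IsUnit A → IsUnit B →
      κ (m + n) (Matrix.reindex finSumFinEquiv finSumFinEquiv (fromBlocks A 0 0 B)) = κ m A + κ n B
  tensor : ∀ (m n : ℕ) (A : Matrix (Fin m) (Fin m) ℂ) (B : Matrix (Fin n) (Fin n) ℂ),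
    IsUnit A → IsUnit B →
      κ (m * n) (Matrix.reindex finProdFinEquiv finProdFinEquiv (kroneckerMap (· * ·) A B)) =
        n * κ m A + m * κ n B
  unit : κ 2 !![1, 1; 0, 1] = 1

end Vale.Agent.P344.R2.H715
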