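import Vale.Agent.P344.R2.H715.Blue

/-!
# The Walsh–Hadamard transform from the Fourier transform of order `2^a - 1`
-/

set_option linter.unusedSectionVars false

namespace Vale.Agent.P344.R2.H715

open Matrix

/-- The matrix `[[1,1],[1,-1]]`. -/
def H : Matrix Bool Bool ℂ := Matrix.of fun a b => if a && b then -1 else 1

@[simp] theorem H_apply (a b : Bool) : H a b = if a && b then -1 else 1 := rfl

/-- `E` as a product of three matrices `H` and diagonal matrices. -/
theorem E_eq : ∃ d₁ d₂ d₃ d₄ : Bool → ℂ, (∀ b, d₁ b ≠ 0) ∧ (∀ b, d₂ b ≠ 0) ∧ (∀ b, d₃ b ≠ 0) ∧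
    (∀ b, d₄ b ≠ 0) ∧ E = Matrix.diagonal d₁ * H * Matrix.diagonal d₂ * H * Matrix.diagonal d₃ *
      H * Matrix.diagonal d₄ := by
  refine ⟨fun b => if b then -5 / 8 else 3 / 8, fun b => if b then 2 else 1,
    fun b => if b then 1 / 3 else 1, fun b => if b then 4 / 5 else 1, ?_, ?_, ?_, ?_, ?_⟩
  · intro b; cases b <;> norm_num
  · intro b; cases b <;> norm_num
  · intro b; cases b <;> norm_num
  · intro b; cases b <;> norm_num
  · ext a b
    simp only [Matrix.mul_apply, Matrix.diagonal_apply, Fintype.sum_bool, E_apply, H_apply]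
    cases a <;> cases b <;> norm_num [show ¬ ((true : Bool) ≤ false) by decide]

theorem cost_zeta_of_hadamard {a h : ℕ} (hH : Cost (tpow H a) h) :
    Cost (tpow E a) (3 * h + 4 * 2 ^ a) := by
  obtain ⟨d₁, d₂, d₃, d₄, h₁, h₂, h₃, h₄, hE⟩ := E_eq
  have hd : ∀ d : Bool → ℂ, (∀ b, d b ≠ 0) → Cost (tpow (Matrix.diagonal d) a) (2 ^ a) := by
    intro d hd
    have h1 : IsMono (tpow (Matrix.diagonal d) a) := IsMono.tprod fun _ => IsMono.diag hd
    have h2 := Cost.isMono h1
    simpa using h2
  have hmul : ∀ A B : Matrix Bool Bool ℂ, tpow (A * B) a = tpow A a * tpow B a :=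
    fun A B => tprod_mul (fun _ => A) fun _ => B
  rw [hE, hmul, hmul, hmul, hmul, hmul, hmul]
  exact (((((((hd _ h₁).mul hH).mul (hd _ h₂)).mul hH).mul (hd _ h₃)).mul hH).mul
    (hd _ h₄)).mono (by omega)

/-! ### Adding rows -/

section rows

variable {ι κ : Type} [Fintype ι] [DecidableEq κ]

theorem Cost.addRow {A : Matrix κ ι ℂ} {s : ℕ} (h : Cost A s) (i j : κ) :
    Cost (Matrix.of fun k l => A k l + if k = i then A j l else 0) (s + 1) := by
  obtain ⟨d, h⟩ := h
  refine ⟨d + 1, ?_⟩
  have h1 : Can Set.univ (inputs ι ∪ tg d fun (k : κ) (x : ι → ℂ) => ∑ i, A k i * x i) 1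
      (tg (d + 1) fun (k : κ) (x : ι → ℂ) =>
        ∑ l, (Matrix.of fun k l => A k l + if k = i then A j l else 0) k l * x l) := by
    refine ⟨1, le_rfl, _, .add (d := d) (e := d) (u := fun x : ι → ℂ => ∑ l, A i l * x l)
      (v := fun x => ∑ l, A j l * x l) .zero (Or.inr (mem_tg i)) (Or.inr (mem_tg j)), ?_⟩
    rintro ⟨p1, p2⟩ ⟨hp1, k, hp2⟩
    simp only at hp1 hp2
    subst hp1 hp2
    by_cases hk : k = i
    · subst hk
      refine ⟨max d d + 1, by simp, ?_⟩
      left
      refine Prod.ext rfl ?_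
      funext x
      simp [add_mul, Finset.sum_add_distrib]
    · refine ⟨d, Nat.le_succ _, ?_⟩
      right
      right
      refine ⟨rfl, k, ?_⟩
      funext x
      simp [hk]
  exact h.trans' h1

/-- Adding one row to several others. -/
theorem Cost.addRows {A : Matrix κ ι ℂ} {s : ℕ} (h : Cost A s) (j : κ) (S : Finset κ)
    (hj : j ∉ S) :
    Cost (Matrix.of fun k l => A k l + if k ∈ S then A j l else 0) (s + S.card) := by
  induction S using Finset.induction_on with
  | empty =>
    rw [Finset.card_empty, Nat.add_zero]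
    convert h using 1
    ext k l
    simp
  | insert i S hi ih =>
    rw [Finset.mem_insert, not_or] at hj
    have h1 := (ih hj.2).addRow i j
    rw [Finset.card_insert_of_notMem hi, ← Nat.add_assoc]
    convert h1 using 1
    ext k l
    simp only [Matrix.of_apply, Finset.mem_insert, hj.2, if_false, add_zero]
    by_cases hk : k = i
    · subst hk
      simp [hi]
    · simp [hk]

/-- Adding several rows to another one. -/
theorem Cost.sumRows {A : Matrix κ ι ℂ} {s : ℕ} (h : Cost A s) (i : κ) (S : Finset κ)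
    (hi : i ∉ S) :
    Cost (Matrix.of fun k l => A k l + if k = i then ∑ j ∈ S, A j l else 0) (s + S.card) := by
  induction S using Finset.induction_on with
  | empty =>
    rw [Finset.card_empty, Nat.add_zero]
    convert h using 1
    ext k l
    simp
  | insert j S hj ih =>
    rw [Finset.mem_insert, not_or] at hi
    have h1 := (ih hi.2).addRow i j
    rw [Finset.card_insert_of_notMem hj, ← Nat.add_assoc]
    convert h1 using 1
    ext k l
    simp only [Matrix.of_apply, Finset.sum_insert hj, if_neg (Ne.symm hi.1), add_zero]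
    by_cases hk : k = i
    · simp [hk]
      ring
    · simp [hk]

end rows

/-! ### Cyclic convolution -/

theorem cost_F (n : ℕ) : Cost (F n) (L n) := ⟨_, (L_spec n).blk⟩

/-- A Hankel circulant matrix. -/
theorem cost_hankel {n : ℕ} (hn : n ≠ 0) (h : ℕ → ℂ) (hper : ∀ k, h (k + n) = h k) :
    Cost (Matrix.of fun i j : Fin n => h (i + j)) (2 * L n + n) := by
  set D : ℕ → ℂ := fun l => (n : ℂ)⁻¹ * ∑ k ∈ Finset.range n, h k * zeta n ^ (l * (n - k)) with hD
  have hnc : (n : ℂ) ≠ 0 := Nat.cast_ne_zero.2 hn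
  have key : (Matrix.of fun i j : Fin n => h (i + j)) =
      F n * Matrix.diagonal (fun l : Fin n => D l) * F n := by
    ext i j
    rw [Matrix.mul_apply]
    simp only [Matrix.mul_diagonal, F_apply, Matrix.of_apply, hD]
    rw [Fin.sum_univ_eq_sum_range (fun l => zeta n ^ ((i : ℕ) * l) * ((n : ℂ)⁻¹ *
      ∑ k ∈ Finset.range n, h k * zeta n ^ (l * (n - k))) * zeta n ^ (l * (j : ℕ))) n]
    have step : ∑ l ∈ Finset.range n, zeta n ^ ((i : ℕ) * l) * ((n : ℂ)⁻¹ *
        ∑ k ∈ Finset.range n, h k * zeta n ^ (l * (n - k))) * zeta n ^ (l * (j : ℕ)) =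
        (n : ℂ)⁻¹ * ∑ k ∈ Finset.range n, h k *
          ∑ l ∈ Finset.range n, zeta n ^ (l * ((n - k) + i + j)) := by
      simp only [Finset.mul_sum, Finset.sum_mul]
      rw [Finset.sum_comm]
      refine Finset.sum_congr rfl fun k _ => Finset.sum_congr rfl fun l _ => ?_
      rw [show l * (n - k + i + j) = i * l + l * (n - k) + l * j by ring, pow_add, pow_add]
      ring
    rw [step]
    simp only [char_sum hn]
    have hi := i.2
    have hj := j.2
    have hmem : ((i : ℕ) + j) % n ∈ Finset.range n := by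
      rw [Finset.mem_range]
      exact Nat.mod_lt _ (Nat.pos_of_ne_zero hn)
    rw [Finset.sum_eq_single_of_mem _ hmem]
    · by_cases hij : (i : ℕ) + j < n
      · rw [Nat.mod_eq_of_lt hij, if_pos ⟨1, by omega⟩]
        field_simp
      · have h1 : ((i : ℕ) + j) % n = i + j - n := by
          rw [Nat.mod_eq_sub_mod (by omega), Nat.mod_eq_of_lt (by omega)]
        rw [h1, if_pos ⟨2, by omega⟩]
        have h2 := hper (i + j - n)
        rw [show (i : ℕ) + j - n + n = i + j by omega] at h2
        rw [h2]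
        field_simp
    · intro k hk hne
      rw [Finset.mem_range] at hk
      rw [if_neg, mul_zero]
      rintro ⟨r, hr⟩
      have hr2 : r < 3 := by
        by_contra hcon
        have : n * 3 ≤ n * r := Nat.mul_le_mul_left _ (by omega)
        omega
      apply hne
      interval_cases r
      · omega
      · rw [Nat.mod_eq_of_lt (by omega)]
        omega
      · rw [Nat.mod_eq_sub_mod (by omega), Nat.mod_eq_of_lt (by omega)]
        omega
  rw [key]
  have h1 := ((cost_F n).mul (Cost.diag fun l : Fin n => D l)).mul (cost_F n)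
  rw [Fintype.card_fin] at h1
  exact h1.mono (by omega)

/-! ### The Walsh–Hadamard matrix over a finite field -/

/-- The nontrivial character of `ZMod 2`. -/
def chi (x : ZMod 2) : ℂ := if x = 0 then 1 else -1

theorem chi_zero : chi 0 = 1 := if_pos rfl

theorem chi_add (x y : ZMod 2) : chi (x + y) = chi x * chi y := by
  have h : ∀ x y : ZMod 2, (x + y = 0) ↔ ((x = 0 ∧ y = 0) ∨ (x ≠ 0 ∧ y ≠ 0)) := by decide
  unfold chi
  by_cases hx : x = 0 <;> by_cases hy : y = 0 <;> simp [h, hx, hy]

theorem chi_sum {ι : Type} (s : Finset ι) (f : ι → ZMod 2) :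
    chi (∑ i ∈ s, f i) = ∏ i ∈ s, chi (f i) := by
  classical
  induction s using Finset.induction_on with
  | empty => simp [chi_zero]
  | insert i s hi ih => rw [Finset.sum_insert hi, Finset.prod_insert hi, chi_add, ih]

/-- The elements of `Bool` as elements of `ZMod 2`. -/
def b2 : Bool ≃ ZMod 2 where
  toFun b := if b then 1 else 0
  invFun x := decide (x = 1)
  left_inv b := by cases b <;> decide
  right_inv x := by revert x; decide

theorem H_eq_chi (u v : Bool) : H u v = chi (b2 u * b2 v) := by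
  cases u <;> cases v <;> simp [b2, chi]

/-- The Walsh–Hadamard matrix, indexed by a finite field. -/
theorem hadamard_field {K : Type} [Field K] [Algebra (ZMod 2) K] [FiniteDimensional (ZMod 2) K]
    {a : ℕ} (ha : Module.finrank (ZMod 2) K = a) :
    ∃ e f : (Fin a → Bool) ≃ K, tpow H a =
      (Matrix.of fun x y : K => chi (Algebra.trace (ZMod 2) K (x * y))).submatrix e f := by
  let b : Module.Basis (Fin a) (ZMod 2) K := Module.finBasisOfFinrankEq _ _ ha
  let b' := b.traceDual
  let e : (Fin a → Bool) ≃ K := (Equiv.piCongrRight fun _ => b2).trans b.equivFun.symm.toEquiv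
  let f : (Fin a → Bool) ≃ K := (Equiv.piCongrRight fun _ => b2).trans b'.equivFun.symm.toEquiv
  refine ⟨e, f, ?_⟩
  ext u v
  have he : e u = ∑ i, b2 (u i) • b i := by
    simp [e, Module.Basis.equivFun_symm_apply]
  have hf : f v = ∑ j, b2 (v j) • b' j := by
    simp [f, Module.Basis.equivFun_symm_apply]
  rw [Matrix.submatrix_apply, Matrix.of_apply, he, hf, tpow_apply, Finset.sum_mul_sum]
  have h1 : Algebra.trace (ZMod 2) K (∑ i, ∑ j, b2 (u i) • b i * b2 (v j) • b' j) =
      ∑ i, b2 (u i) * b2 (v i) := by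
    rw [map_sum]
    refine Finset.sum_congr rfl fun i _ => ?_
    rw [map_sum, Finset.sum_eq_single i]
    · rw [smul_mul_smul_comm, map_smul, b.trace_mul_traceDual, if_pos rfl, smul_eq_mul, mul_one]
    · intro j _ hj
      rw [smul_mul_smul_comm, map_smul, b.trace_mul_traceDual, if_neg (Ne.symm hj), smul_zero]
    · intro hi
      exact absurd (Finset.mem_univ _) hi
  rw [h1, chi_sum]
  exact Finset.prod_congr rfl fun i _ => H_eq_chi _ _

/-- The Walsh–Hadamard transform from two Fourier transforms of order `2^a - 1`. -/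
theorem cost_hadamard (a : ℕ) : Cost (tpow H a) (2 * L (2 ^ a - 1) + 3 * (2 ^ a - 1)) := by
  rcases Nat.eq_zero_or_pos a with ha | ha
  · subst ha
    exact ((tpow_zero H).cost Cost.one).mono (Nat.zero_le _)
  have ha0 : a ≠ 0 := by omega
  classical
  set K := GaloisField 2 a with hK
  have : Fintype K := Fintype.ofFinite K
  obtain ⟨e, f, hef⟩ := hadamard_field (K := K) (GaloisField.finrank 2 ha0)
  rw [hef]
  set n := 2 ^ a - 1 with hn
  have h2a : 2 ≤ 2 ^ a := by
    calc 2 = 2 ^ 1 := rfl
      _ ≤ 2 ^ a := Nat.pow_le_pow_right (by norm_num) ha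
  have hn0 : n ≠ 0 := by omega
  have hcardK : Fintype.card K = 2 ^ a := by
    rw [← Nat.card_eq_fintype_card]
    exact GaloisField.card 2 a ha0
  obtain ⟨g, hg⟩ := IsCyclic.exists_generator (α := Kˣ)
  have hord : orderOf g = n := by
    rw [orderOf_eq_card_of_forall_mem_zpowers hg, Nat.card_units, Nat.card_eq_fintype_card, hcardK]
  -- the names of the elements
  let φ : Unit ⊕ Fin n → K := Sum.elim (fun _ => 0) fun i => ((g ^ (i : ℕ) : Kˣ) : K)
  have hφ : Function.Injective φ := by
    rintro (⟨⟩ | i) (⟨⟩ | j) h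
    · rfl
    · exact absurd h.symm (Units.ne_zero _)
    · exact absurd h (Units.ne_zero _)
    · have h1 : g ^ (i : ℕ) = g ^ (j : ℕ) := Units.ext h
      have h2 := pow_injOn_Iio_orderOf (x := g) (by rw [hord]; exact i.2)
        (by rw [hord]; exact j.2) h1
      rw [Fin.ext h2]
  let c : Unit ⊕ Fin n ≃ K := Equiv.ofBijective φ
    ((Fintype.bijective_iff_injective_and_card φ).2 ⟨hφ, by
      rw [hcardK, Fintype.card_sum, Fintype.card_unit, Fintype.card_fin]
      omega⟩)
  have hc1 : c (Sum.inl ()) = 0 := rfl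
  have hc2 : ∀ i, c (Sum.inr i) = ((g ^ (i : ℕ) : Kˣ) : K) := fun i => rfl
  -- the circulant part
  let h : ℕ → ℂ := fun k => chi (Algebra.trace (ZMod 2) K ((g ^ k : Kˣ) : K)) - 1
  have hper : ∀ k, h (k + n) = h k := by
    intro k
    simp only [h]
    rw [pow_add, ← hord, pow_orderOf_eq_one, mul_one]
  have h1 := cost_hankel hn0 h hper
  have h2 : Cost (fromBlocks (1 : Matrix Unit Unit ℂ) 0 0
      (Matrix.of fun i j : Fin n => h (i + j))) (0 + (2 * L n + n)) := Cost.one.sum h1
  let emb : Fin n ↪ Unit ⊕ Fin n := ⟨Sum.inr, Sum.inr_injective⟩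
  have hemb : ∀ i, emb i = Sum.inr i := fun i => rfl
  have hnot : (Sum.inl () : Unit ⊕ Fin n) ∉ Finset.univ.map emb := by simp [hemb]
  have h3 := h2.addRows (Sum.inl ()) (Finset.univ.map emb) hnot
  have h4 := (Cost.one (ι := Unit ⊕ Fin n)).sumRows (Sum.inl ()) (Finset.univ.map emb) hnot
  have h5 := h3.mul h4
  rw [Finset.card_map, Finset.card_univ, Fintype.card_fin] at h5
  have h6 := (h5.mono (show 0 + (2 * L n + n) + n + (0 + n) ≤ 2 * L n + 3 * n by omega)).submatrix
    (fun u => c.symm (e u)) (f.trans c.symm)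
  convert h6 using 1
  ext u v
  rw [Matrix.submatrix_apply, Matrix.submatrix_apply, Matrix.of_apply]
  obtain ⟨x, hx⟩ := c.surjective (e u)
  obtain ⟨y, hy⟩ := c.surjective (f v)
  rw [Equiv.trans_apply, ← hx, ← hy, Equiv.symm_apply_apply, Equiv.symm_apply_apply,
    Matrix.mul_apply, Fintype.sum_sum_type]
  rcases x with ⟨⟩ | x <;> rcases y with ⟨⟩ | y
  · simp [hc1, hemb, chi_zero]
  · simp [hc1, hemb, chi_zero, Matrix.one_apply]
  · simp [hc1, hemb, chi_zero, Matrix.one_apply]
  · simp [hc2, hemb, h, Matrix.one_apply, pow_add]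

end Vale.Agent.P344.R2.H715
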