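import Vale.Agent.P344.R2.H715.Sync

/-!
# Cheap powers of `E` make the Fourier transform cheap
-/

set_option linter.unusedSectionVars false

namespace Vale.Agent.P344.R2.H715

open Matrix

/-- Bound for the constant, from cheap powers of `E`. -/
theorem gam_le_of_rate {ε b : ℝ} (hε : 0 < ε) (hb : 0 ≤ b) (h : Rate ε b) : gam ≤ 291 * ε := by
  -- the number of factors
  obtain ⟨q, hq⟩ := exists_nat_gt ((b + 1) / ε)
  have hqpos : (0 : ℝ) < q := lt_of_le_of_lt (by positivity) hq
  have hq0 : 0 < q := by exact_mod_cast hqpos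
  have hq1 : (1 : ℝ) ≤ q := by exact_mod_cast hq0
  rw [div_lt_iff₀ hε] at hq
  -- the size of the factors
  obtain ⟨K, hK⟩ := exists_nat_gt (144 * Real.logb 2 (q + 1) + 334 + 1 / ε)
  have hlq : 0 ≤ Real.logb 2 ((q : ℝ) + 1) := Real.logb_nonneg (by norm_num) (by linarith)
  set c : ℕ := q.factorial * 2 ^ K with hc
  have hc1 : 1 ≤ c := Nat.mul_pos (Nat.factorial_pos _) (by positivity)
  have hcr : (0 : ℝ) < c := by exact_mod_cast hc1
  have hcK : (K : ℝ) ≤ Real.logb 2 c := by
    rw [Real.le_logb_iff_rpow_le (by norm_num) hcr, Real.rpow_natCast]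
    have h1 : 2 ^ K ≤ c := Nat.le_mul_of_pos_left _ (Nat.factorial_pos _)
    exact_mod_cast h1
  set l : ℝ := Real.logb 2 c with hl
  have hl1 : 1 / ε ≤ l := by linarith
  have hl2 : 144 * Real.logb 2 ((q : ℝ) + 1) + 334 ≤ l := by
    have : 0 < 1 / ε := by positivity
    linarith
  have hl0 : 0 < l := by linarith
  let f : ℕ → ℕ := fun i => (i + 1) * c + 1
  have hf : ∀ i, f i ≠ 0 := fun i => Nat.succ_ne_zero _
  have hcop : ∀ i j, i < j → j < q → Nat.Coprime (f i) (f j) := by
    intro i j hij hj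
    refine Nat.coprime_mul_succ ?_
    rw [show j + 1 - (i + 1) = j - i by omega]
    exact (Nat.dvd_factorial (by omega) (by omega)).trans (Dvd.intro _ rfl)
  -- the number of layers
  set t : ℕ := ⌊144 * (Real.logb 2 (q + 1) + l) + 333⌋₊ with ht
  have htb : (t : ℝ) + 1 ≤ 145 * l := by
    have h1 : (t : ℝ) ≤ 144 * (Real.logb 2 (q + 1) + l) + 333 := Nat.floor_le (by positivity)
    linarith
  have hw : ∀ i < q, Word Layer t
      (tensor (1 : Matrix (Fin 3 × Bool) (Fin 3 × Bool) ℂ) (F (f i))) := by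
    intro i hi
    obtain ⟨s, hs, hsw⟩ := exists_word_six_F (hf i)
    refine hsw.pad trivial (Nat.le_floor (hs.trans ?_))
    have h1 : Real.logb 2 (f i) ≤ Real.logb 2 (((q : ℝ) + 1) * c) := by
      refine Real.logb_le_logb_of_le (by norm_num) (by exact_mod_cast Nat.pos_of_ne_zero (hf i)) ?_
      have h2 : f i ≤ (q + 1) * c := by
        have h3 : (i + 1) * c ≤ q * c := Nat.mul_le_mul_right _ hi
        calc f i = (i + 1) * c + 1 := rfl
          _ ≤ q * c + c := by omega
          _ = (q + 1) * c := by ring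
      exact_mod_cast h2
    rw [Real.logb_mul (by positivity) hcr.ne'] at h1
    linarith
  have hmain := LMany_prod hε.le h f hf q hcop hw
  set P : ℕ := ∏ i ∈ Finset.range q, f i with hP
  -- the size of the product
  have hPc : c ^ q ≤ P := by
    rw [hP]
    calc c ^ q = ∏ i ∈ Finset.range q, c := by simp
      _ ≤ ∏ i ∈ Finset.range q, f i := by
        refine Finset.prod_le_prod' fun i _ => ?_
        calc c = 1 * c := (one_mul c).symm
          _ ≤ (i + 1) * c := Nat.mul_le_mul_right _ (by omega)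
          _ ≤ f i := Nat.le_succ _
  have hc2 : 2 ≤ c := by
    by_contra hcon
    have h1 : c = 1 := by omega
    rw [hl, h1, Nat.cast_one, Real.logb_one] at hl0
    exact lt_irrefl _ hl0
  have hP2 : 2 ≤ P := by
    calc 2 ≤ c := hc2
      _ = c ^ 1 := (pow_one c).symm
      _ ≤ c ^ q := Nat.pow_le_pow_right hc1 hq0
      _ ≤ P := hPc
  have hPr : (0 : ℝ) < P := by exact_mod_cast (by omega : 0 < P)
  have hlP : q * l ≤ Real.logb 2 P := by
    have h1 : Real.logb 2 ((c : ℝ) ^ q) ≤ Real.logb 2 P :=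
      Real.logb_le_logb_of_le (by norm_num) (by positivity) (by exact_mod_cast hPc)
    rwa [Real.logb_pow] at h1
  have hgl := gam_le (N := 6 ^ q) (m := P) (Nat.one_le_pow _ _ (by norm_num)) hP2
  refine hgl.trans ?_
  unfold rate
  have h6 : (0 : ℝ) < 6 ^ q := by positivity
  have hdiv : (LMany (6 ^ q) P : ℝ) / ((6 ^ q : ℕ) : ℝ) ≤
      P * (t * (ε * q + b) + (t + 1)) := by
    rw [div_le_iff₀ (by positivity)]
    push_cast
    linarith
  have hlP0 : 0 < Real.logb 2 (P : ℝ) := lt_of_lt_of_le (by positivity) hlP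
  rw [div_le_iff₀ (by positivity)]
  have e1 : (t : ℝ) * (ε * q + b) + (t + 1) ≤ (t + 1) * (2 * (ε * q)) := by
    have ht0 : (0 : ℝ) ≤ t := Nat.cast_nonneg t
    nlinarith
  have e2 : ((t : ℝ) + 1) * (2 * (ε * q)) ≤ 145 * l * (2 * (ε * q)) :=
    mul_le_mul_of_nonneg_right htb (by positivity)
  have e3 : 1 ≤ ε * l := by
    rw [div_le_iff₀ hε] at hl1
    linarith
  have e4 : 1 ≤ ε * (q * l) := by nlinarith
  have e5 : (LMany (6 ^ q) P : ℝ) / ((6 ^ q : ℕ) : ℝ) + P ≤ P * (291 * ε * (q * l)) := by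
    have h1 : P * ((t : ℝ) * (ε * q + b) + (t + 1)) ≤ P * (145 * l * (2 * (ε * q))) :=
      mul_le_mul_of_nonneg_left (e1.trans e2) hPr.le
    have h2 : (P : ℝ) * 1 ≤ P * (ε * (q * l)) := mul_le_mul_of_nonneg_left e4 hPr.le
    calc (LMany (6 ^ q) P : ℝ) / ((6 ^ q : ℕ) : ℝ) + P
        ≤ P * (145 * l * (2 * (ε * q))) + P * (ε * (q * l)) := by linarith
      _ = P * (291 * ε * (q * l)) := by ring
  refine e5.trans ?_
  have h1 : P * (291 * ε * (q * l)) ≤ P * (291 * ε * Real.logb 2 P) := by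
    refine mul_le_mul_of_nonneg_left ?_ hPr.le
    exact mul_le_mul_of_nonneg_left hlP (by positivity)
  refine h1.trans (le_of_eq ?_)
  ring

/-- Cheap powers of `E` make the Fourier transform cheap. -/
theorem gam_eq_zero (H : ∀ ε : ℝ, 0 < ε → ∃ b : ℝ, 0 ≤ b ∧ Rate ε b) : gam = 0 := by
  refine le_antisymm ?_ gam_nonneg
  refine le_of_forall_pos_le_add fun δ hδ => ?_
  obtain ⟨b, hb, hr⟩ := H (δ / 291) (by positivity)
  have := gam_le_of_rate (by positivity) hb hr
  linarith

/-- One in-place program for `E^{⊗ m}` with fewer than `m 2^{m-1}` steps makes the Fourier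
transform cheap. -/
theorem gam_eq_zero_of_word {m r : ℕ} (hr : r < m * 2 ^ (m - 1))
    (h : Word Slide r (tpow E m)) : gam = 0 :=
  gam_eq_zero fun _ hε => rate_of_word hr h hε

end Vale.Agent.P344.R2.H715
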