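import Vale.Agent.P344.R2.H715.Prog
import Vale.Agent.P344.R2.H715.Zero
import Vale.Agent.P344.R2.H715.Wht

/-!
# The gap law
-/

set_option linter.unusedSectionVars false

namespace Vale.Agent.P344.R2.H715

open Matrix Filter

section conv

variable {ι κ : Type} [Fintype ι] [DecidableEq ι] [Fintype κ] [DecidableEq κ]

/-- In-place programs are words in transvections. -/
theorem InPlace.word {r : ℕ} {M : Matrix ι ι ℂ} (h : InPlace r M) : Word Slide r M := by
  induction h with
  | start => exact Word.one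
  | @perm r M σ _ ih =>
    have h1 := ih.left (IsMono.perm σ)
    convert h1 using 1
    ext i k
    rw [mono_mul]
    simp
  | @scale r M d hd _ ih =>
    have h1 := ih.left (IsMono.diag hd)
    convert h1 using 1
    ext i k
    rw [Matrix.diagonal_mul]
    simp
  | @add r M i j hij c _ ih =>
    have h1 := ih.addRow hij c
    convert h1 using 1
    ext k l
    simp only [Matrix.of_apply]
    split_ifs with h2
    · rw [h2]
    · rw [add_zero]

theorem InPlace.monoMul {r : ℕ} {Q M : Matrix ι ι ℂ} (hQ : IsMono Q) (h : InPlace r M) :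
    InPlace r (Q * M) := by
  obtain ⟨σ, d, hd, rfl⟩ := hQ
  have h1 := (h.perm σ).scale d hd
  convert h1 using 1
  ext i k
  rw [mono_mul]
  simp

theorem InPlace.slideMul {r : ℕ} {S M : Matrix ι ι ℂ} (hS : Slide S) (h : InPlace r M) :
    ∃ r' ≤ r + 1, InPlace r' (S * M) := by
  obtain ⟨k, hk, α, β, i1, i2, i3, i4, e, hα, rfl⟩ := hS
  rcases Nat.le_one_iff_eq_zero_or_eq_one.1 hk with h0 | h0
  · refine ⟨r, Nat.le_succ _, ?_⟩
    rw [h0, Fintype.card_eq_zero_iff] at hα
    have h1 : (core α β).submatrix e e = 1 := by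
      have h2 : core α β = 1 := by
        ext (⟨a, b⟩ | i) (⟨a', b'⟩ | j)
        · exact (hα.false a).elim
        · exact (hα.false a).elim
        · simp [core]
        · simp [core, Matrix.one_apply]
      rw [h2, Matrix.submatrix_one_equiv]
    rwa [h1, Matrix.one_mul]
  · rw [h0, Fintype.card_eq_one_iff] at hα
    obtain ⟨a, ha⟩ := hα
    set i := e.symm (Sum.inl (a, false)) with hi
    set j := e.symm (Sum.inl (a, true)) with hj
    have hij : i ≠ j := by
      intro h2
      have := e.symm.injective h2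
      simp at this
    refine ⟨r + 1, le_rfl, ?_⟩
    have h1 : (core α β).submatrix e e = transvection i j (1 : ℂ) := by
      ext k l
      obtain ⟨k, rfl⟩ := e.symm.surjective k
      obtain ⟨l, rfl⟩ := e.symm.surjective l
      rw [Matrix.submatrix_apply, Equiv.apply_symm_apply, Equiv.apply_symm_apply,
        transvection_apply, hi, hj]
      simp only [e.symm.injective.eq_iff]
      rcases k with ⟨a', b⟩ | k <;> rcases l with ⟨a'', b'⟩ | l
      · rw [ha a', ha a'']
        cases b <;> cases b' <;> simp [core, show ¬ ((true : Bool) ≤ false) by decide]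
      · simp [core]
      · simp [core]
      · simp [core, Matrix.one_apply]
    have h2 := h.add i j hij 1
    convert h2 using 1
    rw [h1]
    ext k l
    rw [Matrix.mul_apply]
    simp only [transvection_apply, add_mul, Finset.sum_add_distrib, Matrix.of_apply]
    by_cases hk : k = i
    · simp [hk]
    · simp [hk]

/-- Words in transvections are in-place programs. -/
theorem Word.inPlace {r : ℕ} {M : Matrix ι ι ℂ} (h : Word Slide r M) :
    ∃ r' ≤ r, InPlace r' M := by
  induction h with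
  | @mono Q hQ =>
    refine ⟨0, le_rfl, ?_⟩
    have h1 := InPlace.monoMul hQ InPlace.start
    rwa [Matrix.mul_one] at h1
  | @step r Q S M hQ hS _ ih =>
    obtain ⟨r', hr', h1⟩ := ih
    obtain ⟨r'', hr'', h2⟩ := h1.slideMul hS
    refine ⟨r'', by omega, ?_⟩
    rw [Matrix.mul_assoc]
    exact h2.monoMul hQ

theorem Cost.addRowMul {A : Matrix κ ι ℂ} {s : ℕ} (h : Cost A s) (i j : κ) (c : ℂ) :
    Cost (Matrix.of fun k l => A k l + if k = i then c * A j l else 0) (s + 2) := by
  obtain ⟨d, h⟩ := h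
  refine ⟨d + 2, ?_⟩
  have h1 : Can Set.univ (inputs ι ∪ tg d fun (k : κ) (x : ι → ℂ) => ∑ i, A k i * x i) 2
      (tg (d + 2) fun (k : κ) (x : ι → ℂ) =>
        ∑ l, (Matrix.of fun k l => A k l + if k = i then c * A j l else 0) k l * x l) := by
    refine ⟨2, le_rfl, _, .add (d := d) (e := d + 1) (u := fun x : ι → ℂ => ∑ l, A i l * x l)
      (v := c • fun x => ∑ l, A j l * x l)
      (.smul c .zero (Or.inr (mem_tg j)) (Set.mem_univ _))
      (Or.inr (Or.inr (mem_tg i))) (Or.inl rfl), ?_⟩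
    rintro ⟨p1, p2⟩ ⟨hp1, k, hp2⟩
    simp only at hp1 hp2
    subst hp1 hp2
    by_cases hk : k = i
    · subst hk
      refine ⟨max d (d + 1) + 1, by simp, ?_⟩
      left
      refine Prod.ext rfl ?_
      funext x
      simp [add_mul, Finset.sum_add_distrib, Finset.mul_sum, mul_assoc]
    · refine ⟨d, by omega, ?_⟩
      right
      right
      right
      refine ⟨rfl, k, ?_⟩
      funext x
      simp [hk]
  exact h.trans' h1

/-- An in-place program as a circuit, up to multiples of the outputs. -/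
theorem InPlace.cost {r : ℕ} {M : Matrix ι ι ℂ} (h : InPlace r M) :
    ∃ d : ι → ℂ, (∀ i, d i ≠ 0) ∧ Cost (Matrix.of fun i k => d i * M i k) (2 * r) := by
  induction h with
  | start =>
    refine ⟨fun _ => 1, fun _ => one_ne_zero, ?_⟩
    convert Cost.one (ι := ι)
    ext i k
    simp
  | @perm r M σ _ ih =>
    obtain ⟨d, hd, h1⟩ := ih
    exact ⟨fun i => d (σ i), fun i => hd _, h1.submatrix σ (Equiv.refl ι)⟩
  | @scale r M e he _ ih =>
    obtain ⟨d, hd, h1⟩ := ih
    refine ⟨fun i => d i / e i, fun i => div_ne_zero (hd i) (he i), ?_⟩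
    convert h1 using 1
    ext i k
    simp only [Matrix.of_apply]
    rw [← mul_assoc, div_mul_cancel₀ _ (he i)]
  | @add r M i j hij c _ ih =>
    obtain ⟨d, hd, h1⟩ := ih
    refine ⟨d, hd, ?_⟩
    have h2 := h1.addRowMul i j (d i * c / d j)
    rw [show 2 * (r + 1) = 2 * r + 2 by ring]
    convert h2 using 1
    ext k l
    simp only [Matrix.of_apply]
    by_cases hk : k = i
    · subst hk
      rw [if_pos rfl, if_pos rfl, mul_add, ← mul_assoc (d k * c / d j), div_mul_cancel₀ _ (hd j),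
        mul_assoc]
    · rw [if_neg hk, if_neg hk, add_zero]

/-- Setting inputs to zero. -/
theorem Cost.restrict {μ : Type} {A : Matrix μ (ι ⊕ κ) ℂ} {s : ℕ} (h : Cost A s) :
    Cost (Matrix.of fun (k : μ) (i : ι) => A k (Sum.inl i)) s := by
  obtain ⟨d, h⟩ := h
  refine ⟨d, h.rename (Sum.elim (fun i => some i) fun _ => none) id ?_⟩
  intro j x
  simp [Fintype.sum_sum_type]

theorem InPlace.pad {r : ℕ} {M : Matrix ι ι ℂ} (h : InPlace r M) {i j : ι} (hij : i ≠ j) {t : ℕ}
    (ht : r ≤ t) : InPlace t M := by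
  obtain ⟨s, rfl⟩ := Nat.exists_eq_add_of_le ht
  induction s with
  | zero => exact h
  | succ s ih =>
    have h1 := (ih (by omega)).add i j hij 0
    change InPlace (r + s + 1) M
    convert h1 using 1
    ext k l
    simp only [Matrix.of_apply, zero_mul, add_zero]
    split_ifs with hk
    · rw [hk]
    · rfl

end conv

/-- The zeta matrix is a power of `E`. -/
theorem eqv_zetaMat (m : ℕ) : Eqv (zetaMat m) (tpow E m) := by
  let e : Finset (Fin m) ≃ (Fin m → Bool) :=
    { toFun := fun S i => decide (i ∈ S)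
      invFun := fun u => Finset.univ.filter fun i => u i = true
      left_inv := by
        intro S
        ext i
        simp
      right_inv := by
        intro u
        funext i
        simp }
  refine ⟨e, ?_⟩
  ext S T
  have he : ∀ S i, e S i = decide (i ∈ S) := fun S i => rfl
  rw [Matrix.submatrix_apply, tpow_apply]
  simp only [zetaMat, Matrix.of_apply, E_apply, he]
  split_ifs with h
  · symm
    refine Finset.prod_eq_one fun i _ => if_pos ?_
    by_cases hi : i ∈ S
    · simp [hi, h hi]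
    · simp [hi]
  · rw [Finset.not_subset] at h
    obtain ⟨i, hi, hi'⟩ := h
    symm
    refine Finset.prod_eq_zero (Finset.mem_univ i) (if_neg ?_)
    simp [hi, hi', show ¬ ((true : Bool) ≤ false) by decide]

/-- The fast zeta transform. -/
theorem inPlace_zetaMat (m : ℕ) : InPlace (m * 2 ^ (m - 1)) (zetaMat m) := by
  obtain ⟨r, hr, h⟩ := ((eqv_zetaMat m).mtWord (word_tpow_E m)).inPlace
  rcases Nat.eq_zero_or_pos m with h0 | h0
  · subst h0
    rw [Nat.zero_mul] at hr ⊢
    rwa [Nat.le_zero.1 hr] at h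
  · have hne : (∅ : Finset (Fin m)) ≠ {⟨0, h0⟩} := (Finset.singleton_ne_empty _).symm
    exact h.pad hne hr

theorem Eqv.borrow {ι κ : Type} {A : Matrix ι ι ℂ} {B : Matrix κ κ ℂ} (h : Eqv A B)
    (w : ℕ) : Eqv (borrow w A) (borrow w B) := by
  obtain ⟨e, rfl⟩ := h
  refine ⟨Equiv.sumCongr e (Equiv.refl _), ?_⟩
  ext (i | i) (j | j) <;> simp [H715.borrow]

/-- No short programs. -/
def NoShort : Prop := ∀ j r : ℕ, Word Slide r (tpow E j) → j * 2 ^ (j - 1) ≤ r

theorem noShort_of_gam_pos (h : 0 < gam) : NoShort := by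
  intro j r hw
  by_contra hcon
  exact h.ne' (gam_eq_zero_of_word (not_le.1 hcon) hw)

theorem noShort_iff : NoShort ↔ ∀ m r : ℕ, InPlace r (zetaMat m) → m * 2 ^ (m - 1) ≤ r := by
  constructor
  · intro h m r hr
    exact h m r ((eqv_zetaMat m).symm.mtWord hr.word)
  · intro h m r hr
    obtain ⟨r', hr', h1⟩ := ((eqv_zetaMat m).mtWord hr).inPlace
    exact (h m r' h1).trans hr'

theorem NoShort.borrow (h : NoShort) {m w r : ℕ} (hr : InPlace r (borrow w (zetaMat m))) :
    m * 2 ^ (m - 1) ≤ r := by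
  have h1 : Word Slide r (H715.borrow w (tpow E m)) :=
    ((eqv_zetaMat m).borrow w).symm.mtWord hr.word
  exact borrow_bound h h1

theorem cost_zetaForms {m s : ℕ} (h : Computes Set.univ ⊤ (zetaForms m) s) :
    Cost (tpow E m) s := by
  refine (eqv_zetaMat m).symm.cost ⟨s, ?_⟩
  convert h.blk using 1
  funext S x
  simp [zetaMat, zetaForms]

theorem NoShort.circuit (h : NoShort) {m s : ℕ} (hs : Computes Set.univ ⊤ (zetaForms m) s) :
    m * 2 ^ m ≤ 24 * s + 6 * 2 ^ m := circuit_bound h m (cost_zetaForms hs)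

theorem exists_computes_zetaForms (m : ℕ) :
    ∃ s ≤ 6 * L (2 ^ m - 1) + 13 * 2 ^ m, Computes Set.univ ⊤ (zetaForms m) s := by
  have h1 := (eqv_zetaMat m).cost (cost_zeta_of_hadamard (cost_hadamard m))
  obtain ⟨d, h2⟩ := h1.mono (show 3 * (2 * L (2 ^ m - 1) + 3 * (2 ^ m - 1)) + 4 * 2 ^ m ≤
    6 * L (2 ^ m - 1) + 13 * 2 ^ m by omega)
  have h3 : Blk Set.univ (zetaForms m) (6 * L (2 ^ m - 1) + 13 * 2 ^ m) d := by
    convert h2 using 1
    funext S x
    simp [zetaMat, zetaForms]
  exact h3.computes le_top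

/-- Bound for the constant from the bounds for `L(2^m - 1)`. -/
theorem gam_ge (h : ∀ m : ℕ, m * 2 ^ m ≤ 144 * L (2 ^ m - 1) + 318 * 2 ^ m) :
    1 / 576 ≤ gam := by
  refine le_of_forall_pos_le_add fun δ hδ => ?_
  obtain ⟨_, _, _, _, hup⟩ := upper (show 0 < δ by linarith)
  have ht : Tendsto (fun m : ℕ => 2 ^ m - 1) atTop atTop := by
    refine tendsto_atTop_mono (fun m => ?_) tendsto_id
    have : m < 2 ^ m := Nat.lt_two_pow_self
    simp only [id]
    omega
  obtain ⟨M, hM⟩ := exists_nat_gt (318 / (144 * 3 * δ))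
  obtain ⟨m, hm, hmM⟩ := ((ht.eventually hup).and (eventually_ge_atTop (M + 2))).exists
  obtain ⟨s, hs, hb⟩ := hm
  have hL : (L (2 ^ m - 1) : ℝ) ≤ s := by exact_mod_cast L_le hs
  have h1 : ((2 ^ m - 1 : ℕ) : ℝ) ≤ 2 ^ m := by exact_mod_cast Nat.sub_le _ _
  have hm2 : 2 ≤ m := by omega
  have h2m : 2 ≤ 2 ^ m - 1 := by
    have : 2 ^ 2 ≤ 2 ^ m := Nat.pow_le_pow_right (by norm_num) hm2
    omega
  have h0 : (0 : ℝ) < ((2 ^ m - 1 : ℕ) : ℝ) := by exact_mod_cast (by omega : 0 < 2 ^ m - 1)
  have h3 : Real.logb 2 ((2 ^ m - 1 : ℕ) : ℝ) ≤ m := by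
    calc Real.logb 2 ((2 ^ m - 1 : ℕ) : ℝ) ≤ Real.logb 2 ((2 : ℝ) ^ m) :=
          Real.logb_le_logb_of_le (by norm_num) h0 h1
      _ = m := by rw [Real.logb_pow, Real.logb_self_eq_one (by norm_num), mul_one]
  have h4 : 0 ≤ Real.logb 2 ((2 ^ m - 1 : ℕ) : ℝ) := by
    have := logb_pos_of_two_le h2m
    linarith
  have h5 : ((2 ^ m - 1 : ℕ) : ℝ) * Real.logb 2 ((2 ^ m - 1 : ℕ) : ℝ) ≤ 2 ^ m * m :=
    mul_le_mul h1 h3 h4 (by positivity)
  have hg := gam_nonneg
  have h6 : (L (2 ^ m - 1) : ℝ) ≤ (4 * gam + δ) * (2 ^ m * m) :=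
    hL.trans (hb.trans (mul_le_mul_of_nonneg_left h5 (by positivity)))
  have h7 : (m : ℝ) * 2 ^ m ≤ 144 * L (2 ^ m - 1) + 318 * 2 ^ m := by exact_mod_cast h m
  have h8 : (m : ℝ) * 2 ^ m ≤ (144 * ((4 * gam + δ) * m) + 318) * 2 ^ m := by
    calc (m : ℝ) * 2 ^ m ≤ 144 * ((4 * gam + δ) * (2 ^ m * m)) + 318 * 2 ^ m := by linarith
      _ = (144 * ((4 * gam + δ) * m) + 318) * 2 ^ m := by ring
  have h9 : (m : ℝ) ≤ 144 * ((4 * gam + δ) * m) + 318 :=
    le_of_mul_le_mul_right h8 (by positivity)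
  have hmr : (0 : ℝ) < m := by exact_mod_cast (by omega : 0 < m)
  have h10 : 318 ≤ 144 * 3 * δ * m := by
    rw [div_lt_iff₀ (by positivity)] at hM
    have : (M : ℝ) ≤ m := by exact_mod_cast (by omega : M ≤ m)
    nlinarith
  have h11 : (m : ℝ) * 1 ≤ m * (576 * gam + 576 * δ) := by nlinarith
  have h12 := le_of_mul_le_mul_left h11 hmr
  linarith

/-! ### Copies of the Fourier transform -/

theorem dftCopies_apply (N n : ℕ) (p q : Fin N × Fin n) : dftCopies N n p q =
    if p.1 = q.1 then zeta n ^ ((p.2 : ℕ) * (q.2 : ℕ)) else 0 := rfl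

/-- In-place programs for copies of `F_n` are long when circuits are. -/
theorem LMany_le_of_inPlace {N n w r : ℕ} (h : InPlace r (borrow w (dftCopies N n))) :
    LMany N n ≤ 2 * r + N * n := by
  obtain ⟨d, hd, h1⟩ := h.cost
  have h2 := h1.restrict.submatrix (fun p : Fin N × Fin n => Sum.inl p) (Equiv.refl _)
  have h3 := (Cost.diag fun p : Fin N × Fin n => (d (Sum.inl p))⁻¹).mul h2
  obtain ⟨e, h4⟩ := h3
  have h5 : Blk Set.univ (dfts N n) (Fintype.card (Fin N × Fin n) + 2 * r) e := by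
    convert h4 using 1
    funext p x
    simp only [Matrix.diagonal_mul, Matrix.submatrix_apply, Matrix.of_apply, borrow,
      fromBlocks_apply₁₁, Equiv.refl_apply, dftCopies_apply, inv_mul_cancel_left₀ (hd _)]
    simp only [dfts, dft_def, Fintype.sum_prod_type]
    rw [Finset.sum_eq_single p.1]
    · simp
    · intro i' _ hi'
      simp [Ne.symm hi']
    · intro hi
      exact absurd (Finset.mem_univ _) hi
  obtain ⟨s', hs', hc⟩ := h5.computes (D := ⊤) le_top
  have h6 : LMany N n ≤ s' := Nat.sInf_le hc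
  rw [Fintype.card_prod, Fintype.card_fin, Fintype.card_fin] at hs'
  omega

/-- In-place programs for copies of `F_n` from circuits. -/
theorem word_dftCopies {n h : ℕ} (hn : n ≠ 0) (hh : L n ≤ 2 * (h - 1) * n) :
    Word Slide (h * (24 * L n + 6 * n)) (dftCopies (2 * h) n) := by
  obtain ⟨Q, hQ, hQF⟩ := F_inv hn
  obtain ⟨W, i1, i2, hW, h1⟩ := (cost_F n).dirty
  have h2 := Word.whitehead hQ IsMono.one hQF h1
  have h3 := h2.copies (I := Fin h) (by
    simp only [Fintype.card_fin]
    omega)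
  have e : Fin (2 * h) ≃ Fin h × Bool := Fintype.equivOfCardEq (by simp; ring)
  have h4 := h3.submatrix (Equiv.prodCongr e (Equiv.refl (Fin n)))
  have h5 : (tensor (1 : Matrix (Fin h × Bool) (Fin h × Bool) ℂ) (F n)).submatrix
      (Equiv.prodCongr e (Equiv.refl (Fin n))) (Equiv.prodCongr e (Equiv.refl (Fin n))) =
      dftCopies (2 * h) n := by
    ext ⟨i, j⟩ ⟨i', j'⟩
    simp [dftCopies_apply, Matrix.one_apply]
  rw [h5, Fintype.card_fin, Fintype.card_fin,
    show h * (3 * (8 * L n + 2 * n)) = h * (24 * L n + 6 * n) by ring] at h4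
  exact h4

end Vale.Agent.P344.R2.H715
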