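import Vale.Agent.P344.R2.H715.Tfae

/-!
# The asymptotic cost of a matrix
-/

set_option linter.unusedSectionVars false

namespace Vale.Agent.P344.R2.H715

open Matrix Filter

section basic

variable {ι κ : Type} [Fintype ι] [Fintype κ]

/-- Every matrix has a circuit. -/
theorem exists_cost_any (A : Matrix κ ι ℂ) : ∃ s, Cost A s := by
  have key : ∀ k : κ, Can Set.univ (inputs ι) (2 * Fintype.card ι)
      ({(1 + Fintype.card ι, fun x : ι → ℂ => ∑ i, A k i * x i)} :
        Set (ℕ × ((ι → ℂ) → ℂ))) := by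
    intro k
    have h := can_sum (Λ := Set.univ) (S := inputs ι) (d₀ := 0) (Finset.univ : Finset ι)
      (fun i x => x i) (fun i => A k i) (fun _ => Set.mem_univ _)
      (by
        rintro p rfl
        exact ⟨0, le_rfl, zero_mem_inputs _⟩)
      (by
        rintro ⟨p1, p2⟩ ⟨hp1, k, hp2⟩
        simp only at hp1 hp2
        subst hp1 hp2
        exact ⟨0, le_rfl, mem_inputs _⟩)
    rw [Finset.card_univ, Nat.zero_add] at h
    convert h using 3
    funext x
    simp [Finset.sum_apply]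
  refine ⟨_, 1 + Fintype.card ι, (Can.family (2 * Fintype.card ι) _ key).mono_right
    (Avail.of_subset ?_)⟩
  rintro ⟨p1, p2⟩ ⟨hp1, i, hp2⟩
  simp only at hp1 hp2
  subst hp1 hp2
  exact Set.mem_iUnion.mpr ⟨i, rfl⟩

/-- The least number of gates. -/
noncomputable def cmin (A : Matrix κ ι ℂ) : ℕ := sInf {s | Cost A s}

theorem cmin_spec (A : Matrix κ ι ℂ) : Cost A (cmin A) := Nat.sInf_mem (exists_cost_any A)

theorem cmin_le {A : Matrix κ ι ℂ} {s : ℕ} (h : Cost A s) : cmin A ≤ s := Nat.sInf_le h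

theorem Eqv.cmin {A : Matrix ι ι ℂ} {B : Matrix κ κ ℂ} (h : Eqv A B) : cmin A = cmin B :=
  le_antisymm (cmin_le (h.cost (cmin_spec B))) (cmin_le (h.symm.cost (cmin_spec A)))

/-- Gates per point for tensor powers. -/
noncomputable def rt (A : Matrix ι ι ℂ) (K : ℕ) : ℝ := cmin (tpow A K) / (Fintype.card ι : ℝ) ^ K

theorem rt_nonneg (A : Matrix ι ι ℂ) (K : ℕ) : 0 ≤ rt A K := by unfold rt; positivity

/-- Circuits for the tensor powers with `x K + b` gates per point. -/
def Rt (A : Matrix ι ι ℂ) (x b : ℝ) : Prop :=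
  ∀ K : ℕ, ∃ s : ℕ, Cost (tpow A K) s ∧ (s : ℝ) ≤ (Fintype.card ι : ℝ) ^ K * (x * K + b)

/-- The asymptotic number of gates per point and per factor, for tensor powers. -/
noncomputable def slope (A : Matrix ι ι ℂ) : ℝ :=
  sInf ((fun n : ℕ => rt A n / n) '' Set.Ici 1)

variable [Nonempty ι] [Nonempty κ]

theorem card_pos' : (0 : ℝ) < Fintype.card ι := by exact_mod_cast Fintype.card_pos

theorem rt_le {A : Matrix ι ι ℂ} {K s : ℕ} {x : ℝ} (h : Cost (tpow A K) s)
    (hx : (s : ℝ) ≤ (Fintype.card ι : ℝ) ^ K * x) : rt A K ≤ x := by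
  have hc := card_pos' (ι := ι)
  unfold rt
  rw [div_le_iff₀ (by positivity), mul_comm]
  have : (cmin (tpow A K) : ℝ) ≤ s := by exact_mod_cast cmin_le h
  linarith

theorem rt_subadditive (A : Matrix ι ι ℂ) : Subadditive (rt A) := by
  classical
  intro j k
  have hc := card_pos' (ι := ι)
  have h1 := (tpow_add A j k).cost ((cmin_spec (tpow A j)).tensor_mul (cmin_spec (tpow A k)))
  refine rt_le h1 ?_
  unfold rt
  simp only [Fintype.card_pi, Finset.prod_const, Finset.card_univ, Fintype.card_fin]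
  push_cast
  rw [pow_add]
  field_simp
  exact le_refl _

theorem rt_bdd (A : Matrix ι ι ℂ) : BddBelow (Set.range fun n : ℕ => rt A n / n) :=
  ⟨0, by rintro x ⟨n, rfl⟩; exact div_nonneg (rt_nonneg A n) (Nat.cast_nonneg n)⟩

theorem slope_tendsto (A : Matrix ι ι ℂ) :
    Tendsto (fun n : ℕ => rt A n / n) atTop (nhds (slope A)) := by
  have h := (rt_subadditive A).tendsto_lim (rt_bdd A)
  rw [Subadditive.lim] at h
  exact h

theorem slope_nonneg (A : Matrix ι ι ℂ) : 0 ≤ slope A :=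
  ge_of_tendsto' (slope_tendsto A) fun n => div_nonneg (rt_nonneg A n) (Nat.cast_nonneg n)

theorem Rt.of_lt {A : Matrix ι ι ℂ} {a : ℝ} (ha : slope A < a) : ∃ b : ℝ, 0 ≤ b ∧ Rt A a b := by
  have hc := card_pos' (ι := ι)
  have h1 := (slope_tendsto A).eventually_lt_const ha
  obtain ⟨N, hN⟩ := Filter.eventually_atTop.1 h1
  refine ⟨∑ n ∈ Finset.range (N + 1), rt A n, Finset.sum_nonneg fun n _ => rt_nonneg A n,
    fun j => ⟨cmin (tpow A j), cmin_spec _, ?_⟩⟩
  have h2 : (cmin (tpow A j) : ℝ) = (Fintype.card ι : ℝ) ^ j * rt A j := by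
    unfold rt
    field_simp
  have ha0 : 0 ≤ a := (slope_nonneg A).trans ha.le
  rw [h2]
  refine mul_le_mul_of_nonneg_left ?_ (by positivity)
  by_cases hj : j ∈ Finset.range (N + 1)
  · have := Finset.single_le_sum (f := rt A) (fun n _ => rt_nonneg A n) hj
    have h3 : 0 ≤ a * j := by positivity
    linarith
  · rw [Finset.mem_range, not_lt] at hj
    have h3 := hN j (by omega)
    have hj0 : (0 : ℝ) < j := by exact_mod_cast (by omega : 0 < j)
    rw [div_lt_iff₀ hj0] at h3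
    have h4 : 0 ≤ ∑ n ∈ Finset.range (N + 1), rt A n := Finset.sum_nonneg fun n _ => rt_nonneg A n
    linarith

theorem Rt.slope_le {A : Matrix ι ι ℂ} {x b : ℝ} (h : Rt A x b) : slope A ≤ x := by
  have hc := card_pos' (ι := ι)
  refine le_of_forall_pos_le_add fun δ hδ => ?_
  have h1 : ∀ᶠ n : ℕ in atTop, rt A n / n ≤ x + δ := by
    obtain ⟨N, hN⟩ := exists_nat_gt (b / δ)
    filter_upwards [eventually_ge_atTop (N + 1)] with n hn
    obtain ⟨s, hs, hb⟩ := h n
    have h2 := rt_le hs hb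
    have hn0 : (0 : ℝ) < n := by exact_mod_cast (by omega : 0 < n)
    rw [div_le_iff₀ hn0]
    rw [div_lt_iff₀ hδ] at hN
    have h3 : (N : ℝ) ≤ n := by exact_mod_cast (by omega : N ≤ n)
    nlinarith
  exact le_of_tendsto (slope_tendsto A) h1

theorem slope_le_of {A : Matrix ι ι ℂ} {x : ℝ} (h : ∀ δ : ℝ, 0 < δ → ∃ b, Rt A (x + δ) b) :
    slope A ≤ x := by
  refine le_of_forall_pos_le_add fun δ hδ => ?_
  obtain ⟨b, hb⟩ := h δ hδ
  exact hb.slope_le

/-- Products. -/
theorem slope_mul_le (A B : Matrix ι ι ℂ) : slope (A * B) ≤ slope A + slope B := by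
  refine slope_le_of fun δ hδ => ?_
  obtain ⟨b, hb, h1⟩ := Rt.of_lt (show slope A < slope A + δ / 2 by linarith)
  obtain ⟨b', hb', h2⟩ := Rt.of_lt (show slope B < slope B + δ / 2 by linarith)
  refine ⟨b + b', fun K => ?_⟩
  obtain ⟨s, hs, hsb⟩ := h1 K
  obtain ⟨t, ht, htb⟩ := h2 K
  have h3 : tpow (A * B) K = tpow A K * tpow B K := tprod_mul (fun _ => A) fun _ => B
  refine ⟨s + t, by rw [h3]; exact hs.mul ht, ?_⟩
  push_cast
  calc (s : ℝ) + t ≤ (Fintype.card ι : ℝ) ^ K * ((slope A + δ / 2) * K + b) +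
        (Fintype.card ι : ℝ) ^ K * ((slope B + δ / 2) * K + b') := add_le_add hsb htb
    _ = (Fintype.card ι : ℝ) ^ K * ((slope A + slope B + δ) * K + (b + b')) := by ring

theorem slope_mono [DecidableEq ι] {Q : Matrix ι ι ℂ} (hQ : IsMono Q) : slope Q = 0 := by
  refine le_antisymm ?_ (slope_nonneg Q)
  have h : Rt Q 0 1 := by
    intro K
    refine ⟨_, Cost.isMono (IsMono.tprod fun _ => hQ), ?_⟩
    simp only [Fintype.card_pi, Finset.prod_const, Finset.card_univ, Fintype.card_fin]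
    push_cast
    simp
  exact h.slope_le

theorem Eqv.tpow {A : Matrix ι ι ℂ} {B : Matrix κ κ ℂ} (h : Eqv A B) (K : ℕ) :
    Eqv (H715.tpow A K) (H715.tpow B K) := by
  obtain ⟨e, rfl⟩ := h
  exact ⟨Equiv.piCongrRight fun _ => e, rfl⟩

theorem Eqv.slope {A : Matrix ι ι ℂ} {B : Matrix κ κ ℂ} (h : Eqv A B) :
    slope A = slope B := by
  have h1 : rt A = rt B := by
    funext K
    unfold rt
    rw [(h.tpow K).cmin, h.card]
  unfold H715.slope
  rw [h1]

/-- Tensor products. -/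
theorem slope_tensor_le (A : Matrix ι ι ℂ) (B : Matrix κ κ ℂ) :
    slope (tensor A B) ≤ slope A + slope B := by
  classical
  refine slope_le_of fun δ hδ => ?_
  obtain ⟨b, hb, h1⟩ := Rt.of_lt (show slope A < slope A + δ / 2 by linarith)
  obtain ⟨b', hb', h2⟩ := Rt.of_lt (show slope B < slope B + δ / 2 by linarith)
  refine ⟨b + b', fun K => ?_⟩
  obtain ⟨s, hs, hsb⟩ := h1 K
  obtain ⟨t, ht, htb⟩ := h2 K
  have h3 : Eqv (tpow (tensor A B) K) (tensor (tpow A K) (tpow B K)) := by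
    refine ⟨Equiv.arrowProdEquivProdArrow _ _ _, ?_⟩
    ext x y
    simp [Finset.prod_mul_distrib, Equiv.arrowProdEquivProdArrow]
  refine ⟨_, h3.cost (hs.tensor_mul ht), ?_⟩
  simp only [Fintype.card_pi, Finset.prod_const, Finset.card_univ, Fintype.card_fin,
    Fintype.card_prod]
  push_cast
  have hc := card_pos' (ι := ι)
  have hc' := card_pos' (ι := κ)
  rw [mul_pow]
  have e1 : (Fintype.card κ : ℝ) ^ K * s ≤ (Fintype.card κ : ℝ) ^ K *
      ((Fintype.card ι : ℝ) ^ K * ((slope A + δ / 2) * K + b)) :=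
    mul_le_mul_of_nonneg_left hsb (by positivity)
  have e2 : (Fintype.card ι : ℝ) ^ K * t ≤ (Fintype.card ι : ℝ) ^ K *
      ((Fintype.card κ : ℝ) ^ K * ((slope B + δ / 2) * K + b')) :=
    mul_le_mul_of_nonneg_left htb (by positivity)
  calc (Fintype.card κ : ℝ) ^ K * s + (Fintype.card ι : ℝ) ^ K * t
      ≤ (Fintype.card κ : ℝ) ^ K * ((Fintype.card ι : ℝ) ^ K * ((slope A + δ / 2) * K + b)) +
        (Fintype.card ι : ℝ) ^ K * ((Fintype.card κ : ℝ) ^ K * ((slope B + δ / 2) * K + b')) :=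
          add_le_add e1 e2
    _ = _ := by ring

theorem slope_tpow (A : Matrix ι ι ℂ) {m : ℕ} (hm : m ≠ 0) : slope (tpow A m) = m * slope A := by
  have hc := card_pos' (ι := ι)
  have h1 : ∀ K : ℕ, rt (tpow A m) K = rt A (m * K) := by
    intro K
    unfold rt
    rw [(tpow_mul A m K).cmin]
    simp only [Fintype.card_pi, Finset.prod_const, Finset.card_univ, Fintype.card_fin]
    push_cast
    rw [pow_mul]
  have h2 := slope_tendsto (tpow A m)
  have h3 : Tendsto (fun K : ℕ => m * K) atTop atTop :=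
    tendsto_atTop_mono (fun K => Nat.le_mul_of_pos_left K (Nat.pos_of_ne_zero hm)) tendsto_id
  have h4 := ((slope_tendsto A).comp h3).const_mul (m : ℝ)
  refine tendsto_nhds_unique (h2.congr fun K => ?_) h4
  simp only [Function.comp_apply, h1]
  have hm' : (m : ℝ) ≠ 0 := Nat.cast_ne_zero.2 hm
  push_cast
  field_simp

end basic

end Vale.Agent.P344.R2.H715
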