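import Vale.Agent.P344.R2.H715.Fun

/-!
# The asymptotic cost of direct sums and of copies
-/

set_option linter.unusedSectionVars false

namespace Vale.Agent.P344.R2.H715

open Matrix Filter

/-- The asymptotic cost of a matrix: for tensor powers `A^{⊗ K}`, the number of gates divided by
`K |A|^{K-1}`. -/
noncomputable def cc {ι : Type} [Fintype ι] (A : Matrix ι ι ℂ) : ℝ := Fintype.card ι * slope A

section sum

variable {ι κ : Type} [Fintype ι] [Fintype κ] [Nonempty ι] [Nonempty κ]

theorem cc_nonneg (A : Matrix ι ι ℂ) : 0 ≤ cc A :=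
  mul_nonneg (Nat.cast_nonneg _) (slope_nonneg A)

theorem cc_mul_le (A B : Matrix ι ι ℂ) : cc (A * B) ≤ cc A + cc B := by
  unfold cc
  rw [← mul_add]
  exact mul_le_mul_of_nonneg_left (slope_mul_le A B) (Nat.cast_nonneg _)

theorem cc_mono [DecidableEq ι] {Q : Matrix ι ι ℂ} (hQ : IsMono Q) : cc Q = 0 := by
  unfold cc
  rw [slope_mono hQ, mul_zero]

theorem Eqv.cc {A : Matrix ι ι ℂ} {B : Matrix κ κ ℂ} (h : Eqv A B) : cc A = cc B := by
  unfold H715.cc
  rw [h.slope, h.card]

theorem eqv_tensor_sum {I J K : Type} {μ ν : Type} (P : Matrix I I ℂ) (Q : Matrix J J ℂ)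
    (A : Matrix μ μ ℂ) (B : Matrix ν ν ℂ) (T : Matrix K K ℂ) :
    Eqv (tensor (tensor P Q) (tensor (fromBlocks A 0 0 B) T))
      (fromBlocks (tensor (tensor (tensor A P) Q) T) 0 0
        (tensor (tensor P (tensor B Q)) T)) := by
  refine ⟨⟨fun p => match p with
      | ((i, j), (Sum.inl a, k)) => Sum.inl (((a, i), j), k)
      | ((i, j), (Sum.inr b, k)) => Sum.inr ((i, (b, j)), k),
    fun p => match p with
      | Sum.inl (((a, i), j), k) => ((i, j), (Sum.inl a, k))
      | Sum.inr ((i, (b, j)), k) => ((i, j), (Sum.inr b, k)), ?_, ?_⟩, ?_⟩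
  · rintro ⟨⟨i, j⟩, ⟨a | b, k⟩⟩ <;> rfl
  · rintro (⟨⟨⟨a, i⟩, j⟩, k⟩ | ⟨⟨i, ⟨b, j⟩⟩, k⟩) <;> rfl
  · ext ⟨⟨i, j⟩, ⟨a | b, k⟩⟩ ⟨⟨i', j'⟩, ⟨a' | b', k'⟩⟩
    · simp only [tensor_apply, fromBlocks_apply₁₁, Matrix.submatrix_apply, Equiv.coe_fn_mk]
      ring
    · simp
    · simp
    · simp only [tensor_apply, fromBlocks_apply₂₂, Matrix.submatrix_apply, Equiv.coe_fn_mk]
      ring

theorem cost_sum_pow {A : Matrix ι ι ℂ} {B : Matrix κ κ ℂ} {x y b b' : ℝ} (hA : Rt A x b)
    (hB : Rt B y b') (K : ℕ) : ∀ i j : ℕ, ∃ s : ℕ,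
      Cost (tensor (tensor (tpow A i) (tpow B j)) (tpow (fromBlocks A 0 0 B) K)) s ∧
      (s : ℝ) ≤ (Fintype.card ι : ℝ) ^ i * (Fintype.card κ : ℝ) ^ j *
        ((Fintype.card ι : ℝ) + Fintype.card κ) ^ K *
        (x * (i + K * (Fintype.card ι / (Fintype.card ι + Fintype.card κ))) +
          y * (j + K * (Fintype.card κ / (Fintype.card ι + Fintype.card κ))) + (b + b')) := by
  classical
  have hc := card_pos' (ι := ι)
  have hc' := card_pos' (ι := κ)
  induction K with
  | zero =>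
    intro i j
    obtain ⟨s, hs, hsb⟩ := hA i
    obtain ⟨t, ht, htb⟩ := hB j
    have h1 := hs.tensor_mul ht
    have h2 : Eqv (tensor (tensor (tpow A i) (tpow B j)) (tpow (fromBlocks A 0 0 B) 0))
        (tensor (tpow A i) (tpow B j)) :=
      ((Eqv.refl _).tensor (tpow_zero _)).trans (Eqv.tensor_unit _ _ (by simp))
    refine ⟨_, h2.cost h1, ?_⟩
    simp only [Fintype.card_pi, Finset.prod_const, Finset.card_univ, Fintype.card_fin]
    push_cast
    have e1 : (Fintype.card κ : ℝ) ^ j * s ≤ (Fintype.card κ : ℝ) ^ j *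
        ((Fintype.card ι : ℝ) ^ i * (x * i + b)) := mul_le_mul_of_nonneg_left hsb (by positivity)
    have e2 : (Fintype.card ι : ℝ) ^ i * t ≤ (Fintype.card ι : ℝ) ^ i *
        ((Fintype.card κ : ℝ) ^ j * (y * j + b')) := mul_le_mul_of_nonneg_left htb (by positivity)
    calc (Fintype.card κ : ℝ) ^ j * s + (Fintype.card ι : ℝ) ^ i * t
        ≤ (Fintype.card κ : ℝ) ^ j * ((Fintype.card ι : ℝ) ^ i * (x * i + b)) +
          (Fintype.card ι : ℝ) ^ i * ((Fintype.card κ : ℝ) ^ j * (y * j + b')) :=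
            add_le_add e1 e2
      _ = _ := by ring
  | succ K ih =>
    intro i j
    obtain ⟨s, hs, hsb⟩ := ih (i + 1) j
    obtain ⟨t, ht, htb⟩ := ih i (j + 1)
    set T := tpow (fromBlocks A 0 0 B) K with hT
    have h1 : Eqv (tensor (tensor (tpow A i) (tpow B j)) (tpow (fromBlocks A 0 0 B) (K + 1)))
        (fromBlocks (tensor (tensor (tensor A (tpow A i)) (tpow B j)) T) 0 0
          (tensor (tensor (tpow A i) (tensor B (tpow B j))) T)) :=
      ((Eqv.refl _).tensor (tpow_succ _ K)).trans (eqv_tensor_sum _ _ _ _ _)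
    have h2 : Cost (tensor (tensor (tensor A (tpow A i)) (tpow B j)) T) s :=
      (((tpow_succ A i).symm.tensor (Eqv.refl _)).tensor (Eqv.refl T)).cost hs
    have h3 : Cost (tensor (tensor (tpow A i) (tensor B (tpow B j))) T) t :=
      (((Eqv.refl (tpow A i)).tensor (tpow_succ B j).symm).tensor (Eqv.refl T)).cost ht
    refine ⟨s + t, h1.cost (h2.sum h3), ?_⟩
    push_cast at hsb htb ⊢
    refine (add_le_add hsb htb).trans (le_of_eq ?_)
    rw [pow_succ, pow_succ, pow_succ]
    have hn : (Fintype.card ι : ℝ) + Fintype.card κ ≠ 0 := by positivity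
    field_simp
    ring

theorem cc_sum_le (A : Matrix ι ι ℂ) (B : Matrix κ κ ℂ) :
    cc (fromBlocks A 0 0 B) ≤ cc A + cc B := by
  have hc := card_pos' (ι := ι)
  have hc' := card_pos' (ι := κ)
  have hn : (0 : ℝ) < (Fintype.card ι : ℝ) + Fintype.card κ := by positivity
  have key : slope (fromBlocks A 0 0 B) ≤
      (Fintype.card ι * slope A + Fintype.card κ * slope B) /
        (Fintype.card ι + Fintype.card κ) := by
    refine slope_le_of fun δ hδ => ?_
    obtain ⟨b, hb, h1⟩ := Rt.of_lt (show slope A < slope A + δ by linarith)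
    obtain ⟨b', hb', h2⟩ := Rt.of_lt (show slope B < slope B + δ by linarith)
    refine ⟨b + b', fun K => ?_⟩
    obtain ⟨s, hs, hsb⟩ := cost_sum_pow h1 h2 K 0 0
    have h3 : Eqv (tpow (fromBlocks A 0 0 B) K)
        (tensor (tensor (tpow A 0) (tpow B 0)) (tpow (fromBlocks A 0 0 B) K)) := by
      have h4 := ((tpow_zero A).tensor (tpow_zero B)).tensor
        (Eqv.refl (tpow (fromBlocks A 0 0 B) K))
      have h5 : Eqv (tensor (tensor (1 : Matrix Unit Unit ℂ) (1 : Matrix Unit Unit ℂ))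
          (tpow (fromBlocks A 0 0 B) K)) (tpow (fromBlocks A 0 0 B) K) :=
        (Eqv.tensor_comm _ _).trans (((Eqv.refl _).tensor
          (Eqv.tensor_unit _ _ (by simp))).trans (Eqv.tensor_unit _ _ (by simp)))
      exact (h4.trans h5).symm
    refine ⟨s, h3.cost hs, hsb.trans (le_of_eq ?_)⟩
    rw [Fintype.card_sum]
    push_cast
    field_simp
    ring
  unfold cc
  rw [Fintype.card_sum]
  push_cast
  rw [le_div_iff₀ hn] at key
  linarith

/-- `N` copies, upper bound. -/
theorem cc_tensor_one_le [DecidableEq ι] (A : Matrix κ κ ℂ) :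
    cc (tensor (1 : Matrix ι ι ℂ) A) ≤ Fintype.card ι * cc A := by
  unfold cc
  have h1 := slope_tensor_le (1 : Matrix ι ι ℂ) A
  rw [slope_mono IsMono.one, zero_add] at h1
  rw [Fintype.card_prod]
  push_cast
  rw [← mul_assoc]
  exact mul_le_mul_of_nonneg_left h1 (by positivity)

theorem cc_tpow (A : Matrix ι ι ℂ) (m : ℕ) :
    cc (tpow A (m + 1)) = (m + 1) * (Fintype.card ι : ℝ) ^ m * cc A := by
  unfold cc
  rw [slope_tpow A (Nat.succ_ne_zero m)]
  simp only [Fintype.card_pi, Finset.prod_const, Finset.card_univ, Fintype.card_fin]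
  push_cast
  ring

/-- Identity matrices of the same size are equal up to renaming. -/
theorem eqv_one [DecidableEq ι] [DecidableEq κ] (h : Fintype.card ι = Fintype.card κ) :
    Eqv (1 : Matrix ι ι ℂ) (1 : Matrix κ κ ℂ) :=
  ⟨Fintype.equivOfCardEq h, by rw [Matrix.submatrix_one_equiv]⟩

/-- A power of the size many copies, lower bound. -/
theorem slope_le_copies_pow [DecidableEq ι] (A : Matrix ι ι ℂ) (m : ℕ) :
    slope A ≤ slope (tensor (1 : Matrix (Fin m → ι) (Fin m → ι) ℂ) A) := by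
  set y := slope (tensor (1 : Matrix (Fin m → ι) (Fin m → ι) ℂ) A) with hy
  have key : ∀ j : ℕ, ∀ (J : Type) [Fintype J] [DecidableEq J] [Nonempty J],
      Fintype.card J * Fintype.card ι ^ j = Fintype.card ι ^ (m + 1) →
      slope (tensor (1 : Matrix J J ℂ) (tpow A j)) ≤ j * y := by
    intro j
    induction j with
    | zero =>
      intro J _ _ _ hJ
      have h1 : slope (tensor (1 : Matrix J J ℂ) (tpow A 0)) ≤ slope (1 : Matrix J J ℂ) +
        slope (tpow A 0) := slope_tensor_le _ _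
      rw [slope_mono IsMono.one, (tpow_zero A).slope, slope_mono IsMono.one] at h1
      simpa using h1
    | succ j ih =>
      intro J _ _ _ hJ
      have h1 : Eqv (tensor (1 : Matrix J J ℂ) (tpow A (j + 1)))
          (tensor (1 : Matrix J J ℂ) (tensor A (tpow A j))) :=
        (Eqv.refl _).tensor (tpow_succ A j)
      have h2 : tensor (1 : Matrix J J ℂ) (tensor A (tpow A j)) =
          tensor (1 : Matrix J J ℂ) (tensor A (1 : Matrix (Fin j → ι) (Fin j → ι) ℂ)) *
          tensor (1 : Matrix J J ℂ) (tensor (1 : Matrix ι ι ℂ) (tpow A j)) := by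
        rw [← tensor_mul, ← tensor_mul, Matrix.one_mul, Matrix.one_mul, Matrix.mul_one]
      have h3 : Eqv (tensor (1 : Matrix J J ℂ) (tensor A (1 : Matrix (Fin j → ι) (Fin j → ι) ℂ)))
          (tensor (1 : Matrix (Fin m → ι) (Fin m → ι) ℂ) A) := by
        have h4 : Eqv (tensor (1 : Matrix J J ℂ)
            (tensor A (1 : Matrix (Fin j → ι) (Fin j → ι) ℂ)))
            (tensor (tensor (1 : Matrix J J ℂ) (1 : Matrix (Fin j → ι) (Fin j → ι) ℂ)) A) :=
          ((Eqv.refl _).tensor (Eqv.tensor_comm _ _)).trans (Eqv.tensor_assoc _ _ _).symm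
        refine h4.trans (Eqv.tensor ?_ (Eqv.refl _))
        rw [tensor_one]
        refine eqv_one ?_
        simp only [Fintype.card_prod, Fintype.card_pi, Finset.prod_const, Finset.card_univ,
          Fintype.card_fin]
        have hpos : 0 < Fintype.card ι := Fintype.card_pos
        refine Nat.eq_of_mul_eq_mul_right hpos ?_
        rw [mul_assoc, ← pow_succ, ← pow_succ]
        exact hJ
      have h5 : Eqv (tensor (1 : Matrix J J ℂ) (tensor (1 : Matrix ι ι ℂ) (tpow A j)))
          (tensor (1 : Matrix (J × ι) (J × ι) ℂ) (tpow A j)) := by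
        have h6 := (Eqv.tensor_assoc (1 : Matrix J J ℂ) (1 : Matrix ι ι ℂ) (tpow A j)).symm
        rwa [tensor_one] at h6
      have h7 := ih (J × ι) (by
        rw [Fintype.card_prod, mul_assoc, ← pow_succ']
        exact hJ)
      rw [h1.slope, h2]
      refine (slope_mul_le _ _).trans ?_
      rw [h3.slope, h5.slope]
      push_cast
      linarith
  have h1 := key (m + 1) Unit (by simp)
  have h2 : Eqv (tensor (1 : Matrix Unit Unit ℂ) (tpow A (m + 1))) (tpow A (m + 1)) :=
    (Eqv.tensor_comm _ _).trans (Eqv.tensor_unit _ _ (by simp))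
  rw [h2.slope, slope_tpow A (Nat.succ_ne_zero m)] at h1
  have hm : (0 : ℝ) < ((m + 1 : ℕ) : ℝ) := by positivity
  exact le_of_mul_le_mul_left h1 hm

end sum

end Vale.Agent.P344.R2.H715
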