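import Vale.Agent.P344.R2.H715.Fun2

/-!
# Copies, unused cells, and the pipeline
-/

set_option linter.unusedSectionVars false

namespace Vale.Agent.P344.R2.H715

open Matrix Filter

section copies

variable {ι κ ω J : Type} [Fintype ι] [Fintype κ] [Fintype ω] [Fintype J] [DecidableEq ι]
  [DecidableEq κ] [DecidableEq ω] [DecidableEq J] [Nonempty ι] [Nonempty κ]

theorem eqv_tensor_one_sum {α β : Type} [DecidableEq α] [DecidableEq β] (A : Matrix ι ι ℂ) :
    Eqv (tensor (1 : Matrix (α ⊕ β) (α ⊕ β) ℂ) A)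
      (fromBlocks (tensor (1 : Matrix α α ℂ) A) 0 0 (tensor (1 : Matrix β β ℂ) A)) := by
  refine ⟨Equiv.sumProdDistrib _ _ _, ?_⟩
  ext ⟨x | x, i⟩ ⟨y | y, j⟩
  · simp [Matrix.one_apply]
  · simp
  · simp
  · simp [Matrix.one_apply]

theorem eqv_one_tensor_one {α β : Type} [DecidableEq α] [DecidableEq β] (A : Matrix ι ι ℂ) :
    Eqv (tensor (1 : Matrix (α × β) (α × β) ℂ) A)
      (tensor (1 : Matrix α α ℂ) (tensor (1 : Matrix β β ℂ) A)) := by
  have h := Eqv.tensor_assoc (1 : Matrix α α ℂ) (1 : Matrix β β ℂ) A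
  rwa [tensor_one] at h

theorem slope_card_one (h : Fintype.card ι = 1) (A : Matrix ι ι ℂ) : slope A = 0 := by
  refine le_antisymm ?_ (slope_nonneg A)
  have h1 : Rt A 0 1 := by
    intro K
    have hs : Subsingleton ι := Fintype.card_le_one_iff_subsingleton.1 h.le
    have h2 : tpow A K = Matrix.diagonal fun x => tpow A K x x := by
      ext x y
      have : x = y := Subsingleton.elim _ _
      subst this
      simp
    rw [h2]
    refine ⟨_, Cost.diag _, ?_⟩
    simp [h]
  exact h1.slope_le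

theorem cc_card_one (h : Fintype.card ι = 1) (A : Matrix ι ι ℂ) : cc A = 0 := by
  unfold cc
  rw [slope_card_one h, mul_zero]

/-- The cost of copies. -/
theorem cc_tensor_one [Nonempty J] (A : Matrix ι ι ℂ) :
    cc (tensor (1 : Matrix J J ℂ) A) = Fintype.card J * cc A := by
  refine le_antisymm (cc_tensor_one_le A) ?_
  by_cases h1 : Fintype.card ι = 1
  · rw [cc_card_one h1, mul_zero]
    exact cc_nonneg _
  have hι : 2 ≤ Fintype.card ι := by
    have : 0 < Fintype.card ι := Fintype.card_pos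
    omega
  set N := Fintype.card J with hN
  have hN0 : 0 < N := Fintype.card_pos
  set c := Fintype.card ι with hc
  have hNk : N < c ^ N := lt_of_lt_of_le Nat.lt_two_pow_self (Nat.pow_le_pow_left hι N)
  obtain ⟨q, r, hq, hr, hqr⟩ : ∃ q r : ℕ, 0 < q ∧ 0 < r ∧ c ^ N = q * N + r := by
    refine ⟨(c ^ N - 1) / N, (c ^ N - 1) % N + 1, Nat.div_pos (by omega) hN0, by omega, ?_⟩
    have := Nat.div_add_mod (c ^ N - 1) N
    rw [mul_comm] at this
    omega
  haveI : Nonempty (Fin q) := ⟨⟨0, hq⟩⟩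
  haveI : Nonempty (Fin r) := ⟨⟨0, hr⟩⟩
  have e : (Fin N → ι) ≃ (Fin q × J) ⊕ Fin r :=
    Fintype.equivOfCardEq (by
      simp only [Fintype.card_pi, Finset.prod_const, Finset.card_univ, Fintype.card_fin,
        Fintype.card_sum, Fintype.card_prod]
      exact hqr)
  have h2 : Eqv (tensor (1 : Matrix (Fin N → ι) (Fin N → ι) ℂ) A)
      (fromBlocks (tensor (1 : Matrix (Fin q × J) (Fin q × J) ℂ) A) 0 0
        (tensor (1 : Matrix (Fin r) (Fin r) ℂ) A)) :=
    (Eqv.tensor ⟨e, by rw [Matrix.submatrix_one_equiv]⟩ (Eqv.refl A)).trans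
      (eqv_tensor_one_sum A)
  have h3 : (c : ℝ) ^ N * cc A ≤ cc (tensor (1 : Matrix (Fin N → ι) (Fin N → ι) ℂ) A) := by
    unfold cc
    rw [Fintype.card_prod]
    simp only [Fintype.card_pi, Finset.prod_const, Finset.card_univ, Fintype.card_fin]
    push_cast
    rw [← mul_assoc]
    exact mul_le_mul_of_nonneg_left (slope_le_copies_pow A N) (by positivity)
  rw [h2.cc] at h3
  have h4 := h3.trans (cc_sum_le _ _)
  have h5 : cc (tensor (1 : Matrix (Fin q × J) (Fin q × J) ℂ) A) ≤
      q * cc (tensor (1 : Matrix J J ℂ) A) := by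
    rw [(eqv_one_tensor_one A).cc]
    have := cc_tensor_one_le (ι := Fin q) (tensor (1 : Matrix J J ℂ) A)
    rwa [Fintype.card_fin] at this
  have h6 : cc (tensor (1 : Matrix (Fin r) (Fin r) ℂ) A) ≤ r * cc A := by
    have := cc_tensor_one_le (ι := Fin r) A
    rwa [Fintype.card_fin] at this
  have h7 : (c : ℝ) ^ N = q * N + r := by exact_mod_cast hqr
  rw [h7] at h4
  have hq' : (0 : ℝ) < q := by exact_mod_cast hq
  have h8 : (q : ℝ) * (N * cc A) ≤ q * cc (tensor (1 : Matrix J J ℂ) A) := by linarith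
  exact le_of_mul_le_mul_left h8 hq'

theorem eqv_sum_empty [IsEmpty ω] (A : Matrix ι ι ℂ) (B : Matrix ω ω ℂ) :
    Eqv (fromBlocks A 0 0 B) A := by
  refine ⟨Equiv.sumEmpty ι ω, ?_⟩
  ext (i | i) (j | j)
  · simp
  · exact isEmptyElim j
  · exact isEmptyElim i
  · exact isEmptyElim i

theorem Eqv.sum {α β γ δ : Type} {A : Matrix α α ℂ} {B : Matrix β β ℂ} {C : Matrix γ γ ℂ}
    {D : Matrix δ δ ℂ} (h : Eqv A B) (h' : Eqv C D) :
    Eqv (fromBlocks A 0 0 C) (fromBlocks B 0 0 D) := by
  obtain ⟨e, rfl⟩ := h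
  obtain ⟨f, rfl⟩ := h'
  refine ⟨Equiv.sumCongr e f, ?_⟩
  ext (i | i) (j | j) <;> simp

theorem Eqv.sum_comm {α β : Type} (A : Matrix α α ℂ) (B : Matrix β β ℂ) :
    Eqv (fromBlocks A 0 0 B) (fromBlocks B 0 0 A) := by
  refine ⟨Equiv.sumComm _ _, ?_⟩
  ext (i | i) (j | j) <;> simp

theorem Eqv.sum_assoc {α β γ : Type} (A : Matrix α α ℂ) (B : Matrix β β ℂ) (C : Matrix γ γ ℂ) :
    Eqv (fromBlocks (fromBlocks A 0 0 B) 0 0 C) (fromBlocks A 0 0 (fromBlocks B 0 0 C)) := by
  refine ⟨Equiv.sumAssoc _ _ _, ?_⟩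
  ext ((i | i) | i) ((j | j) | j) <;> simp

/-- Unused cells, upper bound. -/
theorem cc_sum_one_le (A : Matrix ι ι ℂ) :
    cc (fromBlocks A 0 0 (1 : Matrix ω ω ℂ)) ≤ cc A := by
  rcases isEmpty_or_nonempty ω with h | h
  · rw [(eqv_sum_empty A _).cc]
  · refine (cc_sum_le A (1 : Matrix ω ω ℂ)).trans ?_
    rw [cc_mono (IsMono.one), add_zero]

/-- Block diagonal matrices with equal blocks in some places, and ones elsewhere. -/
theorem cc_part_le {X : ℝ} (A : Matrix ι ι ℂ)
    (hX : ∀ i : J, cc (Matrix.of fun x y : J × ι => if x.1 = y.1 then (if x.1 = i then A x.2 y.2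
      else (1 : Matrix ι ι ℂ) x.2 y.2) else 0) ≤ X) [Nonempty J] :
    cc (tensor (1 : Matrix J J ℂ) A) ≤ Fintype.card J * X := by
  let M : Finset J → Matrix (J × ι) (J × ι) ℂ := fun s =>
    Matrix.of fun x y => if x.1 = y.1 then (if x.1 ∈ s then A x.2 y.2 else
      (1 : Matrix ι ι ℂ) x.2 y.2) else 0
  have hM : ∀ s x y, M s x y = if x.1 = y.1 then (if x.1 ∈ s then A x.2 y.2 else
      (1 : Matrix ι ι ℂ) x.2 y.2) else 0 := fun s x y => rfl
  have hone : ∀ i, cc (M {i}) ≤ X := by
    intro i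
    convert hX i using 2
    ext x y
    rw [hM]
    simp only [Finset.mem_singleton, Matrix.of_apply]
  have hall : ∀ s : Finset J, cc (M s) ≤ s.card * X := by
    intro s
    induction s using Finset.induction_on with
    | empty =>
      have : M ∅ = 1 := by
        ext ⟨x, a⟩ ⟨y, b⟩
        rw [hM]
        by_cases h1 : x = y <;> by_cases h2 : a = b <;> simp [h1, h2, Matrix.one_apply]
      rw [this, cc_mono IsMono.one]
      simp
    | insert i s hi ih =>
      rw [Finset.card_insert_of_notMem hi]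
      have : M (insert i s) = M {i} * M s := by
        ext ⟨x, a⟩ ⟨y, b⟩
        rw [Matrix.mul_apply, Fintype.sum_prod_type, Finset.sum_eq_single x]
        · simp only [hM, Finset.mem_insert, Finset.mem_singleton, if_true]
          by_cases hxy : x = y
          · subst hxy
            by_cases hx : x = i
            · have hx' : x ∉ s := by rw [hx]; exact hi
              simp [hx, hi, Matrix.one_apply]
            · by_cases hxs : x ∈ s <;> simp [hx, hxs, Matrix.one_apply]
          · simp [hxy]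
        · intro x' _ hx'
          refine Finset.sum_eq_zero fun c _ => ?_
          rw [hM, if_neg (Ne.symm hx'), zero_mul]
        · intro hx
          exact absurd (Finset.mem_univ _) hx
      rw [this]
      refine (cc_mul_le _ _).trans ?_
      push_cast
      have := hone i
      linarith
  have huniv := hall Finset.univ
  rw [Finset.card_univ] at huniv
  convert huniv using 2
  ext ⟨x, a⟩ ⟨y, b⟩
  rw [hM]
  by_cases hxy : x = y <;> simp [hxy]

/-- Unused cells do not help. -/
theorem cc_sum_one (A : Matrix ι ι ℂ) :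
    cc (fromBlocks A 0 0 (1 : Matrix ω ω ℂ)) = cc A := by
  refine le_antisymm (cc_sum_one_le A) ?_
  set p := Fintype.card ω + 1 with hp
  have hι : 0 < Fintype.card ι := Fintype.card_pos
  have key : cc (tensor (1 : Matrix (Fin p) (Fin p) ℂ) A) ≤
      Fintype.card (Fin p) * cc (fromBlocks A 0 0 (1 : Matrix ω ω ℂ)) := by
    haveI : Nonempty (Fin p) := ⟨⟨0, Nat.succ_pos _⟩⟩
    refine cc_part_le A fun i => ?_
    -- the rest
    have hcard : Fintype.card ω ≤ Fintype.card ({j : Fin p // j ≠ i} × ι) := by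
      rw [Fintype.card_prod, Fintype.card_subtype_compl, Fintype.card_subtype_eq,
        Fintype.card_fin, hp, Nat.add_sub_cancel]
      exact Nat.le_mul_of_pos_right _ hι
    have e : {j : Fin p // j ≠ i} × ι ≃
        ω ⊕ Fin (Fintype.card ({j : Fin p // j ≠ i} × ι) - Fintype.card ω) :=
      Fintype.equivOfCardEq (by
        rw [Fintype.card_sum, Fintype.card_fin]
        omega)
    let f : Fin p × ι ≃ ι ⊕ ({j : Fin p // j ≠ i} × ι) :=
      { toFun := fun x => if h : x.1 = i then Sum.inl x.2 else Sum.inr (⟨x.1, h⟩, x.2)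
        invFun := fun y => match y with
          | Sum.inl a => (i, a)
          | Sum.inr (j, a) => (j.1, a)
        left_inv := by
          rintro ⟨j, a⟩
          by_cases hj : j = i
          · subst hj
            simp
          · simp [hj]
        right_inv := by
          rintro (a | ⟨⟨j, hj⟩, a⟩)
          · simp
          · simp [hj] }
    have hf : ∀ x, f x = if h : x.1 = i then Sum.inl x.2 else Sum.inr (⟨x.1, h⟩, x.2) :=
      fun x => rfl
    have h1 : Eqv (Matrix.of fun x y : Fin p × ι => if x.1 = y.1 then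
        (if x.1 = i then A x.2 y.2 else (1 : Matrix ι ι ℂ) x.2 y.2) else 0)
        (fromBlocks A 0 0 (1 : Matrix ({j : Fin p // j ≠ i} × ι) _ ℂ)) := by
      refine ⟨f, ?_⟩
      ext ⟨j, a⟩ ⟨j', a'⟩
      rw [Matrix.submatrix_apply, hf, hf]
      by_cases hj : j = i
      · subst hj
        by_cases hj' : j' = j
        · subst hj'
          simp
        · simp [hj', Ne.symm hj']
      · by_cases hj' : j' = i
        · subst hj'
          simp [hj]
        · by_cases hjj : j = j' <;> by_cases ha : a = a' <;>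
            simp [hj, hj', hjj, ha, Matrix.one_apply]
    have h2 : Eqv (fromBlocks A 0 0 (1 : Matrix ({j : Fin p // j ≠ i} × ι) _ ℂ))
        (fromBlocks (fromBlocks A 0 0 (1 : Matrix ω ω ℂ)) 0 0
          (1 : Matrix (Fin (Fintype.card ({j : Fin p // j ≠ i} × ι) - Fintype.card ω)) _ ℂ)) := by
      have h3 : Eqv (1 : Matrix ({j : Fin p // j ≠ i} × ι) _ ℂ)
          (fromBlocks (1 : Matrix ω ω ℂ) 0 0
            (1 : Matrix (Fin (Fintype.card ({j : Fin p // j ≠ i} × ι) - Fintype.card ω)) _ ℂ)) :=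
        ⟨e, by rw [fromBlocks_one, Matrix.submatrix_one_equiv]⟩
      exact ((Eqv.refl A).sum h3).trans (Eqv.sum_assoc _ _ _).symm
    rw [(h1.trans h2).cc]
    exact cc_sum_one_le _
  haveI : Nonempty (Fin p) := ⟨⟨0, Nat.succ_pos _⟩⟩
  rw [cc_tensor_one] at key
  have h0 : (0 : ℝ) < Fintype.card (Fin p) := by exact_mod_cast Fintype.card_pos
  exact le_of_mul_le_mul_left key h0

theorem cc_one_sum (A : Matrix ι ι ℂ) :
    cc (fromBlocks (1 : Matrix ω ω ℂ) 0 0 A) = cc A := by
  rw [(Eqv.sum_comm _ _).cc, cc_sum_one]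

/-- The pipeline: products in direct sums. -/
theorem cc_mul_le_sum (A B : Matrix ι ι ℂ) : cc (A * B) ≤ cc (fromBlocks A 0 0 B) := by
  -- the state after `N` steps
  have key : ∀ N : ℕ, cc (fromBlocks B 0 0 (tensor (1 : Matrix (Fin N) (Fin N) ℂ) (A * B))) ≤
      cc B + N * cc (fromBlocks A 0 0 B) := by
    intro N
    induction N with
    | zero =>
      rw [(eqv_sum_empty B _).cc]
      simp
    | succ N ih =>
      set T := tensor (1 : Matrix (Fin N) (Fin N) ℂ) (A * B) with hT
      have e : Fin (N + 1) ≃ Unit ⊕ Fin N := Fintype.equivOfCardEq (by simp; ring)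
      have h1 : Eqv (tensor (1 : Matrix (Fin (N + 1)) (Fin (N + 1)) ℂ) (A * B))
          (fromBlocks (A * B) 0 0 T) := by
        have h2 : Eqv (tensor (1 : Matrix Unit Unit ℂ) (A * B)) (A * B) :=
          (Eqv.tensor_comm _ _).trans (Eqv.tensor_unit _ _ (by simp))
        exact (Eqv.tensor ⟨e, by rw [Matrix.submatrix_one_equiv]⟩ (Eqv.refl _)).trans
          ((eqv_tensor_one_sum _).trans (h2.sum (Eqv.refl _)))
      rw [((Eqv.refl B).sum h1).cc]
      have h3 : fromBlocks B 0 0 (fromBlocks (A * B) 0 0 T) =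
          fromBlocks B 0 0 (fromBlocks A 0 0 (1 : Matrix (Fin N × ι) (Fin N × ι) ℂ)) *
          fromBlocks (1 : Matrix ι ι ℂ) 0 0 (fromBlocks B 0 0 T) := by
        simp [fromBlocks_multiply]
      rw [h3]
      refine (cc_mul_le _ _).trans ?_
      rw [cc_one_sum, (Eqv.sum_assoc _ _ _).symm.cc, cc_sum_one, (Eqv.sum_comm B A).cc]
      push_cast
      linarith
  have key2 : ∀ N : ℕ, (N : ℝ) * cc (A * B) ≤
      (cc A + cc B) + N * cc (fromBlocks A 0 0 B) := by
    intro N
    rcases N with _ | N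
    · have h1 := cc_nonneg A
      have h2 := cc_nonneg B
      simp
      linarith
    · have h0 : cc (tensor (1 : Matrix (Fin (N + 1)) (Fin (N + 1)) ℂ) (A * B)) =
          ((N + 1 : ℕ) : ℝ) * cc (A * B) := by
        rw [cc_tensor_one, Fintype.card_fin]
      rw [← h0]
      set T := tensor (1 : Matrix (Fin N) (Fin N) ℂ) (A * B) with hT
      have e : Fin (N + 1) ≃ Unit ⊕ Fin N := Fintype.equivOfCardEq (by simp; ring)
      have h1 : Eqv (tensor (1 : Matrix (Fin (N + 1)) (Fin (N + 1)) ℂ) (A * B))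
          (fromBlocks (A * B) 0 0 T) := by
        have h2 : Eqv (tensor (1 : Matrix Unit Unit ℂ) (A * B)) (A * B) :=
          (Eqv.tensor_comm _ _).trans (Eqv.tensor_unit _ _ (by simp))
        exact (Eqv.tensor ⟨e, by rw [Matrix.submatrix_one_equiv]⟩ (Eqv.refl _)).trans
          ((eqv_tensor_one_sum _).trans (h2.sum (Eqv.refl _)))
      rw [h1.cc]
      have h3 : fromBlocks (A * B) 0 0 T =
          fromBlocks A 0 0 (1 : Matrix (Fin N × ι) (Fin N × ι) ℂ) * fromBlocks B 0 0 T := by
        simp [fromBlocks_multiply]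
      rw [h3]
      refine (cc_mul_le _ _).trans ?_
      rw [cc_sum_one]
      have h4 := key N
      have h5 := cc_nonneg (fromBlocks A 0 0 B)
      push_cast
      linarith
  by_contra hcon
  push Not at hcon
  obtain ⟨N, hN⟩ := exists_nat_gt ((cc A + cc B) / (cc (A * B) - cc (fromBlocks A 0 0 B)))
  rw [div_lt_iff₀ (by linarith)] at hN
  have := key2 N
  linarith

end copies

end Vale.Agent.P344.R2.H715
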