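import Vale.Agent.P344.R2.H715.Fun3

/-!
# Direct sums of families of invertible matrices
-/

set_option linter.unusedSectionVars false

namespace Vale.Agent.P344.R2.H715

open Matrix Filter

/-- An invertible complex matrix of positive size. -/
structure Gate where
  n : ℕ
  pos : 0 < n
  M : Matrix (Fin n) (Fin n) ℂ
  unit : IsUnit M

/-- Index type of a direct sum. -/
def Idx : List Gate → Type
  | [] => Unit
  | g :: l => Fin g.n ⊕ Idx l

instance Idx.fintype : (l : List Gate) → Fintype (Idx l)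
  | [] => (inferInstance : Fintype Unit)
  | g :: l => letI := Idx.fintype l; (inferInstance : Fintype (Fin g.n ⊕ Idx l))

instance Idx.decEq : (l : List Gate) → DecidableEq (Idx l)
  | [] => (inferInstance : DecidableEq Unit)
  | g :: l => letI := Idx.decEq l; (inferInstance : DecidableEq (Fin g.n ⊕ Idx l))

instance Idx.nonempty : (l : List Gate) → Nonempty (Idx l)
  | [] => (inferInstance : Nonempty Unit)
  | g :: l => letI := Idx.nonempty l; (inferInstance : Nonempty (Fin g.n ⊕ Idx l))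

instance (g : Gate) : Nonempty (Fin g.n) := ⟨⟨0, g.pos⟩⟩

/-- The direct sum of a list of matrices, and a one. -/
def D : (l : List Gate) → Matrix (Idx l) (Idx l) ℂ
  | [] => (1 : Matrix Unit Unit ℂ)
  | g :: l => (fromBlocks g.M 0 0 (D l) : Matrix (Fin g.n ⊕ Idx l) (Fin g.n ⊕ Idx l) ℂ)

theorem D_perm {l l' : List Gate} (h : l.Perm l') : Eqv (D l) (D l') := by
  induction h with
  | nil => exact Eqv.refl _
  | cons g _ ih => exact (Eqv.refl g.M).sum ih
  | swap g g' l =>
    have h1 : Eqv (fromBlocks g'.M 0 0 (fromBlocks g.M 0 0 (D l)))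
        (fromBlocks g.M 0 0 (fromBlocks g'.M 0 0 (D l))) :=
      (Eqv.sum_assoc _ _ _).symm.trans (((Eqv.sum_comm g'.M g.M).sum (Eqv.refl _)).trans
        (Eqv.sum_assoc _ _ _))
    exact h1
  | trans _ _ ih1 ih2 => exact ih1.trans ih2

theorem D_append (l l' : List Gate) :
    Eqv (fromBlocks (D (l ++ l')) 0 0 (1 : Matrix Unit Unit ℂ)) (fromBlocks (D l) 0 0 (D l')) := by
  induction l with
  | nil => exact Eqv.sum_comm _ _
  | cons g l ih =>
    have h1 : Eqv (fromBlocks (fromBlocks g.M 0 0 (D (l ++ l'))) 0 0 (1 : Matrix Unit Unit ℂ))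
        (fromBlocks (fromBlocks g.M 0 0 (D l)) 0 0 (D l')) :=
      (Eqv.sum_assoc _ _ _).trans (((Eqv.refl g.M).sum ih).trans (Eqv.sum_assoc _ _ _).symm)
    exact h1

theorem cc_D_append (l l' : List Gate) : cc (D (l ++ l')) = cc (fromBlocks (D l) 0 0 (D l')) := by
  rw [← (D_append l l').cc, cc_sum_one]

/-- The cost of a family. -/
noncomputable def Gam (m : Multiset Gate) : ℝ :=
  Quot.liftOn m (fun l => cc (D l)) fun _ _ h => (D_perm h).cc

theorem Gam_coe (l : List Gate) : Gam (l : Multiset Gate) = cc (D l) := rfl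

theorem Gam_nonneg (m : Multiset Gate) : 0 ≤ Gam m := by
  induction m using Quot.inductionOn with
  | _ l => exact cc_nonneg _

theorem Gam_zero : Gam 0 = 0 := by
  have h : Gam ((([] : List Gate) : Multiset Gate)) = 0 := by
    rw [Gam_coe]
    exact cc_mono (ι := Unit) IsMono.one
  exact h

theorem Gam_add_le (m m' : Multiset Gate) : Gam (m + m') ≤ Gam m + Gam m' := by
  induction m using Quot.inductionOn with
  | _ l =>
    induction m' using Quot.inductionOn with
    | _ l' =>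
      have h1 : Gam ((l ++ l' : List Gate) : Multiset Gate) ≤
          Gam (l : Multiset Gate) + Gam (l' : Multiset Gate) := by
        rw [Gam_coe, Gam_coe, Gam_coe, cc_D_append]
        exact cc_sum_le _ _
      exact h1

/-- The family `m`, and the matrix `A`. -/
theorem Gam_singleton (g : Gate) : Gam {g} = cc g.M := by
  have h1 : Gam (([g] : List Gate) : Multiset Gate) = cc g.M := by
    rw [Gam_coe]
    exact cc_sum_one (ω := Unit) g.M
  exact h1

/-- Copies of a family. -/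
theorem D_copies (l : List Gate) (N : ℕ) :
    Eqv (fromBlocks (D ((List.replicate N l).flatten)) 0 0 (1 : Matrix (Fin N) (Fin N) ℂ))
      (fromBlocks (tensor (1 : Matrix (Fin N) (Fin N) ℂ) (D l)) 0 0
        (1 : Matrix Unit Unit ℂ)) := by
  induction N with
  | zero =>
    have h1 : Eqv (D []) (1 : Matrix Unit Unit ℂ) := Eqv.refl _
    exact (eqv_sum_empty (ι := Unit) (D []) _).trans (h1.trans
      ((Eqv.sum_comm _ _).trans (eqv_sum_empty (ι := Unit) _ _)).symm)
  | succ N ih =>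
    set Y := D ((List.replicate N l).flatten) with hY
    set T := tensor (1 : Matrix (Fin N) (Fin N) ℂ) (D l) with hT
    have e : Fin (N + 1) ≃ Unit ⊕ Fin N := Fintype.equivOfCardEq (by simp; ring)
    have h1 : Eqv (tensor (1 : Matrix (Fin (N + 1)) (Fin (N + 1)) ℂ) (D l))
        (fromBlocks (D l) 0 0 T) := by
      have h2 : Eqv (tensor (1 : Matrix Unit Unit ℂ) (D l)) (D l) :=
        (Eqv.tensor_comm _ _).trans (Eqv.tensor_unit _ _ (by simp))
      exact (Eqv.tensor ⟨e, by rw [Matrix.submatrix_one_equiv]⟩ (Eqv.refl _)).trans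
        ((eqv_tensor_one_sum _).trans (h2.sum (Eqv.refl _)))
    have h3 : Eqv (1 : Matrix (Fin (N + 1)) (Fin (N + 1)) ℂ)
        (fromBlocks (1 : Matrix Unit Unit ℂ) 0 0 (1 : Matrix (Fin N) (Fin N) ℂ)) :=
      ⟨e, by rw [fromBlocks_one, Matrix.submatrix_one_equiv]⟩
    have h4 : Eqv (fromBlocks (D ((List.replicate (N + 1) l).flatten)) 0 0
        (1 : Matrix (Fin (N + 1)) (Fin (N + 1)) ℂ))
        (fromBlocks (fromBlocks (D (l ++ (List.replicate N l).flatten)) 0 0
          (1 : Matrix Unit Unit ℂ)) 0 0 (1 : Matrix (Fin N) (Fin N) ℂ)) := by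
      rw [List.replicate_succ, List.flatten_cons]
      exact ((Eqv.refl _).sum h3).trans (Eqv.sum_assoc _ _ _).symm
    have h5 : Eqv (fromBlocks (fromBlocks (D (l ++ (List.replicate N l).flatten)) 0 0
          (1 : Matrix Unit Unit ℂ)) 0 0 (1 : Matrix (Fin N) (Fin N) ℂ))
        (fromBlocks (D l) 0 0 (fromBlocks Y 0 0 (1 : Matrix (Fin N) (Fin N) ℂ))) :=
      ((D_append _ _).sum (Eqv.refl _)).trans (Eqv.sum_assoc _ _ _)
    have h6 : Eqv (fromBlocks (D l) 0 0 (fromBlocks Y 0 0 (1 : Matrix (Fin N) (Fin N) ℂ)))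
        (fromBlocks (fromBlocks (D l) 0 0 T) 0 0 (1 : Matrix Unit Unit ℂ)) :=
      ((Eqv.refl _).sum ih).trans (Eqv.sum_assoc _ _ _).symm
    exact (h4.trans h5).trans (h6.trans (h1.symm.sum (Eqv.refl _)))

theorem Gam_nsmul (N : ℕ) (m : Multiset Gate) : Gam (N • m) = N * Gam m := by
  rcases Nat.eq_zero_or_pos N with h0 | h0
  · subst h0
    rw [zero_nsmul, Gam_zero, Nat.cast_zero, zero_mul]
  have : Nonempty (Fin N) := ⟨⟨0, h0⟩⟩
  induction m using Quot.inductionOn with
  | _ l =>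
    have h1 : N • (l : Multiset Gate) = (((List.replicate N l).flatten : List Gate) :
        Multiset Gate) := by
      clear h0 this
      induction N with
      | zero => rfl
      | succ N ih =>
        rw [succ_nsmul', ih, List.replicate_succ, List.flatten_cons]
        rfl
    have h2 : Gam (N • (l : Multiset Gate)) = N * Gam (l : Multiset Gate) := by
      rw [h1, Gam_coe, Gam_coe, ← cc_sum_one (ω := Fin N), (D_copies l N).cc, cc_sum_one,
        cc_tensor_one, Fintype.card_fin]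
    exact h2

/-! ### Comparison in every context -/

/-- In every context the family `m` costs at most as much as the family `m'`. -/
def Dom (m m' : Multiset Gate) : Prop := ∀ w, Gam (m + w) ≤ Gam (m' + w)

theorem Dom.refl (m : Multiset Gate) : Dom m m := fun _ => le_rfl

theorem Dom.trans {m m' m'' : Multiset Gate} (h : Dom m m') (h' : Dom m' m'') : Dom m m'' :=
  fun w => (h w).trans (h' w)

theorem Dom.add {a b c d : Multiset Gate} (h : Dom a b) (h' : Dom c d) :
    Dom (a + c) (b + d) := by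
  intro w
  have h1 := h (c + w)
  have h2 := h' (b + w)
  rw [← add_assoc] at h1
  have e1 : c + (b + w) = b + (c + w) := by abel
  have e2 : d + (b + w) = b + d + w := by abel
  rw [e1, e2] at h2
  exact h1.trans h2

theorem Dom.nsmul {a b : Multiset Gate} (h : Dom a b) (N : ℕ) : Dom (N • a) (N • b) := by
  induction N with
  | zero =>
    rw [zero_nsmul, zero_nsmul]
    exact Dom.refl _
  | succ N ih =>
    rw [succ_nsmul, succ_nsmul]
    exact ih.add h

theorem Dom.le {m m' : Multiset Gate} (h : Dom m m') : Gam m ≤ Gam m' := by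
  have := h 0
  rwa [add_zero, add_zero] at this

/-- The tool for proving comparisons. -/
theorem dom_of {l l' : List Gate}
    (h : ∀ (ω : Type) [Fintype ω] [DecidableEq ω] [Nonempty ω] (W : Matrix ω ω ℂ),
      cc (fromBlocks (D l) 0 0 W) ≤ cc (fromBlocks (D l') 0 0 W)) :
    Dom (l : Multiset Gate) (l' : Multiset Gate) := by
  intro w
  induction w using Quot.inductionOn with
  | _ v =>
    have h1 : Gam ((l ++ v : List Gate) : Multiset Gate) ≤
        Gam ((l' ++ v : List Gate) : Multiset Gate) := by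
      rw [Gam_coe, Gam_coe, cc_D_append, cc_D_append]
      exact h _ _
    exact h1

theorem D_single (g : Gate) : Eqv (D [g]) (fromBlocks g.M 0 0 (1 : Matrix Unit Unit ℂ)) :=
  Eqv.refl _

theorem cc_single_sum {ω : Type} [Fintype ω] [DecidableEq ω] [Nonempty ω] (g : Gate)
    (W : Matrix ω ω ℂ) : cc (fromBlocks (D [g]) 0 0 W) = cc (fromBlocks g.M 0 0 W) := by
  have h1 : Eqv (fromBlocks (D [g]) 0 0 W)
      (fromBlocks (fromBlocks g.M 0 0 W) 0 0 (1 : Matrix Unit Unit ℂ)) :=
    ((D_single g).sum (Eqv.refl W)).trans ((Eqv.sum_assoc _ _ _).trans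
      (((Eqv.refl _).sum (Eqv.sum_comm _ _)).trans (Eqv.sum_assoc _ _ _).symm))
  rw [h1.cc, cc_sum_one]

theorem cc_pair_sum {ω : Type} [Fintype ω] [DecidableEq ω] [Nonempty ω] (g g' : Gate)
    (W : Matrix ω ω ℂ) : cc (fromBlocks (D [g, g']) 0 0 W) =
      cc (fromBlocks (fromBlocks g.M 0 0 g'.M) 0 0 W) := by
  have h0 : Eqv (D [g, g']) (fromBlocks (fromBlocks g.M 0 0 g'.M) 0 0
      (1 : Matrix Unit Unit ℂ)) := (Eqv.sum_assoc _ _ _).symm
  have h1 : Eqv (fromBlocks (D [g, g']) 0 0 W)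
      (fromBlocks (fromBlocks (fromBlocks g.M 0 0 g'.M) 0 0 W) 0 0 (1 : Matrix Unit Unit ℂ)) :=
    (h0.sum (Eqv.refl W)).trans ((Eqv.sum_assoc _ _ _).trans
      (((Eqv.refl _).sum (Eqv.sum_comm _ _)).trans (Eqv.sum_assoc _ _ _).symm))
  rw [h1.cc, cc_sum_one]

/-- Matrices that are equal up to renaming. -/
theorem dom_eqv {g g' : Gate} (h : Eqv g.M g'.M) : Dom {g} {g'} := by
  refine dom_of (l := [g]) (l' := [g']) fun ω _ _ _ W => ?_
  rw [cc_single_sum, cc_single_sum, (h.sum (Eqv.refl W)).cc]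

/-- Products. -/
theorem dom_mul {n : ℕ} (hn : 0 < n) {A B : Matrix (Fin n) (Fin n) ℂ} (hA : IsUnit A)
    (hB : IsUnit B) :
    Dom {⟨n, hn, A * B, hA.mul hB⟩} ({⟨n, hn, A, hA⟩} + {⟨n, hn, B, hB⟩}) := by
  refine dom_of (l := [⟨n, hn, A * B, hA.mul hB⟩]) (l' := [⟨n, hn, A, hA⟩, ⟨n, hn, B, hB⟩])
    fun ω _ _ _ W => ?_
  have : Nonempty (Fin n) := ⟨⟨0, hn⟩⟩
  rw [cc_single_sum, cc_pair_sum]
  have h1 : fromBlocks (A * B) 0 0 W =
      fromBlocks A 0 0 (1 : Matrix ω ω ℂ) * fromBlocks B 0 0 W := by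
    simp [fromBlocks_multiply]
  change cc (fromBlocks (A * B) 0 0 W) ≤ cc (fromBlocks (fromBlocks A 0 0 B) 0 0 W)
  rw [h1]
  refine (cc_mul_le_sum _ _).trans (le_of_eq ?_)
  have h2 : Eqv (fromBlocks (fromBlocks A 0 0 (1 : Matrix ω ω ℂ)) 0 0 (fromBlocks B 0 0 W))
      (fromBlocks (fromBlocks (fromBlocks A 0 0 B) 0 0 W) 0 0 (1 : Matrix ω ω ℂ)) := by
    refine (Eqv.sum_assoc _ _ _).trans (((Eqv.refl A).sum (Eqv.sum_comm _ _)).trans ?_)
    refine (Eqv.sum_assoc _ _ _).symm.trans ?_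
    exact (Eqv.sum_assoc A B W).symm.sum (Eqv.refl _)
  rw [h2.cc, cc_sum_one]

/-- The direct sum of two matrices. -/
theorem dom_sum {a b : Gate} {s : Gate} (h : Eqv s.M (fromBlocks a.M 0 0 b.M)) :
    Dom {s} ({a} + {b}) ∧ Dom ({a} + {b}) {s} := by
  have key : ∀ (ω : Type) [Fintype ω] [DecidableEq ω] [Nonempty ω] (W : Matrix ω ω ℂ),
      cc (fromBlocks (D [s]) 0 0 W) = cc (fromBlocks (D [a, b]) 0 0 W) := by
    intro ω _ _ _ W
    rw [cc_single_sum, cc_pair_sum, (h.sum (Eqv.refl W)).cc]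
  exact ⟨dom_of (l := [s]) (l' := [a, b]) fun ω _ _ _ W => (key ω W).le,
    dom_of (l := [a, b]) (l' := [s]) fun ω _ _ _ W => (key ω W).ge⟩

/-- Monomial matrices are free. -/
theorem dom_mono {g : Gate} (h : IsMono g.M) : Dom {g} 0 ∧ Dom 0 {g} := by
  obtain ⟨P, hP, -, h2⟩ := h.inv
  have key : ∀ (ω : Type) [Fintype ω] [DecidableEq ω] [Nonempty ω] (W : Matrix ω ω ℂ),
      cc (fromBlocks g.M 0 0 W) = cc W := by
    intro ω _ _ _ W
    refine le_antisymm ?_ ?_
    · refine (cc_sum_le _ _).trans ?_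
      rw [cc_mono h, zero_add]
    · have h3 : fromBlocks (1 : Matrix (Fin g.n) (Fin g.n) ℂ) 0 0 W =
          fromBlocks P 0 0 (1 : Matrix ω ω ℂ) * fromBlocks g.M 0 0 W := by
        rw [fromBlocks_multiply]
        simp [mul_eq_one_comm.1 h2]
      rw [← cc_one_sum (ω := Fin g.n) W, h3]
      refine (cc_mul_le _ _).trans ?_
      rw [cc_mono (hP.sum IsMono.one), zero_add]
  have key0 : ∀ (ω : Type) [Fintype ω] [DecidableEq ω] [Nonempty ω] (W : Matrix ω ω ℂ),
      cc (fromBlocks (D []) 0 0 W) = cc W := fun ω _ _ _ W => cc_one_sum (ω := Unit) W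
  exact ⟨dom_of (l := [g]) (l' := []) fun ω _ _ _ W => by
      rw [cc_single_sum, key ω W, key0 ω W],
    dom_of (l := []) (l' := [g]) fun ω _ _ _ W => by
      rw [cc_single_sum, key ω W, key0 ω W]⟩

end Vale.Agent.P344.R2.H715
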