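import Vale.Agent.P344.R2.H715.Gates

/-!
# Tensor products in direct sums
-/

set_option linter.unusedSectionVars false

namespace Vale.Agent.P344.R2.H715

open Matrix Filter

section gateOf

variable {ι κ : Type} [Fintype ι] [DecidableEq ι] [Nonempty ι] [Fintype κ] [DecidableEq κ]
  [Nonempty κ]

theorem isUnit_submatrix {A : Matrix ι ι ℂ} (hA : IsUnit A) (e : κ ≃ ι) :
    IsUnit (A.submatrix e e) := by
  obtain ⟨u, rfl⟩ := hA
  refine ⟨⟨(u : Matrix ι ι ℂ).submatrix e e, ((u⁻¹ : (Matrix ι ι ℂ)ˣ) : Matrix ι ι ℂ).submatrix e e,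
    ?_, ?_⟩, rfl⟩
  · rw [Matrix.submatrix_mul_equiv, Units.mul_inv, Matrix.submatrix_one_equiv]
  · rw [Matrix.submatrix_mul_equiv, Units.inv_mul, Matrix.submatrix_one_equiv]

theorem isUnit_tensor {A : Matrix ι ι ℂ} {B : Matrix κ κ ℂ} (hA : IsUnit A) (hB : IsUnit B) :
    IsUnit (tensor A B) := by
  obtain ⟨u, rfl⟩ := hA
  obtain ⟨v, rfl⟩ := hB
  refine ⟨⟨tensor u v, tensor ((u⁻¹ : (Matrix ι ι ℂ)ˣ) : Matrix ι ι ℂ)
    ((v⁻¹ : (Matrix κ κ ℂ)ˣ) : Matrix κ κ ℂ), ?_, ?_⟩, rfl⟩
  · rw [← tensor_mul, Units.mul_inv, Units.mul_inv, tensor_one]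
  · rw [← tensor_mul, Units.inv_mul, Units.inv_mul, tensor_one]

theorem isUnit_sum {A : Matrix ι ι ℂ} {B : Matrix κ κ ℂ} (hA : IsUnit A) (hB : IsUnit B) :
    IsUnit (fromBlocks A 0 0 B) := by
  obtain ⟨u, rfl⟩ := hA
  obtain ⟨v, rfl⟩ := hB
  refine ⟨⟨fromBlocks u 0 0 v, fromBlocks ((u⁻¹ : (Matrix ι ι ℂ)ˣ) : Matrix ι ι ℂ) 0 0
    ((v⁻¹ : (Matrix κ κ ℂ)ˣ) : Matrix κ κ ℂ), ?_, ?_⟩, rfl⟩
  · simp [fromBlocks_multiply]
  · simp [fromBlocks_multiply]

theorem isUnit_mono {Q : Matrix ι ι ℂ} (hQ : IsMono Q) : IsUnit Q := by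
  obtain ⟨P, -, h1, h2⟩ := hQ.inv
  exact ⟨⟨Q, P, h2, h1⟩, rfl⟩

/-- Any invertible matrix as a gate. -/
noncomputable def Gate.of (A : Matrix ι ι ℂ) (hA : IsUnit A) : Gate :=
  ⟨Fintype.card ι, Fintype.card_pos, A.submatrix (Fintype.equivFin ι).symm
    (Fintype.equivFin ι).symm, isUnit_submatrix hA _⟩

theorem Gate.of_eqv (A : Matrix ι ι ℂ) (hA : IsUnit A) : Eqv (Gate.of A hA).M A :=
  ⟨(Fintype.equivFin ι).symm, rfl⟩

theorem Gate.of_n (A : Matrix ι ι ℂ) (hA : IsUnit A) : (Gate.of A hA).n = Fintype.card ι := rfl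

theorem dom_of_eqv {A : Matrix ι ι ℂ} {B : Matrix κ κ ℂ} (hA : IsUnit A) (hB : IsUnit B)
    (h : Eqv A B) : Dom {Gate.of A hA} {Gate.of B hB} :=
  dom_eqv ((Gate.of_eqv A hA).trans (h.trans (Gate.of_eqv B hB).symm))

theorem dom_of_sum {A : Matrix ι ι ℂ} {B : Matrix κ κ ℂ} (hA : IsUnit A) (hB : IsUnit B)
    (hS : IsUnit (fromBlocks A 0 0 B)) :
    Dom {Gate.of (fromBlocks A 0 0 B) hS} ({Gate.of A hA} + {Gate.of B hB}) ∧
      Dom ({Gate.of A hA} + {Gate.of B hB}) {Gate.of (fromBlocks A 0 0 B) hS} := by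
  refine dom_sum ?_
  exact (Gate.of_eqv _ _).trans ((Gate.of_eqv A hA).symm.sum (Gate.of_eqv B hB).symm)

theorem dom_of_mul {A B : Matrix ι ι ℂ} (hA : IsUnit A) (hB : IsUnit B) (hAB : IsUnit (A * B)) :
    Dom {Gate.of (A * B) hAB} ({Gate.of A hA} + {Gate.of B hB}) := by
  have h1 := dom_mul (Fintype.card_pos (α := ι)) (isUnit_submatrix hA (Fintype.equivFin ι).symm)
    (isUnit_submatrix hB (Fintype.equivFin ι).symm)
  refine Dom.trans (dom_eqv ?_) h1
  refine (Gate.of_eqv _ _).trans ⟨Fintype.equivFin ι, ?_⟩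
  have h2 := Matrix.submatrix_mul_equiv A B (Fintype.equivFin ι).symm (Fintype.equivFin ι).symm
    (Fintype.equivFin ι).symm
  change A * B = (A.submatrix (Fintype.equivFin ι).symm (Fintype.equivFin ι).symm *
    B.submatrix (Fintype.equivFin ι).symm (Fintype.equivFin ι).symm).submatrix
      (Fintype.equivFin ι) (Fintype.equivFin ι)
  rw [h2]
  ext i j
  simp

theorem dom_of_mono {Q : Matrix ι ι ℂ} (hQ : IsMono Q) (hU : IsUnit Q) :
    Dom {Gate.of Q hU} 0 ∧ Dom 0 {Gate.of Q hU} :=
  dom_mono (hQ.submatrix _)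

/-- Copies. -/
theorem dom_copies {A : Matrix ι ι ℂ} (hA : IsUnit A) (N : ℕ) (hN : 0 < N) :
    ∀ (J : Type) [Fintype J] [DecidableEq J] [Nonempty J] (_ : Fintype.card J = N)
      (hU : IsUnit (tensor (1 : Matrix J J ℂ) A)),
      Dom {Gate.of (tensor (1 : Matrix J J ℂ) A) hU} (N • {Gate.of A hA}) ∧
        Dom (N • {Gate.of A hA}) {Gate.of (tensor (1 : Matrix J J ℂ) A) hU} := by
  induction N, hN using Nat.le_induction with
  | base =>
    intro J _ _ _ hJ hU
    rw [one_nsmul]
    have e : J ≃ Unit := Fintype.equivOfCardEq (by simpa using hJ)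
    have h2 : Eqv (tensor (1 : Matrix Unit Unit ℂ) A) A :=
      (Eqv.tensor_comm _ _).trans (Eqv.tensor_unit _ _ (by simp))
    have h3 : Eqv (tensor (1 : Matrix J J ℂ) A) A :=
      (Eqv.tensor ⟨e, by rw [Matrix.submatrix_one_equiv]⟩ (Eqv.refl _)).trans h2
    exact ⟨dom_of_eqv _ _ h3, dom_of_eqv _ _ h3.symm⟩
  | succ N hN ih =>
    intro J _ _ _ hJ hU
    have : Nonempty (Fin N) := ⟨⟨0, hN⟩⟩
    have e : J ≃ Unit ⊕ Fin N := Fintype.equivOfCardEq (by simp [hJ]; ring)
    have h2 : Eqv (tensor (1 : Matrix Unit Unit ℂ) A) A :=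
      (Eqv.tensor_comm _ _).trans (Eqv.tensor_unit _ _ (by simp))
    have hT : IsUnit (tensor (1 : Matrix (Fin N) (Fin N) ℂ) A) := isUnit_tensor isUnit_one hA
    have h3 : Eqv (tensor (1 : Matrix J J ℂ) A)
        (fromBlocks A 0 0 (tensor (1 : Matrix (Fin N) (Fin N) ℂ) A)) :=
      (Eqv.tensor ⟨e, by rw [Matrix.submatrix_one_equiv]⟩ (Eqv.refl _)).trans
        ((eqv_tensor_one_sum _).trans (h2.sum (Eqv.refl _)))
    have hS := isUnit_sum hA hT
    obtain ⟨h4, h5⟩ := ih (Fin N) (by simp) hT
    obtain ⟨h6, h7⟩ := dom_of_sum hA hT hS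
    rw [succ_nsmul']
    exact ⟨(dom_of_eqv hU hS h3).trans (h6.trans ((Dom.refl _).add h4)),
      ((Dom.refl _).add h5).trans (h7.trans (dom_of_eqv hS hU h3.symm))⟩

end gateOf

/-- Total size. -/
def size (m : Multiset Gate) : ℕ := (m.map Gate.n).sum

@[simp] theorem size_zero : size 0 = 0 := rfl

@[simp] theorem size_add (m m' : Multiset Gate) : size (m + m') = size m + size m' := by
  simp [size]

@[simp] theorem size_singleton (g : Gate) : size {g} = g.n := by simp [size]

@[simp] theorem size_nsmul (N : ℕ) (m : Multiset Gate) : size (N • m) = N * size m := by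
  induction N with
  | zero => simp
  | succ N ih => rw [succ_nsmul, size_add, ih]; ring

/-- Tensor product of two gates. -/
noncomputable def gten (g h : Gate) : Gate :=
  Gate.of (tensor g.M h.M) (isUnit_tensor g.unit h.unit)

theorem gten_eqv (g h : Gate) : Eqv (gten g h).M (tensor g.M h.M) := Gate.of_eqv _ _

theorem gate_of_self (g : Gate) : Dom {Gate.of g.M g.unit} {g} ∧ Dom {g} {Gate.of g.M g.unit} :=
  ⟨dom_eqv (Gate.of_eqv _ _), dom_eqv (Gate.of_eqv _ _).symm⟩

/-- The simple bound for tensor products. -/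
theorem dom_gten (g h : Gate) : Dom {gten g h} (h.n • {g} + g.n • {h}) := by
  have hg1 : IsUnit (tensor g.M (1 : Matrix (Fin h.n) (Fin h.n) ℂ)) :=
    isUnit_tensor g.unit isUnit_one
  have h1h : IsUnit (tensor (1 : Matrix (Fin g.n) (Fin g.n) ℂ) h.M) :=
    isUnit_tensor isUnit_one h.unit
  have h1g : IsUnit (tensor (1 : Matrix (Fin h.n) (Fin h.n) ℂ) g.M) :=
    isUnit_tensor isUnit_one g.unit
  have e1 : tensor g.M h.M = tensor g.M (1 : Matrix (Fin h.n) (Fin h.n) ℂ) *
      tensor (1 : Matrix (Fin g.n) (Fin g.n) ℂ) h.M := by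
    rw [← tensor_mul, Matrix.mul_one, Matrix.one_mul]
  have e2 : Dom {gten g h} ({Gate.of _ hg1} + {Gate.of _ h1h}) := by
    have h2 := dom_of_mul hg1 h1h (hg1.mul h1h)
    refine Dom.trans (dom_eqv ?_) h2
    refine (gten_eqv g h).trans ?_
    rw [e1]
    exact (Gate.of_eqv _ _).symm
  have e3 : Dom {Gate.of _ hg1} (h.n • {g}) :=
    (dom_of_eqv hg1 h1g (Eqv.tensor_comm _ _)).trans
      (((dom_copies g.unit h.n h.pos (Fin h.n) (by simp) h1g).1).trans
        ((gate_of_self g).1.nsmul _))
  have e4 : Dom {Gate.of _ h1h} (g.n • {h}) :=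
    ((dom_copies h.unit g.n g.pos (Fin g.n) (by simp) h1h).1).trans
      ((gate_of_self h).1.nsmul _)
  exact e2.trans (e3.add e4)

/-- Tensor product of two families. -/
noncomputable def mten (m m' : Multiset Gate) : Multiset Gate :=
  m.bind fun g => m'.map fun h => gten g h

theorem mten_add_left (a b c : Multiset Gate) : mten (a + b) c = mten a c + mten b c :=
  Multiset.add_bind _ _ _

theorem mten_add_right (a b c : Multiset Gate) : mten a (b + c) = mten a b + mten a c := by
  unfold mten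
  simp only [Multiset.map_add]
  exact Multiset.bind_add _ _ _

theorem mten_zero_left (c : Multiset Gate) : mten 0 c = 0 := Multiset.zero_bind _

theorem mten_zero_right (a : Multiset Gate) : mten a 0 = 0 := by
  unfold mten
  simp

theorem mten_singleton (g h : Gate) : mten {g} {h} = {gten g h} := by
  unfold mten
  simp

theorem mten_nsmul_left (N : ℕ) (a b : Multiset Gate) : mten (N • a) b = N • mten a b := by
  induction N with
  | zero => rw [zero_nsmul, zero_nsmul, mten_zero_left]
  | succ N ih => rw [succ_nsmul, succ_nsmul, mten_add_left, ih]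

theorem mten_nsmul_right (N : ℕ) (a b : Multiset Gate) : mten a (N • b) = N • mten a b := by
  induction N with
  | zero => rw [zero_nsmul, zero_nsmul, mten_zero_right]
  | succ N ih => rw [succ_nsmul, succ_nsmul, mten_add_right, ih]

theorem dom_mten_singleton (g : Gate) (m : Multiset Gate) :
    Dom (mten {g} m) (size m • {g} + g.n • m) := by
  induction m using Multiset.induction_on with
  | empty =>
    rw [mten_zero_right, smul_zero, size_zero, zero_nsmul, add_zero]
    exact Dom.refl _
  | cons h m ih =>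
    rw [← Multiset.singleton_add, mten_add_right, mten_singleton]
    refine ((dom_gten g h).add ih).trans ?_
    have e : h.n • {g} + g.n • {h} + (size m • {g} + g.n • m) =
        size ({h} + m) • {g} + g.n • ({h} + m) := by
      rw [size_add, size_singleton, add_nsmul, nsmul_add]
      abel
    rw [e]
    exact Dom.refl _

/-- The simple bound for families. -/
theorem dom_mten (m m' : Multiset Gate) : Dom (mten m m') (size m' • m + size m • m') := by
  induction m using Multiset.induction_on with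
  | empty =>
    rw [mten_zero_left, smul_zero, size_zero, zero_nsmul, add_zero]
    exact Dom.refl _
  | cons g m ih =>
    rw [← Multiset.singleton_add, mten_add_left]
    refine ((dom_mten_singleton g m').add ih).trans ?_
    have e : size m' • {g} + g.n • m' + (size m' • m + size m • m') =
        size m' • ({g} + m) + size ({g} + m) • m' := by
      rw [size_add, size_singleton, add_nsmul, nsmul_add]
      abel
    rw [e]
    exact Dom.refl _

/-! ### Squares -/

theorem D_unit : (l : List Gate) → IsUnit (D l)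
  | [] => (isUnit_one : IsUnit (1 : Matrix Unit Unit ℂ))
  | g :: l => isUnit_sum g.unit (D_unit l)

theorem card_Idx : (l : List Gate) → Fintype.card (Idx l) = size (l : Multiset Gate) + 1
  | [] => rfl
  | g :: l => by
    have h1 : Fintype.card (Fin g.n ⊕ Idx l) = g.n + Fintype.card (Idx l) := by
      rw [Fintype.card_sum, Fintype.card_fin]
    rw [← Multiset.cons_coe, ← Multiset.singleton_add, size_add, size_singleton, add_assoc,
      ← card_Idx l]
    exact h1

/-- A family as one gate. -/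
theorem dom_D (l : List Gate) :
    Dom {Gate.of (D l) (D_unit l)} l ∧ Dom l {Gate.of (D l) (D_unit l)} := by
  have key : ∀ (ω : Type) [Fintype ω] [DecidableEq ω] [Nonempty ω] (W : Matrix ω ω ℂ),
      cc (fromBlocks (D [Gate.of (D l) (D_unit l)]) 0 0 W) = cc (fromBlocks (D l) 0 0 W) := by
    intro ω _ _ _ W
    rw [cc_single_sum, ((Gate.of_eqv (D l) (D_unit l)).sum (Eqv.refl W)).cc]
  exact ⟨dom_of (l := [Gate.of (D l) (D_unit l)]) (l' := l) fun ω _ _ _ W => (key ω W).le,
    dom_of (l := l) (l' := [Gate.of (D l) (D_unit l)]) fun ω _ _ _ W => (key ω W).ge⟩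

theorem eqv_tensor_sum_right {α β γ : Type} (X : Matrix α α ℂ) (A : Matrix β β ℂ)
    (B : Matrix γ γ ℂ) : Eqv (tensor X (fromBlocks A 0 0 B))
      (fromBlocks (tensor X A) 0 0 (tensor X B)) := by
  refine ⟨Equiv.prodSumDistrib _ _ _, ?_⟩
  ext ⟨x, a | a⟩ ⟨y, b | b⟩ <;> simp

theorem eqv_tensor_sum_left {α β γ : Type} (X : Matrix α α ℂ) (A : Matrix β β ℂ)
    (B : Matrix γ γ ℂ) : Eqv (tensor (fromBlocks A 0 0 B) X)
      (fromBlocks (tensor A X) 0 0 (tensor B X)) := by
  refine ⟨Equiv.sumProdDistrib _ _ _, ?_⟩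
  ext ⟨a | a, x⟩ ⟨b | b, y⟩ <;> simp

theorem dom_tensor_D (g : Gate) : (l : List Gate) →
    Dom {Gate.of (tensor g.M (D l)) (isUnit_tensor g.unit (D_unit l))}
      (mten {g} (l : Multiset Gate) + {g})
  | [] => by
    have h1 : Dom {Gate.of (tensor g.M (D [])) (isUnit_tensor g.unit (D_unit []))} {g} := by
      refine dom_eqv ((Gate.of_eqv _ _).trans ?_)
      exact Eqv.tensor_unit g.M (1 : Matrix Unit Unit ℂ) (by simp)
    have h2 : mten {g} ((([] : List Gate) : Multiset Gate)) = 0 := mten_zero_right _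
    rw [h2, zero_add]
    exact h1
  | h :: l => by
    have ih := dom_tensor_D g l
    have h1 : Dom {Gate.of (tensor g.M (D (h :: l))) (isUnit_tensor g.unit (D_unit (h :: l)))}
        ({gten g h} + {Gate.of (tensor g.M (D l)) (isUnit_tensor g.unit (D_unit l))}) := by
      refine (dom_sum ?_).1
      have h2 : Eqv (Gate.of (tensor g.M (D (h :: l)))
          (isUnit_tensor g.unit (D_unit (h :: l)))).M
          (fromBlocks (tensor g.M h.M) 0 0 (tensor g.M (D l))) :=
        (Gate.of_eqv _ _).trans (eqv_tensor_sum_right _ _ _)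
      exact h2.trans ((gten_eqv g h).symm.sum (Gate.of_eqv _ _).symm)
    refine h1.trans (((Dom.refl _).add ih).trans ?_)
    rw [← Multiset.cons_coe, ← Multiset.singleton_add h, mten_add_right, mten_singleton,
      add_assoc]
    exact Dom.refl _

theorem dom_D_tensor_D (l' : List Gate) : (l : List Gate) →
    Dom {Gate.of (tensor (D l) (D l')) (isUnit_tensor (D_unit l) (D_unit l'))}
      (mten (l : Multiset Gate) (l' : Multiset Gate) + l + l')
  | [] => by
    have h1 : Dom {Gate.of (tensor (D []) (D l')) (isUnit_tensor (D_unit []) (D_unit l'))}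
        {Gate.of (D l') (D_unit l')} := by
      refine dom_eqv ((Gate.of_eqv _ _).trans (Eqv.trans ?_ (Gate.of_eqv _ _).symm))
      exact (Eqv.tensor_comm _ _).trans (Eqv.tensor_unit (D l') (1 : Matrix Unit Unit ℂ)
        (by simp))
    have h2 : mten ((([] : List Gate) : Multiset Gate)) (l' : Multiset Gate) = 0 :=
      mten_zero_left _
    rw [h2, zero_add]
    have h3 : (([] : List Gate) : Multiset Gate) + (l' : Multiset Gate) = l' := zero_add _
    rw [h3]
    exact h1.trans (dom_D l').1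
  | g :: l => by
    have ih := dom_D_tensor_D l' l
    have h1 : Dom {Gate.of (tensor (D (g :: l)) (D l'))
        (isUnit_tensor (D_unit (g :: l)) (D_unit l'))}
        ({Gate.of (tensor g.M (D l')) (isUnit_tensor g.unit (D_unit l'))} +
          {Gate.of (tensor (D l) (D l')) (isUnit_tensor (D_unit l) (D_unit l'))}) := by
      refine (dom_sum ?_).1
      have h2 : Eqv (Gate.of (tensor (D (g :: l)) (D l'))
          (isUnit_tensor (D_unit (g :: l)) (D_unit l'))).M
          (fromBlocks (tensor g.M (D l')) 0 0 (tensor (D l) (D l'))) :=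
        (Gate.of_eqv _ _).trans (eqv_tensor_sum_left _ _ _)
      exact h2.trans ((Gate.of_eqv _ _).symm.sum (Gate.of_eqv _ _).symm)
    refine h1.trans (((dom_tensor_D g l').add ih).trans ?_)
    have e : mten {g} (l' : Multiset Gate) + {g} +
        (mten (l : Multiset Gate) (l' : Multiset Gate) + l + l') =
        mten (((g :: l : List Gate) : Multiset Gate)) (l' : Multiset Gate) +
          ((g :: l : List Gate) : Multiset Gate) + l' := by
      rw [← Multiset.cons_coe, ← Multiset.singleton_add g, mten_add_left]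
      abel
    rw [e]
    exact Dom.refl _

theorem cc_sq {ι : Type} [Fintype ι] [DecidableEq ι] [Nonempty ι] (A : Matrix ι ι ℂ) :
    cc (tensor A A) = 2 * Fintype.card ι * cc A := by
  have h1 : Eqv (tpow A 2) (tensor A A) := by
    refine (tpow_succ A 1).trans ((Eqv.refl A).tensor ?_)
    exact (tpow_succ A 0).trans (((Eqv.refl A).tensor (tpow_zero A)).trans
      (Eqv.tensor_unit A (1 : Matrix Unit Unit ℂ) (by simp)))
  have h2 := cc_tpow A 1
  rw [show (1 : ℕ) + 1 = 2 from rfl, h1.cc, pow_one] at h2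
  rw [h2]
  push_cast
  ring

/-- The square of a family. -/
theorem Gam_sq (m : Multiset Gate) : 2 * size m * Gam m ≤ Gam (mten m m) := by
  induction m using Quot.inductionOn with
  | _ l =>
    have h1 := (dom_D_tensor_D l l).le
    rw [Gam_singleton, (Gate.of_eqv _ _).cc, cc_sq, card_Idx] at h1
    have h2 := Gam_add_le (mten (l : Multiset Gate) (l : Multiset Gate) + l) l
    have h3 := Gam_add_le (mten (l : Multiset Gate) (l : Multiset Gate)) l
    have h4 : Gam (l : Multiset Gate) = cc (D l) := rfl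
    have h5 : 2 * (size (l : Multiset Gate) : ℝ) * Gam (l : Multiset Gate) ≤
        Gam (mten (l : Multiset Gate) (l : Multiset Gate)) := by
      push_cast at h1
      rw [← h4] at h1
      linarith
    exact h5

/-- Tensor products are exact in every context. -/
theorem dom_gten' (a b : Gate) : Dom (b.n • {a} + a.n • {b}) {gten a b} := by
  intro w
  set u : Multiset Gate := b.n • {a} + a.n • {b} with hu
  set x := u + w with hx
  have hab : Dom {gten b a} {gten a b} :=
    dom_eqv ((gten_eqv b a).trans ((Eqv.tensor_comm _ _).trans (gten_eqv a b).symm))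
  have hsu : size u = 2 * (a.n * b.n) := by
    rw [hu]
    simp only [size_add, size_nsmul, size_singleton]
    ring
  -- the pieces
  have h1 : mten x x = mten u u + mten u w + mten w u + mten w w := by
    rw [hx, mten_add_left u w (u + w), mten_add_right u u w, mten_add_right w u w]
    abel
  have h2 : mten u u = mten (b.n • {a}) (b.n • {a}) + (b.n * a.n) • {gten a b} +
      (a.n * b.n) • {gten b a} + mten (a.n • {b}) (a.n • {b}) := by
    have e1 : mten (b.n • {a}) (a.n • {b}) = (b.n * a.n) • {gten a b} := by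
      rw [mten_nsmul_left, mten_nsmul_right, mten_singleton, smul_smul]
    have e2 : mten (a.n • {b}) (b.n • {a}) = (a.n * b.n) • {gten b a} := by
      rw [mten_nsmul_left, mten_nsmul_right, mten_singleton, smul_smul]
    rw [hu, mten_add_left (b.n • {a}) (a.n • {b}) _, mten_add_right (b.n • {a}) (b.n • {a}) _,
      mten_add_right (a.n • {b}) (b.n • {a}) _, e1, e2]
    abel
  have h3 : Dom (mten (b.n • {a}) (b.n • {a})) ((2 * (a.n * b.n)) • (b.n • {a})) := by
    refine (dom_mten _ _).trans ?_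
    rw [size_nsmul, size_singleton, ← add_nsmul]
    rw [show b.n * a.n + b.n * a.n = 2 * (a.n * b.n) by ring]
    exact Dom.refl _
  have h4 : Dom (mten (a.n • {b}) (a.n • {b})) ((2 * (a.n * b.n)) • (a.n • {b})) := by
    refine (dom_mten _ _).trans ?_
    rw [size_nsmul, size_singleton, ← add_nsmul]
    rw [show a.n * b.n + a.n * b.n = 2 * (a.n * b.n) by ring]
    exact Dom.refl _
  have h5 : Dom (mten x x) ((2 * (a.n * b.n)) • ({gten a b} + w) +
      (2 * (a.n * b.n) + 2 * size w) • x) := by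
    rw [h1, h2]
    refine (((((h3.add (Dom.refl _)).add (hab.nsmul _)).add h4).add (dom_mten u w)).add
      (dom_mten w u)).add (dom_mten w w) |>.trans ?_
    rw [hsu]
    have e : (2 * (a.n * b.n)) • b.n • {a} + (b.n * a.n) • {gten a b} +
        (a.n * b.n) • {gten a b} + (2 * (a.n * b.n)) • a.n • {b} +
        (size w • u + (2 * (a.n * b.n)) • w) + ((2 * (a.n * b.n)) • w + size w • u) +
        (size w • w + size w • w) =
        (2 * (a.n * b.n)) • ({gten a b} + w) + (2 * (a.n * b.n) + 2 * size w) • x := by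
      classical
      refine Multiset.ext.2 fun g => ?_
      rw [hx, hu]
      simp only [Multiset.count_add, Multiset.count_nsmul, smul_eq_mul]
      ring
    rw [e]
    exact Dom.refl _
  have h6 := (Gam_sq x).trans h5.le
  have h7 := h6.trans (Gam_add_le _ _)
  rw [Gam_nsmul, Gam_nsmul] at h7
  have hsx : size x = 2 * (a.n * b.n) + size w := by rw [hx, size_add, hsu]
  rw [hsx] at h7
  push_cast at h7
  have hp : (0 : ℝ) < 2 * (a.n * b.n) := by
    have h8 : (0 : ℝ) < a.n := by exact_mod_cast a.pos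
    have h9 : (0 : ℝ) < b.n := by exact_mod_cast b.pos
    positivity
  have h8 : 2 * ((a.n : ℝ) * b.n) * Gam x ≤ 2 * (a.n * b.n) * Gam ({gten a b} + w) := by
    linarith
  exact le_of_mul_le_mul_left h8 hp

end Vale.Agent.P344.R2.H715
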