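import Vale.Agent.P344.R2.H715.Abs

/-!
# Words and the functional; stars
-/

set_option linter.unusedSectionVars false

namespace Vale.Agent.P344.R2.H715

open Matrix Filter Asymptotics

section word

variable {ι κ : Type} [Fintype ι] [DecidableEq ι] [Nonempty ι] [Fintype κ] [DecidableEq κ]
  [Nonempty κ]

theorem cc_slide {S : Matrix ι ι ℂ} (hS : Slide S) : cc S ≤ cc E := by
  rcases hS.cases with h1 | ⟨β, i1, i2, h1⟩
  · rw [h1, cc_mono IsMono.one]
    exact cc_nonneg _
  · rw [h1.cc, cc_sum_one]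

/-- A program with `r` additions. -/
theorem cc_word {r : ℕ} {M : Matrix ι ι ℂ} (h : Word Slide r M) : cc M ≤ r * cc E := by
  induction h with
  | mono hQ => rw [cc_mono hQ, Nat.cast_zero, zero_mul]
  | @step r Q S M hQ hS _ ih =>
    have h1 := cc_mul_le (Q * S) M
    have h2 := cc_mul_le Q S
    have h3 := cc_mono hQ
    have h4 := cc_slide hS
    push_cast
    linarith

theorem cc_transvection {i j : ι} (hij : i ≠ j) (c : ℂ) : cc (transvection i j c) ≤ cc E := by
  have := cc_word (word_transvection hij c)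
  rwa [Nat.cast_one, one_mul] at this

/-- Renaming rows and columns separately. -/
theorem cc_submatrix₂ (A : Matrix ι ι ℂ) (e f : κ ≃ ι) : cc (A.submatrix e f) = cc A := by
  have key : ∀ (ι κ : Type) [Fintype ι] [DecidableEq ι] [Nonempty ι] [Fintype κ] [DecidableEq κ]
      [Nonempty κ] (A : Matrix ι ι ℂ) (e f : κ ≃ ι), cc (A.submatrix e f) ≤ cc A := by
    intro ι κ _ _ _ _ _ _ A e f
    have h1 : A.submatrix e f = (A.submatrix e e).submatrix (Equiv.refl κ) (f.trans e.symm) := by
      ext i j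
      simp
    rw [h1, submatrix_eq_mul _ (Equiv.refl κ) (f.trans e.symm)]
    refine (cc_mul_le _ _).trans ?_
    rw [cc_mono (IsMono.perm _), add_zero]
    refine (cc_mul_le _ _).trans ?_
    rw [cc_mono (IsMono.perm _), zero_add]
    exact (Eqv.cc ⟨e, rfl⟩).le
  refine le_antisymm (key ι κ A e f) ?_
  have := key κ ι (A.submatrix e f) e.symm f.symm
  rw [Matrix.submatrix_submatrix] at this
  simpa using this

end word

/-- The star: adding the centre `none` to each of `n` cells. -/
def Star (n : ℕ) : Matrix (Option (Fin n)) (Option (Fin n)) ℂ :=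
  Matrix.of fun i j => if i = j ∨ j = none then 1 else 0

/-- The final step, from bounds for stars. -/
theorem cc_E_eq_zero {n : ℕ} (hn : 0 < n) {x : ℝ} (hx : x < 4 * n * (n + 1) ^ 3)
    (h1 : n * cc E ≤ cc (Star n)) (h2 : cc (tpow (Star n) 4) ≤ x * cc E) : cc E = 0 := by
  have h3 := cc_tpow (Star n) 3
  rw [show 3 + 1 = 4 from rfl] at h3
  rw [h3] at h2
  simp only [Fintype.card_option, Fintype.card_fin] at h2
  push_cast at h2
  have h4 := cc_nonneg E
  by_contra hne
  have h5 : 0 < cc E := lt_of_le_of_ne h4 (Ne.symm hne)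
  have h6 : (3 + 1) * ((n : ℝ) + 1) ^ 3 * (n * cc E) ≤ (3 + 1) * ((n : ℝ) + 1) ^ 3 * cc (Star n) :=
    mul_le_mul_of_nonneg_left h1 (by positivity)
  have h7 : (4 * n * ((n : ℝ) + 1) ^ 3) * cc E ≤ x * cc E := by
    calc (4 * n * ((n : ℝ) + 1) ^ 3) * cc E = (3 + 1) * ((n : ℝ) + 1) ^ 3 * (n * cc E) := by ring
      _ ≤ _ := h6.trans h2
  have h8 := le_of_mul_le_mul_right h7 h5
  linarith

/-- If `E` is free, then `L(n) = o(n log n)`. -/
theorem isLittleO_of_cc (h : cc E = 0) :
    (fun n : ℕ => (L n : ℝ)) =o[atTop] fun n : ℕ => (n : ℝ) * Real.logb 2 n :=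
  isLittleO_of_gam_eq_zero (gam_eq_zero_of_cc h)

end Vale.Agent.P344.R2.H715
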