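import Vale.Agent.P344.R2.H715.Short

/-!
# The Fourier transform in few layers, in place: powers of two
-/

set_option linter.unusedSectionVars false

namespace Vale.Agent.P344.R2.H715

open Matrix

section layer

variable {ι κ ω : Type} [Fintype ι] [DecidableEq ι] [Fintype κ] [DecidableEq κ]
  [Fintype ω] [DecidableEq ω]

theorem Word.layers {r : ℕ} {M : Matrix ι ι ℂ} (h : Word Slide r M) : Word Layer r M :=
  h.imp fun _ ⟨k, _, hk⟩ => ⟨k, trivial, hk⟩

theorem Word.tensor_layers {r : ℕ} {M : Matrix ι ι ℂ} (h : Word Layer r M) :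
    Word Layer r (tensor (1 : Matrix κ κ ℂ) M) := by
  refine h.map (fun M => tensor (1 : Matrix κ κ ℂ) M) (fun A B => ?_)
    (fun Q hQ => IsMono.one.tensor hQ) fun S hS => ?_
  · rw [← tensor_mul, Matrix.one_mul]
  · obtain ⟨k, -, hS⟩ := hS
    exact ⟨_, trivial, hS.tensor⟩

/-- Recognising a matching. -/
theorem isMatch_of_injective {α : Type} [Fintype α] [DecidableEq α] (h : α × Bool → ι)
    (hinj : Function.Injective h) {S : Matrix ι ι ℂ}
    (hS : ∀ k l, S k l = (if k = l then 1 else 0) +
      ∑ a, if k = h (a, false) ∧ l = h (a, true) then 1 else 0) :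
    IsMatch (Fintype.card α) S := by
  classical
  let e : (α × Bool) ⊕ {z : ι // z ∈ (Set.range h)ᶜ} ≃ ι :=
    (Equiv.sumCongr (Equiv.ofInjective h hinj) (Equiv.refl _)).trans
      (Equiv.Set.sumCompl (Set.range h))
  have e1 : ∀ p, e (Sum.inl p) = h p := fun p => rfl
  have e2 : ∀ z, e (Sum.inr z) = z.1 := fun z => rfl
  refine ⟨α, {z : ι // z ∈ (Set.range h)ᶜ}, inferInstance, inferInstance, inferInstance,
    inferInstance, e.symm, rfl, ?_⟩
  have key : S.submatrix e e = core α {z : ι // z ∈ (Set.range h)ᶜ} := by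
    ext (⟨a, b⟩ | z) (⟨a', b'⟩ | z')
    · rw [Matrix.submatrix_apply, e1, e1, hS]
      simp only [hinj.eq_iff, ite_and, Finset.sum_ite_eq, Finset.mem_univ, if_true,
        Prod.mk.injEq]
      by_cases ha : a = a'
      · subst ha
        cases b <;> cases b' <;> simp [core, show ¬ ((true : Bool) ≤ false) by decide]
      · cases b <;> cases b' <;> simp [core, ha, Ne.symm ha]
    · have hz := z'.2
      rw [Set.mem_compl_iff, Set.mem_range, not_exists] at hz
      rw [Matrix.submatrix_apply, e1, e2, hS, if_neg (hz _)]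
      rw [Finset.sum_eq_zero fun c _ => if_neg fun h' => hz _ h'.2.symm]
      simp [core]
    · have hz := z.2
      rw [Set.mem_compl_iff, Set.mem_range, not_exists] at hz
      rw [Matrix.submatrix_apply, e1, e2, hS, if_neg fun h' => hz _ h'.symm]
      rw [Finset.sum_eq_zero fun c _ => if_neg fun h' => hz _ h'.1.symm]
      simp [core]
    · have hz := z.2
      rw [Set.mem_compl_iff, Set.mem_range, not_exists] at hz
      rw [Matrix.submatrix_apply, e2, e2, hS]
      rw [Finset.sum_eq_zero fun c _ => if_neg fun h' => hz _ h'.1.symm]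
      simp [core, Matrix.one_apply, Subtype.ext_iff]
  rw [← key, Matrix.submatrix_submatrix]
  ext i j
  simp

end layer

/-! ### Radix two -/

/-- The Fourier matrix. -/
noncomputable def F (n : ℕ) : Matrix (Fin n) (Fin n) ℂ :=
  Matrix.of fun j k => zeta n ^ ((j : ℕ) * (k : ℕ))

@[simp] theorem F_apply (n : ℕ) (j k : Fin n) : F n j k = zeta n ^ ((j : ℕ) * (k : ℕ)) := rfl

theorem zeta_two : zeta 2 = -1 := by
  unfold zeta
  rw [show 2 * (Real.pi : ℂ) * Complex.I / (2 : ℕ) = Real.pi * Complex.I by push_cast; ring]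
  exact Complex.exp_pi_mul_I

theorem word_F_two : Word Layer 2 (F 2) := by
  have h1 : F 2 = transvection 1 0 (1 : ℂ) *
      Matrix.diagonal (fun i : Fin 2 => if i = 0 then (1 : ℂ) else -2) *
      transvection 0 1 (1 : ℂ) := by
    ext i j
    rw [Matrix.mul_apply]
    simp only [Matrix.mul_diagonal, transvection_apply, Fin.sum_univ_two, F_apply, zeta_two]
    fin_cases i <;> fin_cases j <;> norm_num
  rw [h1]
  have h2 : IsMono (Matrix.diagonal (fun i : Fin 2 => if i = 0 then (1 : ℂ) else -2)) :=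
    IsMono.diag fun i => by fin_cases i <;> simp
  exact (((word_transvection (by decide) 1).right h2).mul
    (word_transvection (by decide) 1)).layers

/-- The Cooley–Tukey factorization. -/
theorem F_split {p q : ℕ} (hp : p ≠ 0) (hq : q ≠ 0) :
    F (q * p) = (tensor (F p) 1 *
      Matrix.diagonal (fun x : Fin p × Fin q => zeta (q * p) ^ ((x.2 : ℕ) * (x.1 : ℕ))) *
      tensor 1 (F q)).submatrix
        (finProdFinEquiv.trans (finCongr (mul_comm p q))).symm
        ((Equiv.prodComm _ _).trans finProdFinEquiv).symm := by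
  ext j k
  obtain ⟨⟨j1, j0⟩, rfl⟩ := (finProdFinEquiv.trans (finCongr (mul_comm p q))).surjective j
  obtain ⟨⟨k1, k2⟩, rfl⟩ := ((Equiv.prodComm _ _).trans finProdFinEquiv).surjective k
  rw [Matrix.submatrix_apply, Equiv.symm_apply_apply, Equiv.symm_apply_apply, Matrix.mul_apply,
    Finset.sum_eq_single (k1, j0)]
  · have hj : (((finProdFinEquiv.trans (finCongr (mul_comm p q))) (j1, j0) : Fin (q * p)) : ℕ) =
        j0 + q * j1 := rfl
    have hk : ((((Equiv.prodComm (Fin p) (Fin q)).trans finProdFinEquiv) (k1, k2) :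
        Fin (q * p)) : ℕ) = k1 + p * k2 := rfl
    have h1 : (j0 + q * j1 : ℕ) / q = j1 := by
      rw [Nat.add_mul_div_left _ _ (Nat.pos_of_ne_zero hq), Nat.div_eq_of_lt j0.2, Nat.zero_add]
    have h2 : (j0 + q * j1 : ℕ) % q = j0 := by
      rw [Nat.add_mul_mod_self_left, Nat.mod_eq_of_lt j0.2]
    rw [F_apply, hj, hk, zeta_split hp hq, h1, h2, Matrix.mul_diagonal, tensor_apply,
      tensor_apply, F_apply, F_apply, Matrix.one_apply_eq, Matrix.one_apply_eq]
    ring
  · rintro ⟨l1, l2⟩ - hl
    rw [Matrix.mul_diagonal, tensor_apply, tensor_apply]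
    by_cases h1 : l1 = k1
    · have h2 : j0 ≠ l2 := by
        rintro rfl
        exact hl (by rw [h1])
      rw [Matrix.one_apply_ne h2]
      simp
    · rw [Matrix.one_apply_ne h1]
      simp
  · intro h
    exact absurd (Finset.mem_univ _) h

theorem zeta_pow_ne_zero (n k : ℕ) : zeta n ^ k ≠ 0 := by
  intro h
  have := zeta_pow_norm n k
  rw [h, norm_zero] at this
  exact zero_ne_one this

/-- In-place radix-two transform with `2 a` layers. -/
theorem word_F_pow (a : ℕ) : Word Layer (2 * a) (F (2 ^ a)) := by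
  induction a with
  | zero =>
    have h1 : F (2 ^ 0) = 1 := by
      ext i j
      have hi : i = j := Subsingleton.elim (α := Fin 1) i j
      have hj : (j : ℕ) = 0 := Nat.lt_one_iff.1 j.2
      rw [F_apply, hi, Matrix.one_apply_eq, hj]
      simp
    rw [h1]
    exact Word.one
  | succ a ih =>
    rw [pow_succ, F_split two_ne_zero (by positivity)]
    refine Word.submatrix₂ ?_ _ _
    have h1 : Word Layer 2 (tensor (F 2) (1 : Matrix (Fin (2 ^ a)) (Fin (2 ^ a)) ℂ)) :=
      (Eqv.tensor_comm _ _).mtWord word_F_two.tensor_layers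
    have h2 := (h1.right (IsMono.diag fun x : Fin 2 × Fin (2 ^ a) =>
      zeta_pow_ne_zero (2 ^ a * 2) ((x.2 : ℕ) * (x.1 : ℕ)))).mul
        (ih.tensor_layers (κ := Fin 2))
    rwa [show 2 + 2 * a = 2 * (a + 1) by ring] at h2

end Vale.Agent.P344.R2.H715
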