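import Vale.Agent.P344.H952.Defs

/-!
# In-place programs and the zeta transform

Definitions used by the statement of the hand-in `GapLaw`.
-/

namespace Vale.Agent.P344.R2.H715

/-- `InPlace r M`: some in-place program with exactly `r` additions maps the contents `x` of the
cells (indexed by `ι`) to `M x`.  An addition replaces `x i` by `x i + c * x j`, where `i ≠ j` and
`c` is any complex number; permuting the cells and multiplying cells by nonzero complex numbers is
free. -/
inductive InPlace {ι : Type} [DecidableEq ι] : ℕ → Matrix ι ι ℂ → Prop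
  | start : InPlace 0 1
  | perm {r : ℕ} {M : Matrix ι ι ℂ} (σ : Equiv.Perm ι) :
      InPlace r M → InPlace r (Matrix.of fun i k => M (σ i) k)
  | scale {r : ℕ} {M : Matrix ι ι ℂ} (d : ι → ℂ) (hd : ∀ i, d i ≠ 0) :
      InPlace r M → InPlace r (Matrix.of fun i k => d i * M i k)
  | add {r : ℕ} {M : Matrix ι ι ℂ} (i j : ι) (hij : i ≠ j) (c : ℂ) :
      InPlace r M → InPlace (r + 1) (Matrix.of fun k l => if k = i then M i l + c * M j l else M k l)

/-- The matrix of the zeta transform `y_S = ∑ x_T`, sum over `T ⊇ S`, for functions on the subsets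
of `{1, …, m}`: the `m`-th tensor power of `[[1,1],[0,1]]`. -/
def zetaMat (m : ℕ) : Matrix (Finset (Fin m)) (Finset (Fin m)) ℂ :=
  Matrix.of fun S T => if S ⊆ T then 1 else 0

/-- The matrix `M` together with `w` further cells, whose contents are not changed. -/
def borrow (w : ℕ) {ι : Type} (M : Matrix ι ι ℂ) : Matrix (ι ⊕ Fin w) (ι ⊕ Fin w) ℂ :=
  Matrix.fromBlocks M 0 0 1

/-- `N` copies of the matrix of `F_n`. -/
noncomputable def dftCopies (N n : ℕ) : Matrix (Fin N × Fin n) (Fin N × Fin n) ℂ :=
  Matrix.of fun p q =>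
    if p.1 = q.1 then Complex.exp (2 * Real.pi * Complex.I / n) ^ ((p.2 : ℕ) * (q.2 : ℕ)) else 0

/-- The zeta transform as a family of functions of `x`. -/
def zetaForms (m : ℕ) (S : Finset (Fin m)) (x : Finset (Fin m) → ℂ) : ℂ :=
  ∑ T : Finset (Fin m), if S ⊆ T then x T else 0

end Vale.Agent.P344.R2.H715
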