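import Vale.Agent.P344.R2.H715.Dirty
import Vale.Agent.P344.R2.H715.Cheap

/-!
# Short circuits give short in-place programs
-/

set_option linter.unusedSectionVars false

namespace Vale.Agent.P344.R2.H715

open Matrix

section subst

variable {ι κ : Type} [Fintype ι] [DecidableEq ι] [Fintype κ] [DecidableEq κ]

/-- Replace every generator by a word. -/
theorem Word.subst {G G' : Matrix ι ι ℂ → Prop} {r t : ℕ} {M : Matrix ι ι ℂ} (h : Word G r M)
    (hG : ∀ S, G S → Word G' t S) : Word G' (r * t) M := by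
  induction h with
  | mono hQ =>
    rw [Nat.zero_mul]
    exact .mono hQ
  | @step r Q S M hQ hS _ ih =>
    rw [show (r + 1) * t = t + r * t by ring]
    exact ((hG S hS).left hQ).mul ih

/-- A matching is a product of transvections. -/
theorem IsMatch.slides {k : ℕ} {S : Matrix ι ι ℂ} (h : IsMatch k S) : Word Slide k S := by
  obtain ⟨α, β, i1, i2, i3, i4, e, hk, rfl⟩ := h
  refine Word.submatrix ?_ e
  let emb : α ↪ (α × Bool) ⊕ β := ⟨fun a => Sum.inl (a, false), fun a b h => by simpa using h⟩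
  have hemb : ∀ a, emb a = Sum.inl (a, false) := fun a => rfl
  let f : (α × Bool) ⊕ β → (α × Bool) ⊕ β :=
    Sum.elim (fun p => Sum.inl (p.1, true)) fun b => Sum.inr b
  have h1 := word_rows f (Finset.univ.map emb) (by
    intro z hz
    rw [Finset.mem_map] at hz
    obtain ⟨a, -, rfl⟩ := hz
    simp [f, hemb])
  rw [Finset.card_map, Finset.card_univ, hk] at h1
  convert h1 using 1
  ext (⟨a, b⟩ | z) (⟨a', b'⟩ | z')
  all_goals simp only [Matrix.of_apply, Finset.mem_map, hemb]
  · by_cases ha : a = a'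
    · subst ha
      cases b <;> cases b' <;> simp [core, f, show ¬ ((true : Bool) ≤ false) by decide]
    · cases b <;> simp [core, f, ha]
  · simp [core, f]
  · simp [core]
  · simp [core, Matrix.one_apply]

theorem Word.tensor_slides {r : ℕ} {M : Matrix ι ι ℂ} (h : Word Slide r M) :
    Word Slide (r * Fintype.card κ) (tensor (1 : Matrix κ κ ℂ) M) := by
  have h1 : Word (Mt fun k => k ≤ Fintype.card κ) r (tensor (1 : Matrix κ κ ℂ) M) := by
    refine h.map (fun M => tensor (1 : Matrix κ κ ℂ) M) (fun A B => ?_)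
      (fun Q hQ => IsMono.one.tensor hQ) fun S hS => ?_
    · rw [← tensor_mul, Matrix.one_mul]
    · obtain ⟨k, hk, hS⟩ := hS
      exact ⟨Fintype.card κ * k, by nlinarith, hS.tensor⟩
  refine h1.subst fun S hS => ?_
  obtain ⟨k, hk, hS⟩ := hS
  exact hS.slides.pad (Nat.zero_le _) hk

theorem word_E : Word Slide 1 E := by
  have h1 : E = transvection false true (1 : ℂ) := by
    ext a b
    rw [transvection_apply]
    cases a <;> cases b <;> simp [show ¬ ((true : Bool) ≤ false) by decide]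
  rw [h1]
  exact word_transvection (by decide) 1

theorem Eqv.mtWord {p : ℕ → Prop} {A : Matrix ι ι ℂ} {B : Matrix κ κ ℂ} (h : Eqv A B) {r : ℕ}
    (hB : Word (Mt p) r B) : Word (Mt p) r A := by
  obtain ⟨e, rfl⟩ := h
  exact hB.submatrix e

/-- The fast zeta transform. -/
theorem word_tpow_E (m : ℕ) : Word Slide (m * 2 ^ (m - 1)) (tpow E m) := by
  induction m with
  | zero =>
    have h1 : Word Slide 0 (1 : Matrix Unit Unit ℂ) := Word.one
    rw [Nat.zero_mul]
    exact (tpow_zero E).mtWord h1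
  | succ m ih =>
    have h1 : Word Slide (1 * Fintype.card (Fin m → Bool))
        (tensor E (1 : Matrix (Fin m → Bool) (Fin m → Bool) ℂ)) :=
      (Eqv.tensor_comm _ _).mtWord word_E.tensor_slides
    have h2 : Word Slide (m * 2 ^ (m - 1) * Fintype.card Bool)
        (tensor (1 : Matrix Bool Bool ℂ) (tpow E m)) := ih.tensor_slides
    have h3 := h1.mul h2
    rw [← tensor_mul, Matrix.mul_one, Matrix.one_mul] at h3
    have h4 := (tpow_succ E m).mtWord h3
    convert h4 using 1
    simp only [Fintype.card_pi, Finset.prod_const, Finset.card_univ, Fintype.card_fin,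
      Fintype.card_bool, Nat.add_sub_cancel]
    rcases m with _ | m
    · simp
    · rw [Nat.add_sub_cancel, pow_succ]
      ring

end subst

/-- `E⁻¹ = D E D`. -/
theorem tpow_E_inv (m : ℕ) : ∃ D : Matrix (Fin m → Bool) (Fin m → Bool) ℂ, IsMono D ∧
    tpow E m * (D * tpow E m * D) = 1 := by
  let d : Matrix Bool Bool ℂ := Matrix.diagonal fun b => if b then (-1 : ℂ) else 1
  have hd : IsMono d := IsMono.diag fun b => by cases b <;> simp
  refine ⟨tpow d m, IsMono.tprod fun _ => hd, ?_⟩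
  have h1 : E * (d * E * d) = 1 := by
    ext a b
    rw [Matrix.mul_apply]
    simp only [d, Matrix.mul_diagonal, Matrix.diagonal_mul, Fintype.sum_bool, E_apply,
      Matrix.one_apply]
    cases a <;> cases b <;> simp [show ¬ ((true : Bool) ≤ false) by decide]
  have h2 : tpow E m * (tpow d m * tpow E m * tpow d m) = tpow (E * (d * E * d)) m := by
    unfold tpow
    rw [← tprod_mul, ← tprod_mul, ← tprod_mul]
  rw [h2, h1]
  exact tprod_one

/-- From two copies with unused cells to one copy of a large power. -/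
theorem two_copies_bound (H : ∀ j r : ℕ, Word Slide r (tpow E j) → j * 2 ^ (j - 1) ≤ r)
    {m t : ℕ} {ω : Type} [Fintype ω] [DecidableEq ω]
    (h2 : Word Slide t (fromBlocks (fromBlocks (tpow E m) 0 0 (tpow E m)) 0 0
      (1 : Matrix ω ω ℂ))) : m * 2 ^ m ≤ t := by
  have hcard : Fintype.card (Fin m → Bool) = 2 ^ m := by simp
  set s := Fintype.card ω with hs
  -- many copies
  have h3 : Word Slide (Fintype.card (Fin s → Bool) * t)
      (tensor (1 : Matrix ((Fin s → Bool) × Bool) ((Fin s → Bool) × Bool) ℂ) (tpow E m)) := by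
    refine h2.copies ?_
    have h4 : Fintype.card (Fin s → Bool) = 2 ^ s := by simp
    rw [hcard, h4]
    have h5 : s < 2 ^ s := Nat.lt_two_pow_self
    have h6 : 1 ≤ 2 ^ m := Nat.one_le_two_pow
    calc Fintype.card ω ≤ s := le_rfl
      _ ≤ 2 * (2 ^ s - 1) := by omega
      _ = 2 * (2 ^ s - 1) * 1 := by ring
      _ ≤ 2 * (2 ^ s - 1) * 2 ^ m := Nat.mul_le_mul_left _ h6
  have h4 : Word Slide ((s + 1) * 2 ^ (s + 1 - 1) * Fintype.card (Fin m → Bool))
      (tensor (tpow E (s + 1)) (1 : Matrix (Fin m → Bool) (Fin m → Bool) ℂ)) :=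
    (Eqv.tensor_comm _ _).mtWord (word_tpow_E (s + 1)).tensor_slides
  have h5 : Eqv (tensor (1 : Matrix (Fin (s + 1) → Bool) (Fin (s + 1) → Bool) ℂ) (tpow E m))
      (tensor (1 : Matrix ((Fin s → Bool) × Bool) ((Fin s → Bool) × Bool) ℂ) (tpow E m)) := by
    have e : (Fin (s + 1) → Bool) ≃ (Fin s → Bool) × Bool :=
      Fintype.equivOfCardEq (by simp [pow_succ])
    refine Eqv.tensor ⟨e, ?_⟩ (Eqv.refl _)
    rw [Matrix.submatrix_one_equiv]
  have h6 := h4.mul (h5.mtWord h3)
  rw [← tensor_mul, Matrix.mul_one, Matrix.one_mul] at h6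
  have h7 := H _ _ ((tpow_add E (s + 1) m).mtWord h6)
  have h8 : Fintype.card (Fin s → Bool) = 2 ^ s := by simp
  rw [hcard, h8, show s + 1 + m - 1 = s + m by omega, Nat.add_sub_cancel, pow_add] at h7
  have h9 : 2 ^ s * (m * 2 ^ m) ≤ 2 ^ s * t := by nlinarith
  exact Nat.le_of_mul_le_mul_left h9 (by positivity)

/-- If no in-place program for a power `E^{⊗ j}` beats `j 2^{j-1}`, then circuits for these
matrices are long. -/
theorem circuit_bound (H : ∀ j r : ℕ, Word Slide r (tpow E j) → j * 2 ^ (j - 1) ≤ r) (m : ℕ)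
    {s : ℕ} (h : Cost (tpow E m) s) : m * 2 ^ m ≤ 24 * s + 6 * 2 ^ m := by
  obtain ⟨W, i1, i2, hW, h1⟩ := h.dirty
  obtain ⟨D, hD, hDE⟩ := tpow_E_inv m
  have h2 := Word.whitehead hD hD hDE h1
  have h3 := two_copies_bound H h2
  have hcard : Fintype.card (Fin m → Bool) = 2 ^ m := by simp
  rw [hcard] at h3
  omega

/-- Two copies from one. -/
theorem Word.two_copies {p : ℕ → Prop} {ι ω : Type} [Fintype ι] [DecidableEq ι] [Fintype ω]
    [DecidableEq ω] {A : Matrix ι ι ℂ} {t : ℕ}
    (h : Word (Mt p) t (fromBlocks A 0 0 (1 : Matrix ω ω ℂ))) :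
    Word (Mt p) (2 * t) (fromBlocks (fromBlocks A 0 0 A) 0 0 (1 : Matrix ω ω ℂ)) := by
  have h1 : Word (Mt p) t (fromBlocks A 0 0 (1 : Matrix (ι ⊕ ω) (ι ⊕ ω) ℂ)) :=
    h.enlarge (by simp)
  have h2 : Word (Mt p) t (fromBlocks (fromBlocks A 0 0 (1 : Matrix ι ι ℂ)) 0 0
      (1 : Matrix ω ω ℂ)) := by
    have h3 := h1.submatrix (Equiv.sumAssoc ι ι ω)
    convert h3 using 1
    ext ((i | i) | i) ((j | j) | j) <;> simp [Matrix.one_apply]
  have h3 : Word (Mt p) t (fromBlocks (fromBlocks (1 : Matrix ι ι ℂ) 0 0 A) 0 0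
      (1 : Matrix ω ω ℂ)) := by
    have h4 := h2.submatrix (Equiv.sumCongr (Equiv.sumComm ι ι) (Equiv.refl ω))
    convert h4 using 1
    ext ((i | i) | i) ((j | j) | j) <;> simp
  have h4 := h2.mul_sum h3
  rw [show t + t = 2 * t by ring] at h4
  convert h4 using 2
  simp [fromBlocks_multiply]

/-- The bound for programs that may use and restore other cells. -/
theorem borrow_bound (H : ∀ j r : ℕ, Word Slide r (tpow E j) → j * 2 ^ (j - 1) ≤ r)
    {m r : ℕ} {ω : Type} [Fintype ω] [DecidableEq ω]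
    (h : Word Slide r (fromBlocks (tpow E m) 0 0 (1 : Matrix ω ω ℂ))) :
    m * 2 ^ (m - 1) ≤ r := by
  have h1 := two_copies_bound H h.two_copies
  rcases m with _ | m
  · simp
  · rw [Nat.add_sub_cancel]
    rw [pow_succ] at h1
    have h2 : 2 * ((m + 1) * 2 ^ m) ≤ 2 * r := by linarith
    omega

end Vale.Agent.P344.R2.H715
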