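import Vale.Agent.P344.R2.H715.Blue

/-!
# Many coprime orders in parallel
-/

set_option linter.unusedSectionVars false

namespace Vale.Agent.P344.R2.H715

open Matrix

section sync

variable {ι κ : Type} [Fintype ι] [DecidableEq ι] [Fintype κ] [DecidableEq κ]

theorem Word.pad' {G : Matrix ι ι ℂ → Prop} {r t : ℕ} {M : Matrix ι ι ℂ} (hG : G 1)
    (h : Word G r M) (hrt : r ≤ t) : Word G t M := by
  obtain ⟨s, rfl⟩ := Nat.exists_eq_add_of_le hrt
  induction s with
  | zero => exact h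
  | succ s ih =>
    have h1 := (ih (by omega)).mul (Word.of hG)
    rw [Matrix.mul_one] at h1
    exact h1

/-- Different names for rows and for columns. -/
theorem Word.submatrix₂' {G : Matrix ι ι ℂ → Prop} {G' : Matrix κ κ ℂ → Prop} {r : ℕ}
    {M : Matrix ι ι ℂ} (h : Word G r M) (e f : κ ≃ ι) (hG : ∀ S, G S → G' (S.submatrix e e)) :
    Word G' r (M.submatrix e f) := by
  have h1 : M.submatrix e f = (M.submatrix e e).submatrix (Equiv.refl κ) (f.trans e.symm) := by
    ext i j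
    simp
  rw [h1, submatrix_eq_mul _ (Equiv.refl κ) (f.trans e.symm)]
  have h2 : Word G' r (M.submatrix e e) :=
    h.map (fun M => M.submatrix e e) (fun A B => (Matrix.submatrix_mul_equiv A B e e e).symm)
      (fun _ hQ => hQ.submatrix e) hG
  exact (h2.left (IsMono.perm _)).right (IsMono.perm _)

/-- Two words of the same length, in parallel. -/
theorem Word.tensor {G : Matrix ι ι ℂ → Prop} {G' : Matrix κ κ ℂ → Prop}
    {G'' : Matrix (ι × κ) (ι × κ) ℂ → Prop} (hG : ∀ S T, G S → G' T → G'' (tensor S T))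
    {t : ℕ} : ∀ {M : Matrix ι ι ℂ} {N : Matrix κ κ ℂ}, Word G t M → Word G' t N →
      Word G'' t (H715.tensor M N) := by
  induction t with
  | zero =>
    intro M N hM hN
    cases hM with
    | mono hQ =>
      cases hN with
      | mono hQ' => exact .mono (hQ.tensor hQ')
  | succ t ih =>
    intro M N hM hN
    cases hM with
    | step hQ hS hM' =>
      cases hN with
      | step hQ' hS' hN' =>
        rw [tensor_mul, tensor_mul]
        exact .step (hQ.tensor hQ') (hG _ _ hS hS') (ih hM' hN')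

theorem IsMatch.card_le {k : ℕ} {S : Matrix ι ι ℂ} (h : IsMatch k S) : 2 * k ≤ Fintype.card ι := by
  obtain ⟨α, β, i1, i2, i3, i4, e, hk, rfl⟩ := h
  rw [Fintype.card_congr e]
  simp only [Fintype.card_sum, Fintype.card_prod, Fintype.card_bool]
  omega

end sync

/-! ### Coprime orders -/

/-- The Good–Thomas factorization. -/
theorem F_coprime {m n : ℕ} (hm : m ≠ 0) (hn : n ≠ 0) (h : Nat.Coprime m n) :
    ∃ e f : Fin (m * n) ≃ Fin m × Fin n, F (m * n) = (tensor (F m) (F n)).submatrix e f := by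
  have hm' : 0 < m := Nat.pos_of_ne_zero hm
  have hn' : 0 < n := Nat.pos_of_ne_zero hn
  have hmn : 0 < m * n := by positivity
  let φ : Fin (m * n) → Fin m × Fin n := fun j =>
    (⟨j % m, Nat.mod_lt _ hm'⟩, ⟨j % n, Nat.mod_lt _ hn'⟩)
  have hφ : Function.Injective φ := by
    intro j k hjk
    simp only [φ, Prod.mk.injEq, Fin.mk.injEq] at hjk
    have h1 : (j : ℕ) ≡ k [MOD m * n] := (Nat.modEq_and_modEq_iff_modEq_mul h).1 hjk
    exact Fin.ext (Nat.ModEq.eq_of_lt_of_lt h1 j.2 k.2)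
  let ψ : Fin m × Fin n → Fin (m * n) := fun p =>
    ⟨(p.1 * n + p.2 * m) % (m * n), Nat.mod_lt _ hmn⟩
  have hψ : Function.Injective ψ := by
    rintro ⟨a, b⟩ ⟨a', b'⟩ hab
    simp only [ψ, Fin.mk.injEq] at hab
    have h1 : (a * n + b * m : ℕ) ≡ a' * n + b' * m [MOD m * n] := hab
    have h2 : (a * n : ℕ) ≡ a' * n [MOD m] := by
      have h3 := h1.of_mul_right n
      have e1 : (b * m : ℕ) ≡ 0 [MOD m] := (Nat.modEq_zero_iff_dvd).2 (Dvd.intro_left _ rfl)
      have e2 : (b' * m : ℕ) ≡ 0 [MOD m] := (Nat.modEq_zero_iff_dvd).2 (Dvd.intro_left _ rfl)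
      have e3 := (Nat.ModEq.add_left (a * n : ℕ) e1).symm.trans (h3.trans
        (Nat.ModEq.add_left (a' * n : ℕ) e2))
      simpa using e3
    have h3 : (b * m : ℕ) ≡ b' * m [MOD n] := by
      have h3 := h1.of_mul_left m
      have e1 : (a * n : ℕ) ≡ 0 [MOD n] := (Nat.modEq_zero_iff_dvd).2 (Dvd.intro_left _ rfl)
      have e2 : (a' * n : ℕ) ≡ 0 [MOD n] := (Nat.modEq_zero_iff_dvd).2 (Dvd.intro_left _ rfl)
      have e3 := (Nat.ModEq.add_right (b * m : ℕ) e1).symm.trans (h3.trans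
        (Nat.ModEq.add_right (b' * m : ℕ) e2))
      simpa using e3
    have h4 : (a : ℕ) ≡ a' [MOD m] := Nat.ModEq.cancel_right_of_coprime h h2
    have h5 : (b : ℕ) ≡ b' [MOD n] := Nat.ModEq.cancel_right_of_coprime h.symm h3
    rw [Fin.ext (Nat.ModEq.eq_of_lt_of_lt h4 a.2 a'.2),
      Fin.ext (Nat.ModEq.eq_of_lt_of_lt h5 b.2 b'.2)]
  have hcard : Fintype.card (Fin (m * n)) = Fintype.card (Fin m × Fin n) := by simp
  let e : Fin (m * n) ≃ Fin m × Fin n :=
    Equiv.ofBijective φ ((Fintype.bijective_iff_injective_and_card φ).2 ⟨hφ, hcard⟩)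
  let f : Fin m × Fin n ≃ Fin (m * n) :=
    Equiv.ofBijective ψ ((Fintype.bijective_iff_injective_and_card ψ).2 ⟨hψ, hcard.symm⟩)
  refine ⟨e, f.symm, ?_⟩
  ext j k
  obtain ⟨⟨k1, k2⟩, rfl⟩ := f.surjective k
  rw [Matrix.submatrix_apply, Equiv.symm_apply_apply, F_apply, tensor_apply, F_apply, F_apply]
  have h1 : ((f (k1, k2) : Fin (m * n)) : ℕ) = (k1 * n + k2 * m) % (m * n) := rfl
  have h2 : ((e j).1 : ℕ) = j % m := rfl
  have h3 : ((e j).2 : ℕ) = j % n := rfl
  rw [h1, h2, h3, mul_comm (j : ℕ), zeta_pow_mod (by positivity), zeta_pow_mod hm,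
    zeta_pow_mod hn]
  rw [show (k1 * n + k2 * m) * (j : ℕ) = n * (j * k1) + m * (j * k2) by ring, pow_add,
    pow_mul _ n, pow_mul _ m]
  congr 1
  · congr 1
    rw [mul_comm m n]
    exact zeta_pow_left hm hn
  · congr 1
    exact zeta_pow_left hn hm

/-- Rearranging a tensor product of four factors. -/
theorem Eqv.tensor_four {ι κ μ ν : Type} (A : Matrix ι ι ℂ) (B : Matrix κ κ ℂ)
    (C : Matrix μ μ ℂ) (D : Matrix ν ν ℂ) :
    Eqv (H715.tensor (H715.tensor A B) (H715.tensor C D))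
      (H715.tensor (H715.tensor A C) (H715.tensor B D)) :=
  ⟨Equiv.prodProdProdComm _ _ _ _, by
    ext ⟨⟨a, b⟩, c, d⟩ ⟨⟨a', b'⟩, c', d'⟩
    simp only [tensor_apply, Matrix.submatrix_apply, Equiv.prodProdProdComm_apply]
    ring⟩

/-- Many coprime orders, synchronized. -/
theorem word_prod {a b : ℝ} (ha : 0 ≤ a) (h : Rate a b) {t : ℕ} (f : ℕ → ℕ)
    (hf : ∀ i, f i ≠ 0) (q : ℕ) (hcop : ∀ i j, i < j → j < q → Nat.Coprime (f i) (f j))
    (hw : ∀ i < q, Word Layer t (tensor (1 : Matrix (Fin 3 × Bool) (Fin 3 × Bool) ℂ) (F (f i)))) :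
    Word (Cheap a b (q : ℝ)) t (tensor (1 : Matrix (Fin (6 ^ q)) (Fin (6 ^ q)) ℂ)
      (F (∏ i ∈ Finset.range q, f i))) := by
  induction q with
  | zero =>
    have h1 : tensor (1 : Matrix (Fin (6 ^ 0)) (Fin (6 ^ 0)) ℂ)
        (F (∏ i ∈ Finset.range 0, f i)) = 1 := by
      rw [← tensor_one]
      congr 1
      ext i j
      have hi : i = j := Subsingleton.elim (α := Fin 1) i j
      have hj : (j : ℕ) = 0 := Nat.lt_one_iff.1 j.2
      rw [F_apply, hi, Matrix.one_apply_eq, hj]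
      simp
    rw [h1]
    refine Word.one.pad' ?_ (Nat.zero_le _)
    rw [Nat.cast_zero]
    refine (Cheap.unit h).eqv ?_
    have e : Fin (6 ^ 0) × Fin (∏ i ∈ Finset.range 0, f i) ≃ Unit :=
      Fintype.equivOfCardEq (by rw [Fintype.card_prod, Fintype.card_fin, Fintype.card_fin]; simp)
    exact ⟨e, by rw [Matrix.submatrix_one_equiv]⟩
  | succ q ih =>
    have h1 := ih (fun i j hij hj => hcop i j hij (by omega)) fun i hi => hw i (by omega)
    have h2 := hw q (by omega)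
    have h3 : Word (Cheap a b ((q + 1 : ℕ) : ℝ)) t
        (tensor (tensor (1 : Matrix (Fin 3 × Bool) (Fin 3 × Bool) ℂ) (F (f q)))
          (tensor (1 : Matrix (Fin (6 ^ q)) (Fin (6 ^ q)) ℂ)
            (F (∏ i ∈ Finset.range q, f i)))) := by
      refine Word.tensor ?_ h2 h1
      rintro S T ⟨k, -, hS⟩ hT
      have h4 : 2 * (k : ℝ) ≤ 1 * Fintype.card ((Fin 3 × Bool) × Fin (f q)) := by
        rw [one_mul]
        exact_mod_cast hS.card_le
      have h5 := Cheap.tensor hS h4 ha hT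
      rwa [show (1 : ℝ) + q = ((q + 1 : ℕ) : ℝ) by push_cast; ring] at h5
    have hcop' : Nat.Coprime (f q) (∏ i ∈ Finset.range q, f i) := by
      rw [Nat.coprime_prod_right_iff]
      intro i hi
      exact (hcop i q (Finset.mem_range.1 hi) (by omega)).symm
    have hprod : ∏ i ∈ Finset.range q, f i ≠ 0 := Finset.prod_ne_zero_iff.2 fun i _ => hf i
    obtain ⟨e, g, heg⟩ := F_coprime (hf q) hprod hcop'
    rw [Finset.prod_range_succ, mul_comm, heg]
    -- names
    obtain ⟨u, hu⟩ := Eqv.tensor_four (1 : Matrix (Fin 3 × Bool) (Fin 3 × Bool) ℂ) (F (f q))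
      (1 : Matrix (Fin (6 ^ q)) (Fin (6 ^ q)) ℂ) (F (∏ i ∈ Finset.range q, f i))
    have v : Fin (6 ^ (q + 1)) ≃ (Fin 3 × Bool) × Fin (6 ^ q) :=
      Fintype.equivOfCardEq (by simp [pow_succ]; ring)
    have h4 : tensor (1 : Matrix (Fin (6 ^ (q + 1))) (Fin (6 ^ (q + 1))) ℂ)
        ((tensor (F (f q)) (F (∏ i ∈ Finset.range q, f i))).submatrix e g) =
        (tensor (tensor (1 : Matrix (Fin 3 × Bool) (Fin 3 × Bool) ℂ) (F (f q)))
          (tensor (1 : Matrix (Fin (6 ^ q)) (Fin (6 ^ q)) ℂ)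
            (F (∏ i ∈ Finset.range q, f i)))).submatrix
          ((Equiv.prodCongr v e).trans u.symm) ((Equiv.prodCongr v g).trans u.symm) := by
      rw [hu, Matrix.submatrix_submatrix]
      ext ⟨x, y⟩ ⟨x', y'⟩
      simp [tensor_one, Matrix.one_apply]
    rw [h4]
    refine h3.submatrix₂' _ _ fun S hS => hS.eqv ⟨_, rfl⟩

/-- The number of gates for many transforms of a product of coprime orders. -/
theorem LMany_prod {a b : ℝ} (ha : 0 ≤ a) (h : Rate a b) {t : ℕ} (f : ℕ → ℕ)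
    (hf : ∀ i, f i ≠ 0) (q : ℕ) (hcop : ∀ i j, i < j → j < q → Nat.Coprime (f i) (f j))
    (hw : ∀ i < q, Word Layer t (tensor (1 : Matrix (Fin 3 × Bool) (Fin 3 × Bool) ℂ) (F (f i)))) :
    (LMany (6 ^ q) (∏ i ∈ Finset.range q, f i) : ℝ) ≤
      6 ^ q * (∏ i ∈ Finset.range q, f i : ℕ) * (t * (a * q + b) + (t + 1)) := by
  have h1 := word_prod ha h f hf q hcop hw
  have h2 := h1.imp (G₂ := fun S => ∃ s : ℕ, Cost S s ∧ (s : ℝ) ≤
    Fintype.card (Fin (6 ^ q) × Fin (∏ i ∈ Finset.range q, f i)) * (a * q + b))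
    fun S hS => hS.cost
  obtain ⟨s, ⟨d, hs⟩, hb⟩ := h2.cost
  have h3 : Blk Set.univ (dfts (6 ^ q) (∏ i ∈ Finset.range q, f i)) s d := by
    convert hs using 1
    funext p x
    obtain ⟨i, j⟩ := p
    simp only [dfts, dft_def, tensor_apply, Fintype.sum_prod_type, Matrix.one_apply, F_apply]
    rw [Finset.sum_eq_single i]
    · simp
    · intro i' _ hi'
      simp [Ne.symm hi']
    · intro hi
      exact absurd (Finset.mem_univ _) hi
  obtain ⟨s', hs', hc⟩ := h3.computes (D := ⊤) le_top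
  have h4 : (LMany (6 ^ q) (∏ i ∈ Finset.range q, f i) : ℝ) ≤ s := by
    have h5 : LMany (6 ^ q) (∏ i ∈ Finset.range q, f i) ≤ s' := Nat.sInf_le hc
    exact_mod_cast h5.trans hs'
  refine h4.trans (hb.trans (le_of_eq ?_))
  rw [Fintype.card_prod, Fintype.card_fin, Fintype.card_fin]
  push_cast
  ring

end Vale.Agent.P344.R2.H715
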