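import Vale.Agent.P344.R2.H715.Final

/-!
# Forms of Q1
-/

namespace Vale.Agent.P344.R2.H715

open Filter Asymptotics

/-- If the constant vanishes, `L(n) = o(n log n)`. -/
theorem isLittleO_of_gam_eq_zero (h0 : gam = 0) :
    (fun n : ℕ => (L n : ℝ)) =o[atTop] fun n : ℕ => (n : ℝ) * Real.logb 2 n := by
  rw [isLittleO_iff]
  intro ε hε
  obtain ⟨_, _, _, _, h⟩ := upper hε
  filter_upwards [h, eventually_ge_atTop 2] with n hn hn2
  obtain ⟨s, hs, hb⟩ := hn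
  rw [h0, mul_zero, zero_add] at hb
  have h2 := logb_pos_of_two_le hn2
  have hn0 : (0 : ℝ) < n := by exact_mod_cast (by omega : 0 < n)
  rw [Real.norm_of_nonneg (Nat.cast_nonneg _), Real.norm_of_nonneg (by positivity)]
  have h3 : (L n : ℝ) ≤ s := by exact_mod_cast L_le hs
  linarith

/-- One short program, possibly with borrowed cells, makes the constant vanish. -/
theorem gam_eq_zero_of_borrow {m w r : ℕ} (h : InPlace r (borrow w (zetaMat m)))
    (hr : r < m * 2 ^ (m - 1)) : gam = 0 := by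
  rcases eq_or_lt_of_le gam_nonneg with h0 | h0
  · exact h0.symm
  · exact absurd ((noShort_of_gam_pos h0).borrow h) (not_le.2 hr)

/-- The explicit bounds. -/
theorem NoShort.bounds (h : NoShort) :
    (∀ n : ℕ, 2 ≤ n → (n : ℝ) * Real.logb 2 n ≤ 576 * (L n + n)) ∧
    (∀ m : ℕ, m * 2 ^ m ≤ 144 * L (2 ^ m - 1) + 318 * 2 ^ m) := by
  have h1 : ∀ m : ℕ, m * 2 ^ m ≤ 144 * L (2 ^ m - 1) + 318 * 2 ^ m := by
    intro m
    obtain ⟨s, hs, hc⟩ := exists_computes_zetaForms m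
    have := h.circuit hc
    omega
  refine ⟨fun n hn => ?_, h1⟩
  have h2 := lower_one hn
  have h3 := gam_ge h1
  have h4 := logb_pos_of_two_le hn
  have h5 : 1 / 576 * ((n : ℝ) * Real.logb 2 n) ≤ gam * (n * Real.logb 2 n) :=
    mul_le_mul_of_nonneg_right h3 (by positivity)
  linarith

/-- Q1 for in-place programs. -/
theorem inPlace_of_gam_pos (h : 0 < gam) : ∃ c : ℝ, 0 < c ∧ ∀ᶠ n : ℕ in atTop,
    ∀ N w r : ℕ, 1 ≤ N → InPlace r (borrow w (dftCopies N n)) →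
      c * (N * (n * Real.logb 2 n)) ≤ r := by
  refine ⟨gam / 4, by linarith, ?_⟩
  filter_upwards [eventually_logb_ge (4 / gam), eventually_ge_atTop 2] with n hn hn2 N w r hN hr
  have h1 := lower hN hn2
  have h2 : (LMany N n : ℝ) ≤ 2 * r + N * n := by exact_mod_cast LMany_le_of_inPlace hr
  have hn0 : (0 : ℝ) < n := by exact_mod_cast (by omega : 0 < n)
  have hN0 : (0 : ℝ) < N := by exact_mod_cast (by omega : 0 < N)
  rw [div_le_iff₀ h] at hn
  have h3 : (N : ℝ) * n * 4 ≤ N * n * (Real.logb 2 n * gam) :=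
    mul_le_mul_of_nonneg_left hn (by positivity)
  nlinarith

theorem q1_of_inPlace {c : ℝ} (hc : 0 < c) (h : ∀ᶠ n : ℕ in atTop,
    ∀ N w r : ℕ, 1 ≤ N → InPlace r (borrow w (dftCopies N n)) →
      c * (N * (n * Real.logb 2 n)) ≤ r) :
    ∃ c : ℝ, 0 < c ∧ ∀ᶠ n : ℕ in atTop, c * (n * Real.logb 2 n) ≤ L n := by
  refine ⟨c / 24, by linarith, ?_⟩
  filter_upwards [h, eventually_logb_ge (6 / c), eventually_ge_atTop 2] with n hn hl hn2
  have hn0 : (0 : ℝ) < n := by exact_mod_cast (by omega : 0 < n)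
  have h1 := word_dftCopies (n := n) (h := L n + 1) (by omega) (by
    rw [Nat.add_sub_cancel]
    nlinarith [Nat.zero_le (L n)])
  obtain ⟨r, hr, h2⟩ := (h1.sum_one (κ := Fin 0)).inPlace
  have h3 := hn (2 * (L n + 1)) 0 r (by omega) h2
  have h4 : (r : ℝ) ≤ (L n + 1) * (24 * L n + 6 * n) := by exact_mod_cast hr
  have h5 : (0 : ℝ) < L n + 1 := by positivity
  push_cast at h3
  have h6 : (L n + 1 : ℝ) * (2 * c * (n * Real.logb 2 n)) ≤ (L n + 1) * (24 * L n + 6 * n) := by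
    linarith
  have h7 := le_of_mul_le_mul_left h6 h5
  rw [div_le_iff₀ hc] at hl
  have h8 : (n : ℝ) * 6 ≤ n * (Real.logb 2 n * c) := mul_le_mul_of_nonneg_left hl hn0.le
  linarith

/-- Lower bounds for the zeta transform, for infinitely many orders. -/
theorem gam_pos_of_zeta {c : ℝ} (hc : 0 < c) (h : ∃ᶠ m : ℕ in atTop, ∀ s : ℕ,
    Computes Set.univ ⊤ (zetaForms m) s → c * (m * 2 ^ m) ≤ s) : 0 < gam := by
  by_contra hcon
  have h0 : gam = 0 := le_antisymm (not_lt.1 hcon) gam_nonneg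
  obtain ⟨_, _, _, _, hup⟩ := upper (show 0 < c / 12 by linarith)
  have ht : Tendsto (fun m : ℕ => 2 ^ m - 1) atTop atTop := by
    refine tendsto_atTop_mono (fun m => ?_) tendsto_id
    have : m < 2 ^ m := Nat.lt_two_pow_self
    simp only [id]
    omega
  obtain ⟨M, hM⟩ := exists_nat_gt (26 / c)
  obtain ⟨m, hm, ⟨s', hs', hb⟩, hmM⟩ :=
    (h.and_eventually ((ht.eventually hup).and (eventually_ge_atTop (M + 2)))).exists
  rw [h0, mul_zero, zero_add] at hb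
  obtain ⟨s, hs, hcs⟩ := exists_computes_zetaForms m
  have h1 := hm s hcs
  have h2 : (s : ℝ) ≤ 6 * L (2 ^ m - 1) + 13 * 2 ^ m := by exact_mod_cast hs
  have hL : (L (2 ^ m - 1) : ℝ) ≤ s' := by exact_mod_cast L_le hs'
  have hm2 : 2 ≤ m := by omega
  have h2m : 2 ≤ 2 ^ m - 1 := by
    have : 2 ^ 2 ≤ 2 ^ m := Nat.pow_le_pow_right (by norm_num) hm2
    omega
  have h00 : (0 : ℝ) < ((2 ^ m - 1 : ℕ) : ℝ) := by exact_mod_cast (by omega : 0 < 2 ^ m - 1)
  have h11 : ((2 ^ m - 1 : ℕ) : ℝ) ≤ 2 ^ m := by exact_mod_cast Nat.sub_le _ _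
  have h3 : Real.logb 2 ((2 ^ m - 1 : ℕ) : ℝ) ≤ m := by
    calc Real.logb 2 ((2 ^ m - 1 : ℕ) : ℝ) ≤ Real.logb 2 ((2 : ℝ) ^ m) :=
          Real.logb_le_logb_of_le (by norm_num) h00 h11
      _ = m := by rw [Real.logb_pow, Real.logb_self_eq_one (by norm_num), mul_one]
  have h4 : 0 ≤ Real.logb 2 ((2 ^ m - 1 : ℕ) : ℝ) := by
    have := logb_pos_of_two_le h2m
    linarith
  have h5 : ((2 ^ m - 1 : ℕ) : ℝ) * Real.logb 2 ((2 ^ m - 1 : ℕ) : ℝ) ≤ 2 ^ m * m :=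
    mul_le_mul h11 h3 h4 (by positivity)
  have h6 : (L (2 ^ m - 1) : ℝ) ≤ c / 12 * (2 ^ m * m) :=
    hL.trans (hb.trans (mul_le_mul_of_nonneg_left h5 (by positivity)))
  have hMm : (M : ℝ) + 2 ≤ m := by exact_mod_cast hmM
  rw [div_lt_iff₀ hc] at hM
  have h7 : 26 * (2 : ℝ) ^ m < c * m * 2 ^ m := by
    refine mul_lt_mul_of_pos_right ?_ (by positivity)
    nlinarith
  nlinarith

/-- The forms of Q1. -/
theorem forms_tfae : List.TFAE [
    ∃ c : ℝ, 0 < c ∧ ∀ᶠ n : ℕ in atTop, c * (n * Real.logb 2 n) ≤ L n,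
    ∀ m : ℕ, IsLeast {r | InPlace r (zetaMat m)} (m * 2 ^ (m - 1)),
    ∀ m w r : ℕ, InPlace r (borrow w (zetaMat m)) → m * 2 ^ (m - 1) ≤ r,
    ∀ n : ℕ, 2 ≤ n → (n : ℝ) * Real.logb 2 n ≤ 576 * (L n + n),
    ∀ m : ℕ, m * 2 ^ m ≤ 144 * L (2 ^ m - 1) + 318 * 2 ^ m,
    ∀ m s : ℕ, Computes Set.univ ⊤ (zetaForms m) s → m * 2 ^ m ≤ 24 * s + 6 * 2 ^ m,
    ∃ c : ℝ, 0 < c ∧ ∃ᶠ m : ℕ in atTop, ∀ s : ℕ,
      Computes Set.univ ⊤ (zetaForms m) s → c * (m * 2 ^ m) ≤ s,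
    ∃ c : ℝ, 0 < c ∧ ∀ᶠ n : ℕ in atTop, ∀ N w r : ℕ, 1 ≤ N →
      InPlace r (borrow w (dftCopies N n)) → c * (N * (n * Real.logb 2 n)) ≤ r] := by
  have h21 : (∃ c : ℝ, 0 < c ∧ ∀ᶠ n : ℕ in atTop, c * (n * Real.logb 2 n) ≤ L n) ↔ 0 < gam :=
    tfae_main.out 0 1
  tfae_have 1 → 8 := fun h => inPlace_of_gam_pos (h21.1 h)
  tfae_have 8 → 1 := fun ⟨c, hc, h⟩ => q1_of_inPlace hc h
  tfae_have 1 → 2 := fun h m => ⟨inPlace_zetaMat m, fun r hr =>
    noShort_iff.1 (noShort_of_gam_pos (h21.1 h)) m r hr⟩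
  tfae_have 2 → 3 := fun h m w r hr =>
    (noShort_iff.2 fun m r hr => (h m).2 hr).borrow hr
  tfae_have 3 → 6 := by
    intro h m s hs
    have h1 : NoShort := by
      refine noShort_iff.2 fun m r hr => ?_
      obtain ⟨r', hr', h2⟩ := (hr.word.sum_one (κ := Fin 0)).inPlace
      exact (h m 0 r' h2).trans hr'
    exact h1.circuit hs
  tfae_have 6 → 5 := by
    intro h m
    obtain ⟨s, hs, hc⟩ := exists_computes_zetaForms m
    have := h m s hc
    omega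
  tfae_have 5 → 4 := by
    intro h1 n hn
    have h2 := lower_one hn
    have h3 := gam_ge h1
    have h4 := logb_pos_of_two_le hn
    have h5 : 1 / 576 * ((n : ℝ) * Real.logb 2 n) ≤ gam * (n * Real.logb 2 n) :=
      mul_le_mul_of_nonneg_right h3 (by positivity)
    linarith
  tfae_have 4 → 1 := by
    intro h
    refine absorb (c := 1 / 576) (by norm_num) fun n hn => ?_
    have := h n hn
    linarith
  tfae_have 6 → 7 := by
    intro h
    refine ⟨1 / 25, by norm_num, Filter.Eventually.frequently ?_⟩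
    filter_upwards [eventually_ge_atTop 150] with m hm s hs
    have h1 : (m : ℝ) * 2 ^ m ≤ 24 * s + 6 * 2 ^ m := by exact_mod_cast h m s hs
    have h2 : (150 : ℝ) ≤ m := by exact_mod_cast hm
    have h3 : (150 : ℝ) * 2 ^ m ≤ m * 2 ^ m := mul_le_mul_of_nonneg_right h2 (by positivity)
    linarith
  tfae_have 7 → 1 := fun ⟨c, hc, h⟩ => h21.2 (gam_pos_of_zeta hc h)
  tfae_finish

end Vale.Agent.P344.R2.H715
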